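import Vale.Agent.P281.H511.D.Form
import Vale.Agent.P281.H64.TE.Spec

/-!
# P281, project T-UD (helper511): fibres immersed in tori, with a divisor
-/

open scoped Manifold ContDiff Topology
open Set Filter Metric Module

noncomputable section

namespace Vale.Agent.P281.H511.UD

open Vale.Agent.P281 Vale.Agent.P281.MF Vale.Agent.P281.ISO Vale.Agent.P281.ELL
open Vale.Agent.P281.H713 Vale.Agent.P281.H64.TU Vale.Agent.P281.H511.D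

section Fam

variable (E E' : Type) [NormedAddCommGroup E] [NormedSpace ℂ E]
  [NormedAddCommGroup E'] [NormedSpace ℂ E']
variable {X Y : Type} [TopologicalSpace X] [ChartedSpace E X]
  [TopologicalSpace Y] [ChartedSpace E' Y]
variable {V : Type} [NormedAddCommGroup V] [InnerProductSpace ℂ V] [FiniteDimensional ℂ V]

/-- A family of manifolds with maps to tori (multi-valued: `L a x β w` means that near `x` the map `β`
is one of the lifts to `V` of the map to the torus, and `w` the corresponding family of cubic forms on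
`V`, holomorphic off the divisors in `𝒜`). -/
structure IsUD {n : ℕ} (d : ℕ) (T : Tame (Fin d → ℂ) X) (f : X → Y) (S : Set Y)
    (Q : (Fin n → ℝ) → (Fin n → ℝ) → ℝ) {ι : Type} (U : ι → Set Y)
    (π : ι → Y → ((Fin n → ℝ) ≃L[ℝ] V)) (𝒜 : Set (Set X))
    (L : ι → X → (X → V) → (X → Cub V) → Prop) : Prop
    extends IsPeriodFamily E' S Q U π where
  coord : ∀ x, f x ∉ S → ∃ ζ : X → (Fin d → ℂ), IsFibreCoord E E' f ζ x
  lift : ∀ a x, f x ∈ U a → ∃ β w, L a x β w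
  liftHol : ∀ a x β w, L a x β w → ContMDiffAt 𝓘(ℂ, E) 𝓘(ℂ, V) ω β x
  pole : ∀ a x β w, L a x β w → ∀ (F : Finset (Set X)) (e : Set X → X → ℂ), (∀ D ∈ 𝒜, D ∈ F) →
    (∀ D ∈ F, IsLocalEq E D (e D) x) → ∃ H : X → Cub V,
      ContMDiffAt 𝓘(ℂ, E) 𝓘(ℂ, Cub V) ω H x ∧
      ∀ᶠ z in 𝓝 x, (∀ D ∈ 𝒜, z ∉ D) → (∏ D ∈ F, e D z) ^ 3 • w z = H z
  near : ∀ a x β w, L a x β w → ∀ᶠ z in 𝓝 x, L a z β w
  change : ∀ a b x, f x ∈ U a → f x ∈ U b → ∀ β w β' w', L a x β w → L b x β' w' →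
    ∃ (G : V ≃L[ℂ] V) (c : V), IsPeriodChange Q (π a (f x)) (π b (f x)) G ∧
      ∀ᶠ z in 𝓝 x, f z = f x → β' z = G (β z) + c ∧ ((∀ D ∈ 𝒜, z ∉ D) →
        w z = (w' z).compContinuousLinearMap fun _ => (G : V →L[ℂ] V))
  bound : ∃ M : ℕ, ∀ ρ K : ℝ, 0 < ρ → 0 < K → ∃ B : ℝ, ∀ (a : ι) (q : (Fin d → ℂ) → X)
    (v₀ : Fin d → ℂ), IsPolydisc E f q v₀ ρ → T K q v₀ ρ → f (q v₀) ∈ U a →
    (∀ v ∈ ball v₀ ρ, ∀ D ∈ 𝒜, q v ∉ D) → ∃ (h : (Fin d → ℂ) → V) (β : X → V) (w : X → Cub V),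
      DifferentiableOn ℂ h (ball v₀ ρ) ∧ L a (q v₀) β w ∧ (∀ᶠ v in 𝓝 v₀, β (q v) = h v) ∧
      ∀ G : V ≃L[ℂ] V, (∀ x x', (inner ℂ (G (π a (f (q v₀)) x)) (G (π a (f (q v₀)) x'))).im =
        Q x x') → (∀ v ∈ ball v₀ (ρ / 2), ‖fderiv ℂ (fun u => G (h u)) v‖ ≤ B) ∧
        ∀ m : Fin d → (V →L[ℂ] ℂ), (∀ i, ‖m i‖ ≤ 1) →
          ‖minor m (fun u => G (h u)) v₀‖ ^ M *
            ‖(w (q v₀)).compContinuousLinearMap fun _ => (G.symm : V →L[ℂ] V)‖ ≤ B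

/-- The rank of the Gauss map of `h` together with the cubic forms `g` is at least `r` at `v`. -/
def RankUDAt {d : ℕ} (r : ℕ) (h : (Fin d → ℂ) → V) (g : (Fin d → ℂ) → Cub V)
    (v : Fin d → ℂ) : Prop :=
  ∃ (m : Fin (r + 1) → Fin d → (V →L[ℂ] ℂ)) (Λ : Fin (r + 1) → ((ℂ × Cub V) →L[ℂ] ℂ)),
    minor (m 0) h v * Λ 0 (1, g v) ≠ 0 ∧
    Function.Surjective fun (ξ : Fin d → ℂ) (k : Fin r) =>
      fderiv ℂ (fun u => (minor (m k.succ) h u * Λ k.succ (1, g u)) /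
        (minor (m 0) h u * Λ 0 (1, g u))) v ξ

/-- The rank of the fibre over `y` is at least `r`, and its image generates the torus. -/
def RankUD {d : ℕ} (f : X → Y) {ι : Type} (U : ι → Set Y) (𝒜 : Set (Set X))
    (L : ι → X → (X → V) → (X → Cub V) → Prop) (r : ℕ) (y : Y) : Prop :=
  ∃ a, y ∈ U a ∧ ∃ (q : (Fin d → ℂ) → X) (v₀ : Fin d → ℂ),
    ContMDiffAt 𝓘(ℂ, Fin d → ℂ) 𝓘(ℂ, E) ω q v₀ ∧ (∀ᶠ v in 𝓝 v₀, f (q v) = y) ∧
    (∀ D ∈ 𝒜, q v₀ ∉ D) ∧ ∀ β w, L a (q v₀) β w →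
      RankUDAt r (fun v => β (q v)) (fun v => w (q v)) v₀ ∧
      ∀ l : V →L[ℂ] ℂ, (∀ᶠ v in 𝓝 v₀, l (β (q v)) = l (β (q v₀))) → l = 0

end Fam

/-- The forms of the families of T-UD. -/
def HasUDStmt : Prop :=
  ∀ (d r n : ℕ) (E E' : Type) [NormedAddCommGroup E] [NormedSpace ℂ E] [FiniteDimensional ℂ E]
    [NormedAddCommGroup E'] [NormedSpace ℂ E'] [FiniteDimensional ℂ E']
    (X Y : Type) [TopologicalSpace X] [ChartedSpace E X] [IsManifold 𝓘(ℂ, E) ω X]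
    [TopologicalSpace Y] [ChartedSpace E' Y] [IsManifold 𝓘(ℂ, E') ω Y]
    (V : Type) [NormedAddCommGroup V] [InnerProductSpace ℂ V] [FiniteDimensional ℂ V]
    (T : Tame (Fin d → ℂ) X) (f : X → Y) (S : Set Y)
    (Q : (Fin n → ℝ) → (Fin n → ℝ) → ℝ) (ι : Type) (U : ι → Set Y)
    (π : ι → Y → ((Fin n → ℝ) ≃L[ℝ] V)) (𝒜 : Set (Set X))
    (L : ι → X → (X → V) → (X → Cub V) → Prop)
    (e₀ : E ≃L[ℂ] (E' × (Fin d → ℂ))) (Δ : Set X → ℝ), 0 < d →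
    ContMDiff 𝓘(ℂ, E) 𝓘(ℂ, E') ω f → IsUD E E' d T f S Q U π 𝒜 L → 𝒜.Finite →
    (∀ D ∈ 𝒜, IsPrimeDivisor E D) → (∀ D, 0 ≤ Δ D) → (∀ D ∈ 𝒜, 0 < Δ D) → ∀ y ∉ S,
    RankUD E (d := d) f U 𝒜 L r y → HasFormsT T f S e₀ Δ r y

end Vale.Agent.P281.H511.UD
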