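import Vale.Agent.P281.H511.UD.Rho
import Vale.Agent.P281.H303.UD.Spec

/-!
# P281, project T-UD (helper511): the linear part of the family of orbits
-/

open scoped Manifold ContDiff Topology
open Set Filter Metric Module

noncomputable section

namespace Vale.Agent.P281.H511.UD

open Vale.Agent.P281 Vale.Agent.P281.H713 Vale.Agent.P281.H511.D
open Vale.Agent.P281.H64.TD (zr)
open Vale.Agent.P281.H303.UD (IsPolz)

variable {V : Type} [NormedAddCommGroup V] [InnerProductSpace ℂ V] [FiniteDimensional ℂ V]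
variable {Vb : Type} [NormedAddCommGroup Vb] [InnerProductSpace ℂ Vb] [FiniteDimensional ℂ Vb]
variable {n : ℕ}

/-- The change of periods `G` respects the sublattices. -/
structure IsChg (Q : (Fin n → ℝ) → (Fin n → ℝ) → ℝ) (π π' : (Fin n → ℝ) ≃L[ℝ] V)
    (Λ Λ' : AddSubgroup (Fin n → ℤ)) (G : V ≃L[ℂ] V) : Prop where
  chg : IsPeriodChange Q π π' G
  fwd : ∀ k ∈ Λ, ∃ k' ∈ Λ', G (π (zr k)) = π' (zr k')
  bwd : ∀ k' ∈ Λ', ∃ k ∈ Λ, G (π (zr k)) = π' (zr k')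

theorem IsChg.latMap {Q : (Fin n → ℝ) → (Fin n → ℝ) → ℝ} {π π' : (Fin n → ℝ) ≃L[ℝ] V}
    {Λ Λ' : AddSubgroup (Fin n → ℤ)} {G : V ≃L[ℂ] V} (h : IsChg Q π π' Λ Λ' G) :
    IsLatMap Q Λ Λ' ((π'.symm : V →L[ℝ] (Fin n → ℝ)).comp
      (((G : V →L[ℂ] V).restrictScalars ℝ).comp (π : (Fin n → ℝ) →L[ℝ] V))) where
  inj := by
    intro x x' hx
    exact π.injective (G.injective (π'.symm.injective hx))
  form x x' := h.chg.2.2 x x'
  fwd k hk := by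
    obtain ⟨k', hk', h1⟩ := h.fwd k hk
    refine ⟨k', hk', ?_⟩
    change π'.symm (G (π (zr k))) = _
    rw [h1, π'.symm_apply_apply]
  bwd k hk := by
    obtain ⟨k', hk', h1⟩ := h.bwd k hk
    refine ⟨k', hk', ?_⟩
    change π'.symm (G (π (zr k'))) = _
    rw [h1, π'.symm_apply_apply]

/-- `G` maps the subspace spanned by `Λ` onto the subspace spanned by `Λ'`. -/
theorem IsChg.mem_iff {Q : (Fin n → ℝ) → (Fin n → ℝ) → ℝ} {π π' : (Fin n → ℝ) ≃L[ℝ] V}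
    {Λ Λ' : AddSubgroup (Fin n → ℤ)} {G : V ≃L[ℂ] V} (h : IsChg Q π π' Λ Λ' G)
    {B B' : Submodule ℂ V}
    (hB : ∀ x, π x ∈ B ↔ x ∈ Submodule.span ℝ (zr '' (Λ : Set (Fin n → ℤ))))
    (hB' : ∀ x, π' x ∈ B' ↔ x ∈ Submodule.span ℝ (zr '' (Λ' : Set (Fin n → ℤ)))) (v : V) :
    G v ∈ B' ↔ v ∈ B := by
  let M : (Fin n → ℝ) →ₗ[ℝ] (Fin n → ℝ) := ((π'.symm : V →L[ℝ] (Fin n → ℝ)).comp
      (((G : V →L[ℂ] V).restrictScalars ℝ).comp (π : (Fin n → ℝ) →L[ℝ] V)) :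
      (Fin n → ℝ) →L[ℝ] (Fin n → ℝ))
  have hM : ∀ x, M x = π'.symm (G (π x)) := fun x => rfl
  have hMinj : Function.Injective M := fun x x' hx =>
    π.injective (G.injective (π'.symm.injective hx))
  have key : (Submodule.span ℝ (zr '' (Λ : Set (Fin n → ℤ)))).map M =
      Submodule.span ℝ (zr '' (Λ' : Set (Fin n → ℤ))) := by
    rw [Submodule.map_span]
    congr 1
    ext x
    constructor
    · rintro ⟨_, ⟨k, hk, rfl⟩, rfl⟩
      obtain ⟨k', hk', h1⟩ := h.fwd k hk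
      refine ⟨k', hk', ?_⟩
      rw [hM, h1, π'.symm_apply_apply]
    · rintro ⟨k', hk', rfl⟩
      obtain ⟨k, hk, h1⟩ := h.bwd k' hk'
      refine ⟨zr k, ⟨k, hk, rfl⟩, ?_⟩
      rw [hM, h1, π'.symm_apply_apply]
  have h1 : G v = π' (M (π.symm v)) := by
    rw [hM, π.apply_symm_apply, π'.apply_symm_apply]
  have h2 : v = π (π.symm v) := (π.apply_symm_apply v).symm
  rw [h1, hB', ← key]
  conv_rhs => rw [h2, hB]
  constructor
  · rintro ⟨x, hx, hxv⟩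
    rwa [← hMinj hxv]
  · exact fun hx => ⟨_, hx, rfl⟩

variable (E' : Type) [NormedAddCommGroup E'] [NormedSpace ℂ E']
variable {Y : Type} [TopologicalSpace Y] [ChartedSpace E' Y]

/-- The linear fields of `IsOrbM`, on the refined cover `U'`. -/
structure IsLin {nb : ℕ} (S : Set Y) (Q : (Fin n → ℝ) → (Fin n → ℝ) → ℝ)
    (QB : (Fin nb → ℝ) → (Fin nb → ℝ) → ℝ) {ι ι' : Type} (U : ι → Set Y) (κ : ι' → ι)
    (U' : ι' → Set Y) (π : ι → Y → ((Fin n → ℝ) ≃L[ℝ] V)) (Λ : ι → AddSubgroup (Fin n → ℤ))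
    (B : ι → Y → Submodule ℂ V) (ϖ : ι' → Y → ((Fin nb → ℝ) ≃L[ℝ] Vb))
    (j : ι' → Y → Vb →L[ℂ] V) (ℓ : ι' → Y → V →L[ℂ] Vb)
    (ρ : ι' → ((Fin nb → ℝ) →L[ℝ] (Fin n → ℝ))) : Prop where
  sub : ∀ i, U' i ⊆ U (κ i)
  per : IsPeriodFamily E' S Q U' (fun i => π (κ i))
  famb : IsPeriodFamily E' S QB U' ϖ
  dim : ∀ i, ∀ y ∈ U' i, finrank ℂ (B (κ i) y) = finrank ℂ Vb
  lj : ∀ i, ∀ y ∈ U' i, ∀ b, ℓ i y (j i y b) = b
  jhol : ∀ i b, ∀ y ∈ U' i, ContMDiffAt 𝓘(ℂ, E') 𝓘(ℂ, V) ω (fun y => j i y b) y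
  lhol : ∀ i v, ∀ y ∈ U' i, ContMDiffAt 𝓘(ℂ, E') 𝓘(ℂ, Vb) ω (fun y => ℓ i y v) y
  norm : ∀ i, ∀ y ∈ U' i, ∀ G : V ≃L[ℂ] V, IsPolz Q (π (κ i) y) G → ∀ v,
    ‖G (j i y (ℓ i y v))‖ ≤ ‖G v‖
  rel : ∀ i, ∀ y ∈ U' i, ∀ G : V ≃L[ℂ] V, IsPolz Q (π (κ i) y) G → ∀ Gb : Vb ≃L[ℂ] Vb,
    IsPolz QB (ϖ i y) Gb → ∀ b, ‖Gb b‖ = ‖G (j i y b)‖
  rng : ∀ i, ∀ y ∈ U' i, ∀ v, v ∈ B (κ i) y ↔ ∃ b, j i y b = v
  jper : ∀ i, ∀ y ∈ U' i, ∀ t, j i y (ϖ i y t) = π (κ i) y (ρ i t)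
  rho : ∀ i, IsRho (Λ (κ i)) (ρ i)
  change : ∀ i i', ∀ y ∈ U' i ∩ U' i', ∀ G : V ≃L[ℂ] V,
    IsChg Q (π (κ i) y) (π (κ i') y) (Λ (κ i)) (Λ (κ i')) G → ∃ Gb : Vb ≃L[ℂ] Vb,
      IsPeriodChange QB (ϖ i y) (ϖ i' y) Gb ∧ (∀ v, j i' y (Gb v) = G (j i y v)) ∧
      ∀ v, ℓ i' y (G v) = Gb (ℓ i y v)

variable {E'}

/-- **The linear fields of `IsOrbM`.** -/
theorem exists_lin {S : Set Y} {Q : (Fin n → ℝ) → (Fin n → ℝ) → ℝ} {ι : Type} {U : ι → Set Y}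
    {π : ι → Y → ((Fin n → ℝ) ≃L[ℝ] V)} (hP : IsPeriodFamily E' S Q U π)
    (hS : IsPreconnected Sᶜ) {Λ : ι → AddSubgroup (Fin n → ℤ)} {B : ι → Y → Submodule ℂ V}
    (hB : ∀ a, ∀ y ∈ U a, ∀ x, π a y x ∈ B a y ↔
      x ∈ Submodule.span ℝ (zr '' (Λ a : Set (Fin n → ℤ))))
    (hch : ∀ a b, ∀ y ∈ U a ∩ U b, ∃ G, IsChg Q (π a y) (π b y) (Λ a) (Λ b) G) :
    ∃ (nb e : ℕ) (QB : (Fin nb → ℝ) → (Fin nb → ℝ) → ℝ) (ι' : Type) (κ : ι' → ι)
      (U' : ι' → Set Y) (ϖ : ι' → Y → ((Fin nb → ℝ) ≃L[ℝ] EuclideanSpace ℂ (Fin e)))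
      (j : ι' → Y → EuclideanSpace ℂ (Fin e) →L[ℂ] V)
      (ℓ : ι' → Y → V →L[ℂ] EuclideanSpace ℂ (Fin e))
      (ρ : ι' → ((Fin nb → ℝ) →L[ℝ] (Fin n → ℝ))),
      IsLin E' S Q QB U κ U' π Λ B ϖ j ℓ ρ := by
  classical
  obtain ⟨m, ρ, QB, hρ⟩ := exists_rhoFam (Q := Q) hS hP.cover hP.isOpen (Λ := Λ)
    fun a b ⟨y, hy⟩ => by
      obtain ⟨G, hG⟩ := hch a b y hy
      exact ⟨_, hG.latMap⟩
  have hB2 : ∀ a, ∀ y ∈ U a, ∀ v, v ∈ B a y ↔ ∃ t, v = π a y (ρ a t) := by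
    intro a y hy v
    have h1 := hB a y hy ((π a y).symm v)
    rw [(π a y).apply_symm_apply] at h1
    rw [h1, ((hρ a ⟨y, hy⟩).1).range]
    constructor
    · rintro ⟨t, ht⟩
      exact ⟨t, by rw [ht, (π a y).apply_symm_apply]⟩
    · rintro ⟨t, rfl⟩
      exact ⟨t, by rw [(π a y).symm_apply_apply]⟩
  -- the dimension
  have hdim : ∀ a, ∀ y ∈ U a, finrank ℂ (B a y) = m / 2 := by
    intro a y hy
    let A : (Fin m → ℝ) →ₗ[ℝ] V := ((π a y : (Fin n → ℝ) →L[ℝ] V).comp (ρ a) :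
      (Fin m → ℝ) →L[ℝ] V)
    have hA : Function.Injective A := fun t t' h =>
      (hρ a ⟨y, hy⟩).1.inj ((π a y).injective h)
    have h1 : LinearMap.range A = (B a y).restrictScalars ℝ := by
      ext v
      rw [Submodule.restrictScalars_mem, hB2 a y hy]
      constructor
      · rintro ⟨t, rfl⟩
        exact ⟨t, rfl⟩
      · rintro ⟨t, rfl⟩
        exact ⟨t, rfl⟩
    have h2 : finrank ℝ (LinearMap.range A) = m := by
      rw [LinearMap.finrank_range_of_inj hA, finrank_fin_fun]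
    rw [h1] at h2
    have h3 : finrank ℝ (B a y) = 2 * finrank ℂ (B a y) := finrank_real_of_complex _
    have h4 : finrank ℝ (B a y) = m := h2
    omega
  -- the polarization
  let G₀ : ι → Y → (V ≃L[ℂ] V) := fun a y =>
    if h : ∃ G, IsPol Q (π a y) G then h.choose else ContinuousLinearEquiv.refl ℂ V
  have hG₀ : ∀ a, ∀ y ∈ U a, IsPol Q (π a y) (G₀ a y) := by
    intro a y hy
    have h : ∃ G, IsPol Q (π a y) G := hP.polarized a y hy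
    have h1 : G₀ a y = h.choose := dif_pos h
    rw [h1]
    exact h.choose_spec
  -- the local trivializations
  have hloc : ∀ i : {p : ι × Y // p.2 ∈ U p.1}, ∃ (c : V →L[ℂ] EuclideanSpace ℂ (Fin (m / 2)))
      (p : Y → ((Fin m → ℝ) ≃L[ℝ] EuclideanSpace ℂ (Fin (m / 2))))
      (j : Y → (EuclideanSpace ℂ (Fin (m / 2)) →L[ℂ] V)) (O : Set Y), IsOpen O ∧ i.1.2 ∈ O ∧
      O ⊆ U i.1.1 ∧ ∀ y ∈ O, IsSubT (ρ i.1.1) (π i.1.1 y) (B i.1.1 y) c (p y) (j y) ∧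
        (∀ t, ContMDiffAt 𝓘(ℂ, E') 𝓘(ℂ, EuclideanSpace ℂ (Fin (m / 2))) ω (fun y => p y t) y) ∧
        ContMDiffAt 𝓘(ℂ, E') 𝓘(ℂ, EuclideanSpace ℂ (Fin (m / 2)) →L[ℂ] V) ω j y := by
    rintro ⟨⟨a, y₀⟩, hy₀⟩
    have hU : ∀ᶠ y in 𝓝 y₀, y ∈ U a := (hP.isOpen a).mem_nhds hy₀
    obtain ⟨c, p, j, h⟩ := exists_subT (E' := E') (W := EuclideanSpace ℂ (Fin (m / 2)))
      (ρ := ρ a) (hρ a ⟨y₀, hy₀⟩).1.inj (π := π a) (b := B a) (y₀ := y₀)
      (hU.mono fun y hy x => hP.hol a x y hy) (hU.mono fun y hy => hB2 a y hy)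
      (by rw [finrank_euclideanSpace_fin, hdim a y₀ hy₀])
    obtain ⟨O, hO, hO', hO₀⟩ := eventually_nhds_iff.1 (h.and hU)
    exact ⟨c, p, j, O, hO', hO₀, fun y hy => (hO y hy).2, fun y hy => (hO y hy).1⟩
  choose c p j O hOo hO0 hOU hO using hloc
  have hcov : ∀ y, y ∉ S ↔ ∃ i, y ∈ O i := by
    intro y
    rw [hP.cover]
    constructor
    · rintro ⟨a, ha⟩
      exact ⟨⟨(a, y), ha⟩, hO0 ⟨(a, y), ha⟩⟩
    · rintro ⟨i, hi⟩
      exact ⟨i.1.1, hOU i hi⟩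
  have hQ : ∀ i, ∀ y ∈ O i, ∀ t t', Q (ρ i.1.1 t) (ρ i.1.1 t') = QB t t' :=
    fun i y hy => (hρ i.1.1 ⟨y, hOU i hy⟩).2
  have hpol : ∀ i, ∀ y ∈ O i, ∀ Gb : EuclideanSpace ℂ (Fin (m / 2)) ≃L[ℂ] _,
      IsPol QB (p i y) Gb ↔ IsPol (fun t t' => Q (ρ i.1.1 t) (ρ i.1.1 t')) (p i y) Gb := by
    intro i y hy Gb
    have h1 : (fun t t' => Q (ρ i.1.1 t) (ρ i.1.1 t')) = QB := by
      funext t t'
      exact hQ i y hy t t'
    rw [h1]
  refine ⟨m, m / 2, QB, {p : ι × Y // p.2 ∈ U p.1}, fun i => i.1.1, O, p, j,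
    fun i y => (c i).comp (prb (G₀ i.1.1 y) (B i.1.1 y)), fun i => ρ i.1.1, ?_⟩
  have hne : ∀ i : {p : ι × Y // p.2 ∈ U p.1}, (U i.1.1).Nonempty := fun i => ⟨_, i.2⟩
  exact
  { sub := hOU
    per :=
      { cover := hcov
        isOpen := hOo
        hol := fun i x y hy => hP.hol i.1.1 x y (hOU i hy)
        polarized := fun i y hy => hP.polarized i.1.1 y (hOU i hy) }
    famb :=
      { cover := hcov
        isOpen := hOo
        hol := fun i x y hy => (hO i y hy).2.1 x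
        polarized := fun i y hy => by
          obtain ⟨Gb, hGb⟩ := (hO i y hy).1.exists_pol (hG₀ i.1.1 y (hOU i hy))
          exact ⟨Gb, (hpol i y hy Gb).2 hGb⟩ }
    dim := fun i y hy => by rw [hdim _ y (hOU i hy), finrank_euclideanSpace_fin]
    lj := fun i y hy b => by
      change c i (prb (G₀ i.1.1 y) (B i.1.1 y) (j i y b)) = b
      rw [prb_self _ ((hO i y hy).1.mem_j b), (hO i y hy).1.right]
    jhol := fun i b y hy => (hO i y hy).2.2.clm_apply contMDiffAt_const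
    lhol := fun i v y hy => by
      have h1 : ContMDiffAt 𝓘(ℂ, E') 𝓘(ℂ, V →L[ℂ] V) ω
          (fun y => prb (G₀ i.1.1 y) (B i.1.1 y)) y := by
        refine prb_hol (Q := Q) (π := π i.1.1) (fun x => hP.hol i.1.1 x y (hOU i hy)) ?_ ?_
        · filter_upwards [(hP.isOpen i.1.1).mem_nhds (hOU i hy)] with y' hy' using
            hG₀ i.1.1 y' hy'
        · filter_upwards [(hP.isOpen i.1.1).mem_nhds (hOU i hy)] with y' hy' x
          rw [hB _ y' hy', hB _ y (hOU i hy)]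
      have h2 : ContMDiffAt 𝓘(ℂ, E') 𝓘(ℂ, V) ω
          (fun y => prb (G₀ i.1.1 y) (B i.1.1 y) v) y := h1.clm_apply contMDiffAt_const
      exact ContMDiffAt.comp (g := c i) (f := fun y => prb (G₀ i.1.1 y) (B i.1.1 y) v) y
        (c i).contDiff.contDiffAt.contMDiffAt h2
    norm := fun i y hy G hG v => by
      change ‖G (j i y (c i (prb (G₀ i.1.1 y) (B i.1.1 y) v)))‖ ≤ ‖G v‖
      rw [prb_indep (hG₀ i.1.1 y (hOU i hy)) hG, (hO i y hy).1.j_c (prb_mem _ _ _)]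
      exact norm_prb _ _ _
    rel := fun i y hy G hG Gb hGb b =>
      (hO i y hy).1.norm_eq hG ((hpol i y hy Gb).1 hGb) b
    rng := fun i y hy v => by
      constructor
      · exact fun hv => ⟨c i v, (hO i y hy).1.j_c hv⟩
      · rintro ⟨b, rfl⟩
        exact (hO i y hy).1.mem_j b
    jper := fun i y hy t => (hO i y hy).1.left t
    rho := fun i => (hρ i.1.1 (hne i)).1
    change := fun i i' y hy G hG => by
      have hi := (hO i y hy.1).1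
      have hi' := (hO i' y hy.2).1
      have hmem := hG.mem_iff (hB _ y (hOU i hy.1)) (hB _ y (hOU i' hy.2))
      have hmem' : ∀ v, G.symm v ∈ B i.1.1 y ↔ v ∈ B i'.1.1 y := by
        intro v
        rw [← hmem, G.apply_symm_apply]
      let A : EuclideanSpace ℂ (Fin (m / 2)) →L[ℂ] EuclideanSpace ℂ (Fin (m / 2)) :=
        (c i').comp ((G : V →L[ℂ] V).comp (j i y))
      let A' : EuclideanSpace ℂ (Fin (m / 2)) →L[ℂ] EuclideanSpace ℂ (Fin (m / 2)) :=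
        (c i).comp ((G.symm : V →L[ℂ] V).comp (j i' y))
      have hjA : ∀ v, j i' y (A v) = G (j i y v) := fun v =>
        hi'.j_c ((hmem _).2 (hi.mem_j v))
      have hjA' : ∀ v, j i y (A' v) = G.symm (j i' y v) := fun v =>
        hi.j_c ((hmem' _).2 (hi'.mem_j v))
      have hA'A : ∀ v, A' (A v) = v := by
        intro v
        change c i (G.symm (j i' y (A v))) = v
        rw [hjA, G.symm_apply_apply, hi.right]
      have hAA' : ∀ v, A (A' v) = v := by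
        intro v
        change c i' (G (j i y (A' v))) = v
        rw [hjA', G.apply_symm_apply, hi'.right]
      refine ⟨ContinuousLinearEquiv.equivOfInverse A A' hA'A hAA', ⟨?_, ?_, ?_⟩, hjA, ?_⟩
      · intro k
        obtain ⟨l, hl, h1⟩ := (hρ i.1.1 (hne i)).1.int k
        obtain ⟨l', hl', h2⟩ := hG.fwd l hl
        obtain ⟨k', h3⟩ := (hρ i'.1.1 (hne i')).1.onto l' hl'
        refine ⟨k', ?_⟩
        change c i' (G (j i y (p i y (zr k)))) = p i' y (zr k')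
        rw [hi.left, h1, h2, ← h3, hi'.c_apply]
      · intro k'
        obtain ⟨l', hl', h1⟩ := (hρ i'.1.1 (hne i')).1.int k'
        obtain ⟨l, hl, h2⟩ := hG.bwd l' hl'
        obtain ⟨k, h3⟩ := (hρ i.1.1 (hne i)).1.onto l hl
        refine ⟨k, ?_⟩
        change c i' (G (j i y (p i y (zr k)))) = p i' y (zr k')
        rw [hi.left, h3, h2, ← h1, hi'.c_apply]
      · intro t t'
        have key : ∀ t, ρ i'.1.1 ((p i' y).symm (A (p i y t))) =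
            (π i'.1.1 y).symm (G (π i.1.1 y (ρ i.1.1 t))) := by
          intro t
          apply (π i'.1.1 y).injective
          rw [← hi'.left, (p i' y).apply_symm_apply, hjA, hi.left,
            (π i'.1.1 y).apply_symm_apply]
        change QB ((p i' y).symm (A (p i y t))) ((p i' y).symm (A (p i y t'))) = QB t t'
        rw [← hQ i' y hy.2, ← hQ i y hy.1, key, key]
        exact hG.chg.2.2 _ _
      · intro v
        change c i' (prb (G₀ i'.1.1 y) (B i'.1.1 y) (G v)) =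
          c i' (G (j i y (c i (prb (G₀ i.1.1 y) (B i.1.1 y) v))))
        rw [hi.j_c (prb_mem _ _ _), ← prb_change (hG₀ i.1.1 y (hOU i hy.1))
          (hG₀ i'.1.1 y (hOU i' hy.2)) G hG.chg.2.2 hmem] }

end Vale.Agent.P281.H511.UD
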