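import Vale.Agent.P281.H303.UD.Spec
import Vale.Agent.P281.H303.UD.Orbit
import Vale.Agent.P281.H969.D.Link

/-!
# P281, project T-UD (helper511): the field `bound` of `IsOrbD`
-/

open Set Filter Metric MeasureTheory Vale.Agent.P281 Vale.Agent.P281.H713
open Vale.Agent.P281.H64.TU (Tame)
open Vale.Agent.P281.H64.TD (Cub zr)
open Vale.Agent.P281.H303.UD (IsPolz IsOrbM IsOrbD orbit det_bound)
open Vale.Agent.P281.H969.D

open scoped Topology ContDiff Manifold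

noncomputable section

namespace Vale.Agent.P281.H511.UD

section Core

variable {V : Type} [NormedAddCommGroup V] [InnerProductSpace ℂ V] [FiniteDimensional ℂ V]
variable {Vb : Type} [NormedAddCommGroup Vb] [InnerProductSpace ℂ Vb] [FiniteDimensional ℂ Vb]
variable {nb d e : ℕ}

/-- The minors are determinants. -/
theorem minor_eq_det (m : Fin d → (V →L[ℂ] ℂ)) (h : (Fin d → ℂ) → V) (v : Fin d → ℂ) :
    H713.minor m h v = ((ContinuousLinearMap.pi m).comp (fderiv ℂ h v)).det := by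
  have h1 : ((ContinuousLinearMap.pi m).comp (fderiv ℂ h v)).det =
      (LinearMap.toMatrix' (((ContinuousLinearMap.pi m).comp (fderiv ℂ h v) :
        (Fin d → ℂ) →L[ℂ] (Fin d → ℂ)) : (Fin d → ℂ) →ₗ[ℂ] (Fin d → ℂ))).det :=
    (LinearMap.det_toMatrix' _).symm
  rw [h1, H713.minor]
  congr 1

theorem norm_pi_le {m : Fin d → (V →L[ℂ] ℂ)} (hm : ∀ i, ‖m i‖ ≤ 1) :
    ‖(ContinuousLinearMap.pi m : V →L[ℂ] (Fin d → ℂ))‖ ≤ 1 := by
  refine ContinuousLinearMap.opNorm_le_bound _ zero_le_one fun v => ?_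
  rw [pi_norm_le_iff_of_nonneg (by positivity)]
  intro i
  refine ((m i).le_opNorm v).trans ?_
  exact mul_le_mul_of_nonneg_right (hm i) (norm_nonneg _)

/-- The minors are bounded. -/
theorem exists_minor_le (d : ℕ) (A : ℝ) : ∃ D : ℝ, 0 ≤ D ∧ ∀ L : (Fin d → ℂ) →L[ℂ] (Fin d → ℂ),
    ‖L‖ ≤ A → ‖L.det‖ ≤ D := by
  have hprop : ProperSpace ((Fin d → ℂ) →L[ℂ] (Fin d → ℂ)) := FiniteDimensional.proper ℂ _
  obtain ⟨D, hD⟩ := (isCompact_closedBall (0 : (Fin d → ℂ) →L[ℂ] (Fin d → ℂ)) A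
    ).exists_bound_of_continuousOn (f := fun L : (Fin d → ℂ) →L[ℂ] (Fin d → ℂ) => L.det)
    ContinuousLinearMap.continuous_det.continuousOn
  exact ⟨max D 0, le_max_right _ _, fun L hL => (hD L (by simpa using hL)).trans (le_max_left _ _)⟩

/-- **The bound**, on the orbits: `x v` is the point `v` of the orbit, and the polydisc `q` contains
the orbits of `h`. -/
theorem orb_core (b : OrthonormalBasis (Fin e) ℂ Vb) (QB : (Fin nb → ℝ) → (Fin nb → ℝ) → ℝ)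
    {τ r : ℝ} (A : ℝ) (hτ : 0 ≤ τ) (hr : 0 < r) :
    ∃ B : ℝ, 0 ≤ B ∧ ∀ (X : Type) (ϖ : (Fin nb → ℝ) ≃L[ℝ] Vb) (Z : Set Vb)
      (Le : Vb → (Vb → ℂ) → Prop) (S' : Vb → Vb → ℂ) (lam : Vb → ℝ)
      (wf : Vb → Vb →L[ℂ] Vb →L[ℂ] ℂ) (Gb : Vb ≃L[ℂ] Vb) (G : V ≃L[ℂ] V) (j : Vb →L[ℂ] V)
      (h : (Fin d → ℂ) → V) (v₀ : Fin d → ℂ) (q : (Fin d → ℂ) → X) (x : Vb → X),
      FibD ϖ Z Le S' lam wf → (∀ t t', (inner ℂ (Gb (ϖ t)) (Gb (ϖ t'))).im = QB t t') →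
      (∀ w, (S' w w).re ≤ τ * ‖Gb w‖ ^ 2) → (∀ v, ‖Gb v‖ = ‖G (j v)‖) →
      DifferentiableOn ℂ h (ball v₀ r) →
      (∀ v ∈ ball v₀ (r / 2), ‖fderiv ℂ (fun u => G (h u)) v‖ ≤ A) →
      (∀ v ∈ ball v₀ r, Function.Injective (fderiv ℂ h v) → ∀ c, ∃ ξ, fderiv ℂ h v ξ = j c) →
      InjOn q (ball v₀ r) →
      (∀ c : ℝ → (Fin d → ℂ), ContinuousOn c (Icc 0 1) → (∀ s ∈ Icc (0 : ℝ) 1, c s ∈ ball v₀ r) →
        c 0 = v₀ → ∀ v : Vb, (∀ s ∈ Icc (0 : ℝ) 1, h (c s) = h v₀ + (s : ℂ) • j v) →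
        q (c 1) = x v) →
      (∀ v (k : Fin nb → ℤ), x (v + ϖ (zr k)) = x v) →
      (∀ v, v ∈ Z → ∀ v' ∈ ball v₀ r, q v' ≠ x v) →
      ∀ W : Vb [×3]→L[ℂ] ℂ, (∀ x y z, W ![x, y, z] = fderiv ℂ wf 0 x y z) →
      ∀ m : Fin d → (V →L[ℂ] ℂ), (∀ i, ‖m i‖ ≤ 1) →
        ‖H713.minor m (fun u => G (h u)) v₀‖ ^ (2 * ex e) *
          ‖W.compContinuousLinearMap fun _ => (Gb.symm : Vb →L[ℂ] Vb)‖ ≤ B := by
  obtain ⟨B₀, hB₀, hest⟩ := est_pol (n := nb) b QB hτ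
  set A' : ℝ := max A 1 with hA'
  have hA'0 : 0 < A' := lt_max_of_lt_right one_pos
  obtain ⟨c, hc, horb⟩ := orbit (Fin d → ℂ) (r := r / 2) (A := A') (by positivity) hA'0
  obtain ⟨D, hD0, hD⟩ := exists_minor_le d A'
  set c' : ℝ := c / (1 + c * D ^ 2) with hc'
  have hden : 0 < 1 + c * D ^ 2 := by positivity
  have hc'0 : 0 < c' := div_pos hc hden
  refine ⟨B₀ / c' ^ ex e, by positivity, ?_⟩
  intro X ϖ Z Le S' lam wf Gb G j h v₀ q x hF hQ hS hrel hd hA hj hinj hpath hper hZ W hW m hm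
  have hv₀ : v₀ ∈ ball v₀ r := mem_ball_self hr
  have hsub : ball v₀ (r / 2) ⊆ ball v₀ r := ball_subset_ball (by linarith)
  set J : ℝ := ‖H713.minor m (fun u => G (h u)) v₀‖ with hJ
  have hGh : DifferentiableOn ℂ (fun u => G (h u)) (ball v₀ (r / 2)) :=
    (G : V →L[ℂ] V).differentiable.comp_differentiableOn (hd.mono hsub)
  have hAb : ∀ v ∈ ball v₀ (r / 2), ‖fderiv ℂ (fun u => G (h u)) v‖ ≤ A' := fun v hv =>
    (hA v hv).trans (le_max_left _ _)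
  have hv₀' : v₀ ∈ ball v₀ (r / 2) := mem_ball_self (by positivity)
  have hJD : J ≤ D := by
    rw [hJ, minor_eq_det]
    refine hD _ ?_
    refine (ContinuousLinearMap.opNorm_comp_le _ _).trans ?_
    calc ‖(ContinuousLinearMap.pi m : V →L[ℂ] (Fin d → ℂ))‖ *
          ‖fderiv ℂ (fun u => G (h u)) v₀‖ ≤ 1 * A' :=
          mul_le_mul (norm_pi_le hm) (hAb v₀ hv₀') (norm_nonneg _) zero_le_one
      _ = A' := one_mul _
  by_cases hJ0 : J = 0
  · rw [hJ0, zero_pow (by unfold ex; omega), zero_mul]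
    positivity
  have hJpos : 0 < J := lt_of_le_of_ne (norm_nonneg _) (Ne.symm hJ0)
  -- the orbits in the slice
  have hfG : ∀ v ∈ ball v₀ (r / 2), fderiv ℂ (fun u => G (h u)) v =
      (G : V →L[ℂ] V).comp (fderiv ℂ h v) := fun v hv =>
    ((G : V →L[ℂ] V).hasFDerivAt.comp v ((hd v (hsub hv)).differentiableAt
      (isOpen_ball.mem_nhds (hsub hv))).hasFDerivAt).fderiv
  obtain ⟨k, hk0, hk⟩ := horb V (fun u => G (h u)) v₀ hGh hAb (ContinuousLinearMap.pi m)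
    (norm_pi_le hm) (by
      rw [← minor_eq_det]
      exact fun h0 => hJ0 (by rw [hJ, h0, norm_zero]))
    (LinearMap.range ((G : V →ₗ[ℂ] V).comp (j : Vb →ₗ[ℂ] V))) (by
      rintro v hv hvi _ ⟨w, rfl⟩
      rw [hfG v hv, ContinuousLinearMap.coe_comp'] at hvi
      obtain ⟨ξ, hξ⟩ := hj v (hsub hv) hvi.of_comp w
      refine ⟨ξ, ?_⟩
      rw [hfG v hv, ContinuousLinearMap.comp_apply, hξ]
      rfl)
  rw [← minor_eq_det, ← hJ] at hk
  set δ : ℝ := c' * J ^ 2 with hδ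
  have hδ0 : 0 < δ := by positivity
  have hJ2 : J ^ 2 ≤ D ^ 2 := pow_le_pow_left₀ hJpos.le hJD 2
  have hδ1 : δ ≤ 1 := by
    rw [hδ, hc', div_mul_eq_mul_div, div_le_one hden]
    nlinarith
  have hδc : δ ≤ c * J ^ 2 := by
    rw [hδ, hc']
    refine mul_le_mul_of_nonneg_right ?_ (by positivity)
    refine div_le_self hc.le ?_
    have : 0 ≤ c * D ^ 2 := by positivity
    linarith
  -- the points of the orbit
  have key : ∀ v : Vb, ‖Gb v‖ < δ → k (G (j v)) ∈ ball v₀ r ∧ q (k (G (j v))) = x v ∧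
      h (k (G (j v))) = h v₀ + j v := by
    intro v hv
    have hmem : ∀ s : ℝ, s ∈ Icc (0 : ℝ) 1 →
        (s : ℂ) • G (j v) ∈ LinearMap.range ((G : V →ₗ[ℂ] V).comp (j : Vb →ₗ[ℂ] V)) ∧
        ‖(s : ℂ) • G (j v)‖ < c * J ^ 2 := by
      intro s hs
      refine ⟨⟨(s : ℂ) • v, ?_⟩, ?_⟩
      · change G (j ((s : ℂ) • v)) = _
        rw [map_smul, map_smul]
      · rw [norm_smul, Complex.norm_real, Real.norm_of_nonneg hs.1, ← hrel]
        refine lt_of_le_of_lt ?_ (hv.trans_le hδc)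
        exact mul_le_of_le_one_left (norm_nonneg _) hs.2
    have hh : ∀ s : ℝ, s ∈ Icc (0 : ℝ) 1 → h (k ((s : ℂ) • G (j v))) = h v₀ + (s : ℂ) • j v := by
      intro s hs
      have h1 := (hk _ (hmem s hs).1 (hmem s hs).2).2.1
      apply G.injective
      rw [h1, map_add, map_smul]
    have hb : ∀ s : ℝ, s ∈ Icc (0 : ℝ) 1 → k ((s : ℂ) • G (j v)) ∈ ball v₀ r := by
      intro s hs
      exact ball_subset_ball (by linarith) (hk _ (hmem s hs).1 (hmem s hs).2).1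
    have h1 : (1 : ℝ) ∈ Icc (0 : ℝ) 1 := ⟨zero_le_one, le_rfl⟩
    have h2 := hpath (fun s : ℝ => k ((s : ℂ) • G (j v))) (by
      intro s hs
      have h3 : ContinuousAt k ((s : ℂ) • G (j v)) :=
        (hk _ (hmem s hs).1 (hmem s hs).2).2.2.continuousAt
      have h4 : ContinuousAt (fun s : ℝ => (s : ℂ) • G (j v)) s :=
        (Complex.continuous_ofReal.smul continuous_const).continuousAt
      exact (ContinuousAt.comp (g := k) (f := fun s : ℝ => (s : ℂ) • G (j v)) h3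
        h4).continuousWithinAt) hb (by
      simp [hk0]) v hh
    have h5 := hh 1 h1
    have h6 := hb 1 h1
    simp only [Complex.ofReal_one, one_smul] at h2 h5 h6
    exact ⟨h6, h2, h5⟩
  -- the logarithm
  have hz0 : (0 : Vb) ∉ Z := by
    intro h0
    have h1 := key 0 (by simpa using hδ0)
    exact hZ 0 h0 _ h1.1 h1.2.1
  obtain ⟨s, hs⟩ := hF.exists_lg hz0
  refine norm_cub_le hW (by positivity) (by positivity) fun x₁ x₂ x₃ => ?_
  have hmain := hest (ϖ.trans (gr Gb)) (fun v w => S' (Gb.symm v) (Gb.symm w))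
    (fun v => lam (Gb.symm v)) hQ (hF.isThetaD.map Gb) (fun w => by
      have h1 := hS (Gb.symm w)
      rwa [ContinuousLinearEquiv.apply_symm_apply] at h1) (Gb 0) δ hδ0 hδ1 (by
      intro y hy h0
      rw [map_zero, mem_ball_zero_iff] at hy
      have h1 := key (Gb.symm y) (by rwa [Gb.apply_symm_apply])
      exact hZ _ ((hF.lam_eq_zero _).1 h0) _ h1.1 h1.2.1) (by
      intro y hy l hl
      rw [map_zero, mem_ball_zero_iff] at hy hl
      have h1 := key (Gb.symm y) (by rwa [Gb.apply_symm_apply])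
      have h2 : Gb.symm (y + (ϖ.trans (gr Gb)) fun i => (l i : ℝ)) =
          Gb.symm y + ϖ (zr l) := by
        rw [map_add]
        congr 1
        exact Gb.symm_apply_apply _
      have h3 := key (Gb.symm (y + (ϖ.trans (gr Gb)) fun i => (l i : ℝ)))
        (by rwa [Gb.apply_symm_apply])
      have h4 : q (k (G (j (Gb.symm (y + (ϖ.trans (gr Gb)) fun i => (l i : ℝ)))))) =
          q (k (G (j (Gb.symm y)))) := by
        rw [h3.2.1, h1.2.1, h2, hper]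
      have h5 := hinj h3.1 h1.1 h4
      have h6 := h3.2.2
      rw [h5, h1.2.2, h2, map_add] at h6
      have h7 : j (ϖ (zr l)) = 0 := by
        have h8 : h v₀ + j (Gb.symm y) + 0 = h v₀ + j (Gb.symm y) + j (ϖ (zr l)) := by
          rw [add_zero]
          exact h6.trans (add_assoc _ _ _).symm
        exact (add_left_cancel h8).symm
      have h8 : Gb (ϖ (zr l)) = 0 := by
        rw [← norm_eq_zero, hrel, h7, map_zero, norm_zero]
      have h9 : ϖ (zr l) = 0 := Gb.injective (by rw [h8, map_zero])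
      have h10 : zr l = 0 := ϖ.injective (by rw [h9, map_zero])
      ext i
      have h11 : ((l i : ℤ) : ℝ) = 0 := congrFun h10 i
      exact_mod_cast h11) (fun v => s (Gb.symm v)) (by
      have h3 : AnalyticAt ℂ (fun y => Gb.symm y) (Gb 0) := Gb.symm.analyticAt _
      refine AnalyticAt.fun_comp (g := s) (f := fun y => Gb.symm y) ?_ h3
      rw [ContinuousLinearEquiv.symm_apply_apply]
      exact hs.1) (by
      have h1 : Tendsto (fun y => Gb.symm y) (𝓝 (Gb 0)) (𝓝 0) := by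
        have h2 := Gb.symm.continuous.tendsto (Gb 0)
        rwa [ContinuousLinearEquiv.symm_apply_apply] at h2
      exact h1.eventually hs.2)
    (fun x y z => fderiv ℂ wf 0 (Gb.symm x) (Gb.symm y) (Gb.symm z)) (by
      have h1 : (fun x y z => fderiv ℂ wf 0 x y z) = d3 s 0 := by
        funext x y z
        exact hF.link hz0 hs x y z
      have h2 : IsCub fun x y z => fderiv ℂ wf 0 x y z := by
        rw [h1]
        exact isCub_d3' hs.1
      exact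
        { add := fun x x' y z => by rw [map_add, h2.add]
          smul := fun s x y z => by rw [map_smul, h2.smul]
          h12 := fun x y z => h2.h12 _ _ _
          h23 := fun x y z => h2.h23 _ _ _ }) (fun w => by
      rw [hF.link hz0 hs, d3_diag hs.1]
      simp only [map_add, map_smul, ContinuousLinearEquiv.symm_apply_apply]) x₁ x₂ x₃
  have h1 : J ^ (2 * ex e) = δ ^ ex e / c' ^ ex e := by
    rw [hδ, mul_pow c', pow_mul J 2, mul_div_cancel_left₀ _ (by positivity)]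
  calc J ^ (2 * ex e) * ‖fderiv ℂ wf 0 (Gb.symm x₁) (Gb.symm x₂) (Gb.symm x₃)‖
      = 1 / c' ^ ex e *
        (‖fderiv ℂ wf 0 (Gb.symm x₁) (Gb.symm x₂) (Gb.symm x₃)‖ * δ ^ ex e) := by
        rw [h1]
        ring
    _ ≤ 1 / c' ^ ex e * (B₀ * (‖x₁‖ * ‖x₂‖ * ‖x₃‖)) :=
        mul_le_mul_of_nonneg_left hmain (by positivity)
    _ = B₀ / c' ^ ex e * (‖x₁‖ * ‖x₂‖ * ‖x₃‖) := by ring

end Core

section Man

variable {E E' : Type} [NormedAddCommGroup E] [NormedSpace ℂ E]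
  [NormedAddCommGroup E'] [NormedSpace ℂ E']
variable {X Y : Type} [TopologicalSpace X] [ChartedSpace E X]
  [TopologicalSpace Y] [ChartedSpace E' Y]
variable {V : Type} [NormedAddCommGroup V] [InnerProductSpace ℂ V] [FiniteDimensional ℂ V]
variable {Vb : Type} [NormedAddCommGroup Vb] [InnerProductSpace ℂ Vb] [FiniteDimensional ℂ Vb]
variable {n nb d : ℕ} {T : Tame (Fin d → ℂ) X} {f : X → Y} {S : Set Y}
  {Q : (Fin n → ℝ) → (Fin n → ℝ) → ℝ} {QB : (Fin nb → ℝ) → (Fin nb → ℝ) → ℝ} {ι : Type}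
  {U : ι → Set Y} {π : ι → Y → ((Fin n → ℝ) ≃L[ℝ] V)} {ϖ : ι → Y → ((Fin nb → ℝ) ≃L[ℝ] Vb)}
  {j : ι → Y → Vb →L[ℂ] V} {ℓ : ι → Y → V →L[ℂ] Vb} {L : ι → X → (X → V) → Prop}
  {u : ι → X → (X → V) → Vb → X}

/-- **The field `bound` of `IsOrbD`.** -/
theorem orbD_bound (hM : IsOrbM E E' d T f S Q QB U π ϖ j ℓ L u) {𝒜 : Set (Set X)} {τ : ℝ}
    (hτ : 0 ≤ τ) {Lw : ι → X → (X → V) → (X → Cub Vb) → Prop}
    (hfib : ∀ a x β, L a x β → (∀ D ∈ 𝒜, x ∉ D) → ∃ w, Lw a x β w ∧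
      ∃ (Le : Vb → (Vb → ℂ) → Prop) (S' : Vb → Vb → ℂ) (lam : Vb → ℝ)
        (wf : Vb → Vb →L[ℂ] Vb →L[ℂ] ℂ),
        FibD (ϖ a (f x)) {v | ∃ D ∈ 𝒜, u a x β v ∈ D} Le S' lam wf ∧
        (∀ x₁ x₂ x₃, w x ![x₁, x₂, x₃] = fderiv ℂ wf 0 x₁ x₂ x₃) ∧
        ∀ Gb : Vb ≃L[ℂ] Vb, IsPolz QB (ϖ a (f x)) Gb → ∀ w, (S' w w).re ≤ τ * ‖Gb w‖ ^ 2) :
    ∃ M : ℕ, ∀ ρ K : ℝ, 0 < ρ → 0 < K → ∃ B : ℝ, ∀ (a : ι) (q : (Fin d → ℂ) → X)
      (v₀ : Fin d → ℂ), IsPolydisc E f q v₀ ρ → T K q v₀ ρ → f (q v₀) ∈ U a →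
      (∀ v ∈ ball v₀ ρ, ∀ D ∈ 𝒜, q v ∉ D) → ∃ (h : (Fin d → ℂ) → V) (β : X → V)
        (w : X → Cub Vb), DifferentiableOn ℂ h (ball v₀ ρ) ∧ Lw a (q v₀) β w ∧
        (∀ᶠ v in 𝓝 v₀, β (q v) = h v) ∧
        ∀ G : V ≃L[ℂ] V, IsPolz Q (π a (f (q v₀))) G →
          (∀ v ∈ ball v₀ (ρ / 2), ‖fderiv ℂ (fun u => G (h u)) v‖ ≤ B) ∧
          ∀ Gb : Vb ≃L[ℂ] Vb, IsPolz QB (ϖ a (f (q v₀))) Gb →
          ∀ m : Fin d → (V →L[ℂ] ℂ), (∀ i, ‖m i‖ ≤ 1) →
            ‖H713.minor m (fun u => G (h u)) v₀‖ ^ M *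
              ‖(w (q v₀)).compContinuousLinearMap fun _ => (Gb.symm : Vb →L[ℂ] Vb)‖ ≤ B := by
  refine ⟨2 * ex (Module.finrank ℂ Vb), fun ρ K hρ hK => ?_⟩
  obtain ⟨A, hA⟩ := hM.bound ρ K hρ hK
  obtain ⟨B, hB, hbnd⟩ := orb_core (V := V) (d := d) (nb := nb) (stdOrthonormalBasis ℂ Vb) QB
    (τ := τ) (r := ρ) A hτ hρ
  refine ⟨max A B, fun a q v₀ hq hT hU hD => ?_⟩
  obtain ⟨h, hh, hG, htan, β, hβ, hβh, hpath⟩ := hA a q v₀ hq hT hU
  have hv₀ : v₀ ∈ ball v₀ ρ := mem_ball_self hρ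
  obtain ⟨w, hw, Le, S', lam, wf, hF, hw3, hS⟩ := hfib a (q v₀) β hβ (hD v₀ hv₀)
  refine ⟨h, β, w, hh, hw, hβh, fun G hGp => ⟨fun v hv => (hG G hGp v hv).trans (le_max_left _ _),
    fun Gb hGb m hm => ?_⟩⟩
  refine le_trans ?_ (le_max_right _ _)
  refine hbnd X (ϖ a (f (q v₀))) _ Le S' lam wf Gb G (j a (f (q v₀))) h v₀ q (u a (q v₀) β) hF hGb
    (hS Gb hGb) (hM.rel a _ hU G hGp Gb hGb) hh (hG G hGp) htan hq.2.1 hpath
    (hM.per a _ β hβ) ?_ _ hw3 m hm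
  rintro v ⟨D, hDA, hDv⟩ v' hv' hqx
  rw [← hqx] at hDv
  exact hD v' hv' D hDA hDv

end Man

end Vale.Agent.P281.H511.UD
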