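import Vale.Agent.P281.H713.Poinc
import Vale.Agent.P281.H511.UD.Spec

/-!
# P281, project T-UD, block R2 (helper511): the orthogonal projection to a subtorus
-/

open scoped Manifold ContDiff Topology
open Set Filter Metric Module

noncomputable section

namespace Vale.Agent.P281.H511.UD

open Vale.Agent.P281 Vale.Agent.P281.H713 Vale.Agent.P281.H511.D

section Alg

variable {V : Type} [NormedAddCommGroup V] [InnerProductSpace ℂ V] [FiniteDimensional ℂ V]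
variable {W : Type} [NormedAddCommGroup W] [InnerProductSpace ℂ W] [FiniteDimensional ℂ W]
variable {n m : ℕ} {Q : (Fin n → ℝ) → (Fin n → ℝ) → ℝ} {Q' : (Fin m → ℝ) → (Fin m → ℝ) → ℝ}
variable {P : (Fin n → ℝ) ≃L[ℝ] V} {G : V ≃L[ℂ] V} {P' : (Fin m → ℝ) ≃L[ℝ] W} {G' : W ≃L[ℂ] W}

/-- The projection to `b`, orthogonal for the form `⟨G ·, G ·⟩`. -/
def prb (G : V ≃L[ℂ] V) (b : Submodule ℂ V) : V →L[ℂ] V :=
  (G.symm : V →L[ℂ] V).comp (((b.map (G : V →ₗ[ℂ] V)).starProjection).comp (G : V →L[ℂ] V))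

theorem prb_apply (G : V ≃L[ℂ] V) (b : Submodule ℂ V) (v : V) :
    prb G b v = G.symm ((b.map (G : V →ₗ[ℂ] V)).starProjection (G v)) := rfl

theorem G_prb (G : V ≃L[ℂ] V) (b : Submodule ℂ V) (v : V) :
    G (prb G b v) = (b.map (G : V →ₗ[ℂ] V)).starProjection (G v) := by
  rw [prb_apply, G.apply_symm_apply]

theorem mem_mapG {G : V ≃L[ℂ] V} {b : Submodule ℂ V} {v : V} :
    G v ∈ b.map (G : V →ₗ[ℂ] V) ↔ v ∈ b := by
  rw [Submodule.mem_map]
  constructor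
  · rintro ⟨w, hw, hwv⟩
    have h1 : w = v := G.injective hwv
    rwa [← h1]
  · exact fun h => ⟨v, h, rfl⟩

theorem prb_mem (G : V ≃L[ℂ] V) (b : Submodule ℂ V) (v : V) : prb G b v ∈ b := by
  rw [← mem_mapG (G := G), G_prb]
  exact Submodule.starProjection_apply_mem _ _

theorem prb_self (G : V ≃L[ℂ] V) {b : Submodule ℂ V} {v : V} (hv : v ∈ b) : prb G b v = v := by
  rw [prb_apply, Submodule.starProjection_eq_self_iff.2 (mem_mapG.2 hv), G.symm_apply_apply]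

theorem norm_prb (G : V ≃L[ℂ] V) (b : Submodule ℂ V) (v : V) : ‖G (prb G b v)‖ ≤ ‖G v‖ := by
  rw [G_prb]
  exact Submodule.norm_starProjection_apply_le _ _

theorem prb_unique (G : V ≃L[ℂ] V) {b : Submodule ℂ V} {v p : V} (hp : p ∈ b)
    (h : ∀ w ∈ b, (inner ℂ (G (v - p)) (G w)).im = 0) : p = prb G b v := by
  apply G.injective
  rw [G_prb]
  refine (Submodule.eq_starProjection_of_mem_of_inner_eq_zero (mem_mapG.2 hp) ?_).symm
  rintro _ ⟨w, hw, rfl⟩
  have h1 := h w hw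
  have h2 := h (Complex.I • w) (b.smul_mem _ hw)
  rw [map_smul, inner_smul_right, Complex.mul_im, Complex.I_re, Complex.I_im, zero_mul, one_mul,
    zero_add] at h2
  change inner ℂ (G v - G p) (G w) = 0
  rw [← map_sub]
  exact Complex.ext h2 h1

theorem prb_char (hP : IsPol Q P G) {b : Submodule ℂ V} {v p : V} :
    p = prb G b v ↔ p ∈ b ∧ ∀ w ∈ b, Q (P.symm (v - p)) (P.symm w) = 0 := by
  constructor
  · rintro rfl
    refine ⟨prb_mem G b v, fun w hw => ?_⟩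
    rw [← hP, P.apply_symm_apply, P.apply_symm_apply, map_sub, G_prb,
      Submodule.starProjection_inner_eq_zero _ _ (mem_mapG.2 hw), Complex.zero_im]
  · rintro ⟨hp, h⟩
    refine prb_unique G hp fun w hw => ?_
    rw [← h w hw, ← hP, P.apply_symm_apply, P.apply_symm_apply]

/-- The projection is natural. -/
theorem prb_change (hP : IsPol Q P G) (hP' : IsPol Q' P' G') (g : V ≃L[ℂ] W)
    (hg : ∀ x x', Q' (P'.symm (g (P x))) (P'.symm (g (P x'))) = Q x x') {b : Submodule ℂ V}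
    {b' : Submodule ℂ W} (hb : ∀ v, g v ∈ b' ↔ v ∈ b) (v : V) :
    g (prb G b v) = prb G' b' (g v) := by
  obtain ⟨h1, h2⟩ := (prb_char hP (b := b) (v := v)).1 rfl
  rw [prb_char hP']
  refine ⟨(hb _).2 h1, fun w hw => ?_⟩
  have h3 : g.symm w ∈ b := by
    rw [← hb, g.apply_symm_apply]
    exact hw
  have h4 := hg (P.symm (v - prb G b v)) (P.symm (g.symm w))
  rw [P.apply_symm_apply, P.apply_symm_apply, g.apply_symm_apply, map_sub] at h4
  rw [h4]
  exact h2 _ h3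

/-- The real matrix of the projection does not depend on the periods. -/
theorem prb_real {P P' : (Fin n → ℝ) ≃L[ℝ] V} {G G' : V ≃L[ℂ] V} (hP : IsPol Q P G)
    (hP' : IsPol Q P' G') {b b' : Submodule ℂ V} (hb : ∀ x, P' x ∈ b' ↔ P x ∈ b)
    (x : Fin n → ℝ) : prb G' b' (P' x) = P' (P.symm (prb G b (P x))) := by
  obtain ⟨h1, h2⟩ := (prb_char hP (b := b) (v := P x)).1 rfl
  symm
  rw [prb_char hP']
  refine ⟨?_, fun w hw => ?_⟩
  · rw [hb, P.apply_symm_apply]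
    exact h1
  · have h3 : P (P'.symm w) ∈ b := by
      rw [← hb, P'.apply_symm_apply]
      exact hw
    have h4 := h2 _ h3
    rw [P.symm_apply_apply, map_sub, P.symm_apply_apply] at h4
    rw [map_sub, P'.symm_apply_apply, P'.symm_apply_apply]
    exact h4

/-- The projection does not depend on `G`. -/
theorem prb_indep {G G' : V ≃L[ℂ] V} (hP : IsPol Q P G) (hP' : IsPol Q P G')
    (b : Submodule ℂ V) : prb G b = prb G' b := by
  ext1 v
  exact prb_change hP hP' (ContinuousLinearEquiv.refl ℂ V) (fun x x' => by simp)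
    (fun v => Iff.rfl) v

end Alg

section Hol

variable {E' : Type} [NormedAddCommGroup E'] [NormedSpace ℂ E']
variable {Y : Type} [TopologicalSpace Y] [ChartedSpace E' Y]
variable {V : Type} [NormedAddCommGroup V] [NormedSpace ℂ V] [FiniteDimensional ℂ V]
variable {W : Type} [NormedAddCommGroup W] [NormedSpace ℂ W]
variable {n : ℕ}

/-- `∑ c_i x_i` -/
def lcomb {ι : Type} [Fintype ι] (b : Basis ι ℂ V) (x : ι → W) : V →L[ℂ] W :=
  ∑ i, ((LinearMap.toContinuousLinearMap (b.coord i)) : V →L[ℂ] ℂ).smulRight (x i)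

theorem lcomb_apply {ι : Type} [Fintype ι] (b : Basis ι ℂ V) (x : ι → W) (v : V) :
    lcomb b x v = ∑ i, b.coord i v • x i := by
  simp [lcomb]

theorem lcomb_hol {ι : Type} [Fintype ι] (b : Basis ι ℂ V) {x : Y → ι → W} {y₀ : Y}
    (hx : ∀ i, ContMDiffAt 𝓘(ℂ, E') 𝓘(ℂ, W) ω (fun y => x y i) y₀) :
    ContMDiffAt 𝓘(ℂ, E') 𝓘(ℂ, V →L[ℂ] W) ω (fun y => lcomb b (x y)) y₀ := by
  have h1 : ContMDiffAt 𝓘(ℂ, E') 𝓘(ℂ, ι → W) ω x y₀ := contMDiffAt_pi_space.2 hx
  have h2 : ContDiffAt ℂ ω (fun x : ι → W => lcomb b x) (x y₀) := by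
    unfold lcomb
    refine ContDiffAt.sum fun i _ => ?_
    exact ((ContinuousLinearMap.smulRightL ℂ V W
      (LinearMap.toContinuousLinearMap (b.coord i))).contDiff.comp
      (contDiff_apply ℂ W i)).contDiffAt
  exact h2.contMDiffAt.comp y₀ h1

/-- A family of complex linear maps is holomorphic if it is on the periods. -/
theorem hol_of_periods {π : Y → ((Fin n → ℝ) ≃L[ℝ] V)} {A : Y → V →L[ℂ] W} {y₀ : Y}
    (hπ : ∀ x, ContMDiffAt 𝓘(ℂ, E') 𝓘(ℂ, V) ω (fun y => π y x) y₀)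
    (hA : ∀ x, ContMDiffAt 𝓘(ℂ, E') 𝓘(ℂ, W) ω (fun y => A y (π y x)) y₀) :
    ContMDiffAt 𝓘(ℂ, E') 𝓘(ℂ, V →L[ℂ] W) ω A y₀ := by
  have : CompleteSpace V := FiniteDimensional.complete ℂ V
  let b := Module.finBasis ℂ V
  let x := fun i => (π y₀).symm (b i)
  have hB := lcomb_hol (E' := E') b (x := fun y i => π y (x i)) (y₀ := y₀) fun i => hπ (x i)
  have hC := lcomb_hol (E' := E') b (x := fun y i => A y (π y (x i))) (y₀ := y₀) fun i => hA (x i)
  have hAB : ∀ y, lcomb b (fun i => A y (π y (x i))) =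
      (A y).comp (lcomb b fun i => π y (x i)) := by
    intro y
    ext v
    rw [ContinuousLinearMap.comp_apply, lcomb_apply, lcomb_apply, map_sum]
    exact Finset.sum_congr rfl fun i _ => (map_smul _ _ _).symm
  have hB0 : lcomb b (fun i => π y₀ (x i)) = 1 := by
    ext v
    rw [lcomb_apply]
    have h1 : ∀ i, π y₀ (x i) = b i := fun i => (π y₀).apply_symm_apply _
    simp only [h1]
    exact b.sum_repr v
  have hunit : ∀ᶠ y in 𝓝 y₀, IsUnit (lcomb b fun i => π y (x i)) := by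
    have h1 : Tendsto (fun y => lcomb b fun i => π y (x i)) (𝓝 y₀) (𝓝 1) := by
      have h2 := hB.continuousAt.tendsto
      rwa [hB0] at h2
    exact h1.eventually (Units.nhds (1 : (V →L[ℂ] V)ˣ))
  have hinv : ContMDiffAt 𝓘(ℂ, E') 𝓘(ℂ, V →L[ℂ] V) ω
      (fun y => Ring.inverse (lcomb b fun i => π y (x i))) y₀ := by
    have h1 : ContDiffAt ℂ ω (Ring.inverse : (V →L[ℂ] V) → (V →L[ℂ] V))
        (lcomb b fun i => π y₀ (x i)) := by
      rw [hB0]
      exact contDiffAt_ringInverse ℂ (1 : (V →L[ℂ] V)ˣ)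
    exact ContMDiffAt.comp (g := (Ring.inverse : (V →L[ℂ] V) → (V →L[ℂ] V)))
      (f := fun y => lcomb b fun i => π y (x i)) y₀ h1.contMDiffAt hB
  have hcomp : ContMDiffAt 𝓘(ℂ, E') 𝓘(ℂ, V →L[ℂ] W) ω
      (fun y => (lcomb b fun i => A y (π y (x i))).comp
        (Ring.inverse (lcomb b fun i => π y (x i)))) y₀ := hC.clm_comp hinv
  refine hcomp.congr_of_eventuallyEq ?_
  filter_upwards [hunit] with y hy
  rw [hAB, ContinuousLinearMap.comp_assoc]
  have h2 : (lcomb b fun i => π y (x i)) * Ring.inverse (lcomb b fun i => π y (x i)) = 1 :=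
    Ring.mul_inverse_cancel _ hy
  change A y = (A y).comp ((lcomb b fun i => π y (x i)) *
    Ring.inverse (lcomb b fun i => π y (x i)))
  rw [h2]
  exact ((A y).comp_id).symm

end Hol

section Triv

variable {V : Type} [NormedAddCommGroup V] [InnerProductSpace ℂ V] [FiniteDimensional ℂ V]
variable {W : Type} [NormedAddCommGroup W] [InnerProductSpace ℂ W] [FiniteDimensional ℂ W]
variable {n m : ℕ} {Q : (Fin n → ℝ) → (Fin n → ℝ) → ℝ}

/-- The map `c : V → W` identifies `b = P (ρ (ℝ ^ m))` and `W`; its inverse is `j`, and `p` is `P ∘ ρ`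
with values in `W`. -/
structure IsSubT (ρ : (Fin m → ℝ) →L[ℝ] (Fin n → ℝ)) (P : (Fin n → ℝ) ≃L[ℝ] V)
    (b : Submodule ℂ V) (c : V →L[ℂ] W) (p : (Fin m → ℝ) ≃L[ℝ] W) (j : W →L[ℂ] V) : Prop where
  mem : ∀ v, v ∈ b ↔ ∃ t, v = P (ρ t)
  left : ∀ t, j (p t) = P (ρ t)
  right : ∀ w, c (j w) = w

variable {ρ : (Fin m → ℝ) →L[ℝ] (Fin n → ℝ)} {P : (Fin n → ℝ) ≃L[ℝ] V}
  {b : Submodule ℂ V} {c : V →L[ℂ] W} {p : (Fin m → ℝ) ≃L[ℝ] W} {j : W →L[ℂ] V}
  {G : V ≃L[ℂ] V} {G' : W ≃L[ℂ] W}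

theorem IsSubT.c_apply (h : IsSubT ρ P b c p j) (t : Fin m → ℝ) : c (P (ρ t)) = p t := by
  rw [← h.left, h.right]

theorem IsSubT.mem_j (h : IsSubT ρ P b c p j) (w : W) : j w ∈ b := by
  rw [h.mem]
  exact ⟨p.symm w, by rw [← h.left, p.apply_symm_apply]⟩

theorem IsSubT.j_c (h : IsSubT ρ P b c p j) {v : V} (hv : v ∈ b) : j (c v) = v := by
  obtain ⟨t, rfl⟩ := (h.mem v).1 hv
  rw [h.c_apply, h.left]

/-- The forms agree. -/
theorem IsSubT.inner_eq (h : IsSubT ρ P b c p j) (hP : IsPol Q P G)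
    (hG' : IsPol (fun t t' => Q (ρ t) (ρ t')) p G') (w w' : W) :
    inner ℂ (G' w) (G' w') = inner ℂ (G (j w)) (G (j w')) := by
  have key : ∀ w w', (inner ℂ (G' w) (G' w')).im = (inner ℂ (G (j w)) (G (j w'))).im := by
    intro w w'
    have h1 := hG' (p.symm w) (p.symm w')
    have h2 := hP (ρ (p.symm w)) (ρ (p.symm w'))
    rw [← h.left, ← h.left] at h2
    rw [p.apply_symm_apply, p.apply_symm_apply] at h1 h2
    rw [h1, h2]
  have h1 := key w w'
  have h2 := key w (Complex.I • w')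
  rw [map_smul, map_smul, map_smul, inner_smul_right, inner_smul_right, Complex.mul_im,
    Complex.mul_im, Complex.I_re, Complex.I_im, zero_mul, zero_mul, one_mul, one_mul, zero_add,
    zero_add] at h2
  exact Complex.ext h2 h1

theorem IsSubT.norm_eq (h : IsSubT ρ P b c p j) (hP : IsPol Q P G)
    (hG' : IsPol (fun t t' => Q (ρ t) (ρ t')) p G') (w : W) : ‖G' w‖ = ‖G (j w)‖ := by
  have h1 := congrArg Complex.re (h.inner_eq hP hG' w w)
  rw [inner_self_eq_norm_sq_to_K, inner_self_eq_norm_sq_to_K] at h1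
  have h2 : ‖G' w‖ ^ 2 = ‖G (j w)‖ ^ 2 := by
    simpa [← Complex.ofReal_pow] using h1
  exact (sq_eq_sq₀ (norm_nonneg _) (norm_nonneg _)).1 h2

theorem IsSubT.exists_pol (h : IsSubT ρ P b c p j) (hP : IsPol Q P G) :
    ∃ G' : W ≃L[ℂ] W, IsPol (fun t t' => Q (ρ t) (ρ t')) p G' := by
  let J : W →ₗ[ℂ] V := (G : V →ₗ[ℂ] V).comp (j : W →ₗ[ℂ] V)
  have hJ : Function.Injective J := by
    intro w w' hw
    have h1 : j w = j w' := G.injective hw
    rw [← h.right w, h1, h.right]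
  let e : W ≃ₗ[ℂ] LinearMap.range J := LinearEquiv.ofInjective J hJ
  have hr : finrank ℂ (LinearMap.range J) = finrank ℂ W := e.finrank_eq.symm
  let i : LinearMap.range J ≃ₗᵢ[ℂ] W := (stdOrthonormalBasis ℂ (LinearMap.range J)).equiv
    (stdOrthonormalBasis ℂ W) (finCongr hr)
  refine ⟨(e.trans i.toLinearEquiv).toContinuousLinearEquiv, fun t t' => ?_⟩
  have h1 : inner ℂ (i (e (p t))) (i (e (p t'))) = inner ℂ (J (p t)) (J (p t')) := by
    rw [i.inner_map_map]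
    rfl
  change (inner ℂ (i (e (p t))) (i (e (p t')))).im = _
  rw [h1]
  change (inner ℂ (G (j (p t))) (G (j (p t')))).im = _
  rw [h.left, h.left]
  exact hP _ _

/-- The cubic form on `V` defined by a cubic form on `W`. -/
def cubP (c : V →L[ℂ] W) (G : V ≃L[ℂ] V) (b : Submodule ℂ V) (φ : Cub W) : Cub V :=
  φ.compContinuousLinearMap fun _ => c.comp (prb G b)

theorem cubP_apply (φ : Cub W) (v : Fin 3 → V) :
    cubP c G b φ v = φ fun i => c (prb G b (v i)) := rfl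

theorem IsSubT.norm_cub_le (h : IsSubT ρ P b c p j) (hP : IsPol Q P G)
    (hG' : IsPol (fun t t' => Q (ρ t) (ρ t')) p G') (φ : Cub W) :
    ‖(cubP c G b φ).compContinuousLinearMap fun _ => (G.symm : V →L[ℂ] V)‖ ≤
      ‖φ.compContinuousLinearMap fun _ => (G'.symm : W →L[ℂ] W)‖ := by
  refine ContinuousMultilinearMap.opNorm_le_bound (norm_nonneg _) fun v => ?_
  have h1 : ((cubP c G b φ).compContinuousLinearMap fun _ => (G.symm : V →L[ℂ] V)) v =
      (φ.compContinuousLinearMap fun _ => (G'.symm : W →L[ℂ] W))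
        fun i => G' (c (prb G b (G.symm (v i)))) := by
    rw [ContinuousMultilinearMap.compContinuousLinearMap_apply, cubP_apply,
      ContinuousMultilinearMap.compContinuousLinearMap_apply]
    congr 1
    funext i
    exact (G'.symm_apply_apply _).symm
  rw [h1]
  refine (ContinuousMultilinearMap.le_opNorm _ _).trans ?_
  refine mul_le_mul_of_nonneg_left ?_ (norm_nonneg _)
  refine Finset.prod_le_prod (fun i _ => norm_nonneg _) fun i _ => ?_
  rw [h.norm_eq hP hG', h.j_c (prb_mem _ _ _)]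
  refine (norm_prb _ _ _).trans ?_
  rw [G.apply_symm_apply]

/-- Changes of coordinates. -/
theorem cubP_change {V' : Type} [NormedAddCommGroup V'] [InnerProductSpace ℂ V']
    [FiniteDimensional ℂ V'] {n' : ℕ} {Q' : (Fin n' → ℝ) → (Fin n' → ℝ) → ℝ}
    {P' : (Fin n' → ℝ) ≃L[ℝ] V'} {b' : Submodule ℂ V'} {c' : V' →L[ℂ] W} {G₁ : V' ≃L[ℂ] V'}
    (h : IsSubT ρ P b c p j) (hP : IsPol Q P G) (hP' : IsPol Q' P' G₁) (g : V ≃L[ℂ] V')
    (hg : ∀ x x', Q' (P'.symm (g (P x))) (P'.symm (g (P x'))) = Q x x')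
    (hb : ∀ v, g v ∈ b' ↔ v ∈ b) {φ φ' : Cub W}
    (hφ : φ = φ'.compContinuousLinearMap fun _ => c'.comp ((g : V →L[ℂ] V').comp j)) :
    cubP c G b φ = (cubP c' G₁ b' φ').compContinuousLinearMap fun _ => (g : V →L[ℂ] V') := by
  ext v
  rw [hφ, cubP_apply, ContinuousMultilinearMap.compContinuousLinearMap_apply,
    ContinuousMultilinearMap.compContinuousLinearMap_apply, cubP_apply]
  congr 1
  funext i
  change c' (g (j (c (prb G b (v i))))) = c' (prb G₁ b' (g (v i)))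
  rw [h.j_c (prb_mem _ _ _), prb_change hP hP' g hg hb]

end Triv

section Loc

variable {E' : Type} [NormedAddCommGroup E'] [NormedSpace ℂ E']
variable {Y : Type} [TopologicalSpace Y] [ChartedSpace E' Y]
variable {V : Type} [NormedAddCommGroup V] [InnerProductSpace ℂ V] [FiniteDimensional ℂ V]
variable {W : Type} [NormedAddCommGroup W] [InnerProductSpace ℂ W] [FiniteDimensional ℂ W]
variable {n m : ℕ} {Q : (Fin n → ℝ) → (Fin n → ℝ) → ℝ}

/-- The projections are holomorphic. -/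
theorem prb_hol {π : Y → ((Fin n → ℝ) ≃L[ℝ] V)} {G : Y → (V ≃L[ℂ] V)} {b : Y → Submodule ℂ V}
    {y₀ : Y} (hπ : ∀ x, ContMDiffAt 𝓘(ℂ, E') 𝓘(ℂ, V) ω (fun y => π y x) y₀)
    (hG : ∀ᶠ y in 𝓝 y₀, IsPol Q (π y) (G y))
    (hb : ∀ᶠ y in 𝓝 y₀, ∀ x, π y x ∈ b y ↔ π y₀ x ∈ b y₀) :
    ContMDiffAt 𝓘(ℂ, E') 𝓘(ℂ, V →L[ℂ] V) ω (fun y => prb (G y) (b y)) y₀ := by
  refine hol_of_periods hπ fun x => ?_
  refine (hπ ((π y₀).symm (prb (G y₀) (b y₀) (π y₀ x)))).congr_of_eventuallyEq ?_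
  filter_upwards [hG, hb] with y hy hyb
  exact prb_real hG.self_of_nhds hy hyb x

/-- Local trivializations of the subtori. -/
theorem exists_subT {ρ : (Fin m → ℝ) →L[ℝ] (Fin n → ℝ)} (hρ : Function.Injective ρ)
    {π : Y → ((Fin n → ℝ) ≃L[ℝ] V)} {b : Y → Submodule ℂ V} {y₀ : Y}
    (hπ : ∀ᶠ y in 𝓝 y₀, ∀ x, ContMDiffAt 𝓘(ℂ, E') 𝓘(ℂ, V) ω (fun y => π y x) y)
    (hb : ∀ᶠ y in 𝓝 y₀, ∀ v, v ∈ b y ↔ ∃ t, v = π y (ρ t))
    (hW : finrank ℂ W = finrank ℂ (b y₀)) :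
    ∃ (c : V →L[ℂ] W) (p : Y → ((Fin m → ℝ) ≃L[ℝ] W)) (j : Y → (W →L[ℂ] V)),
      ∀ᶠ y in 𝓝 y₀, IsSubT ρ (π y) (b y) c (p y) (j y) ∧
        (∀ t, ContMDiffAt 𝓘(ℂ, E') 𝓘(ℂ, W) ω (fun y => p y t) y) ∧
        ContMDiffAt 𝓘(ℂ, E') 𝓘(ℂ, W →L[ℂ] V) ω j y := by
  classical
  have : CompleteSpace W := FiniteDimensional.complete ℂ W
  let ε : b y₀ ≃ₗ[ℂ] W := LinearEquiv.ofFinrankEq _ _ hW.symm
  let c : V →L[ℂ] W := (LinearMap.toContinuousLinearMap (ε : b y₀ →ₗ[ℂ] W)).comp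
    (b y₀).orthogonalProjectionOnto
  have hc : ∀ v (hv : v ∈ b y₀), c v = ε ⟨v, hv⟩ := by
    intro v hv
    change ε ((b y₀).orthogonalProjectionOnto v) = _
    congr 1
    exact Submodule.orthogonalProjectionOnto_mem_subspace_eq_self (⟨v, hv⟩ : b y₀)
  -- the real map
  let T : Y → ((Fin m → ℝ) →L[ℝ] W) := fun y =>
    (c.restrictScalars ℝ).comp (((π y : (Fin n → ℝ) →L[ℝ] V)).comp ρ)
  have hT : ∀ y t, T y t = c (π y (ρ t)) := fun y t => rfl
  have hTc : ContinuousAt T y₀ := by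
    rw [continuousAt_clm_apply]
    intro t
    exact c.continuous.continuousAt.comp (hπ.self_of_nhds (ρ t)).continuousAt
  have hinj : ∀ {y}, (∀ t, T y t = 0 → t = 0) → Function.Injective (T y) := by
    intro y h t t' htt
    have h1 := h (t - t') (by rw [map_sub, htt, sub_self])
    exact sub_eq_zero.1 h1
  have hb0 := hb.self_of_nhds
  have hT0 : Function.Bijective (T y₀) := by
    constructor
    · refine hinj fun t ht => ?_
      have h1 : π y₀ (ρ t) ∈ b y₀ := (hb0 _).2 ⟨t, rfl⟩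
      rw [hT, hc _ h1] at ht
      have h2 : (⟨π y₀ (ρ t), h1⟩ : b y₀) = 0 := ε.injective (by rw [ht, map_zero])
      have h3 : π y₀ (ρ t) = 0 := congrArg Subtype.val h2
      have h4 : ρ t = 0 := (π y₀).injective (by rw [h3, map_zero])
      exact hρ (by rw [h4, map_zero])
    · intro w
      obtain ⟨t, ht⟩ := (hb0 _).1 (ε.symm w).2
      refine ⟨t, ?_⟩
      have h1 : π y₀ (ρ t) ∈ b y₀ := (hb0 _).2 ⟨t, rfl⟩
      rw [hT, hc _ h1]
      have h2 : (⟨π y₀ (ρ t), h1⟩ : b y₀) = ε.symm w := Subtype.ext ht.symm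
      rw [h2, ε.apply_symm_apply]
  let e₀ : (Fin m → ℝ) ≃L[ℝ] W := (LinearEquiv.ofBijective (T y₀ : (Fin m → ℝ) →ₗ[ℝ] W)
    hT0).toContinuousLinearEquiv
  have he₀ : (e₀ : (Fin m → ℝ) →L[ℝ] W) = T y₀ := by
    ext t
    rfl
  have hnear : ∀ᶠ y in 𝓝 y₀, ∃ e : (Fin m → ℝ) ≃L[ℝ] W, (e : (Fin m → ℝ) →L[ℝ] W) = T y := by
    have h1 : Tendsto T (𝓝 y₀) (𝓝 (e₀ : (Fin m → ℝ) →L[ℝ] W)) := by
      rw [he₀]
      exact hTc
    exact h1.eventually (ContinuousLinearEquiv.nhds e₀)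
  let p : Y → ((Fin m → ℝ) ≃L[ℝ] W) := fun y =>
    if h : ∃ e : (Fin m → ℝ) ≃L[ℝ] W, (e : (Fin m → ℝ) →L[ℝ] W) = T y then h.choose else e₀
  have hp : ∀ y, (∃ e : (Fin m → ℝ) ≃L[ℝ] W, (e : (Fin m → ℝ) →L[ℝ] W) = T y) →
      ∀ t, p y t = c (π y (ρ t)) := by
    intro y h t
    have h1 : p y = h.choose := dif_pos h
    have h2 := congrArg (fun A : (Fin m → ℝ) →L[ℝ] W => A t) h.choose_spec
    rw [h1]
    exact h2
  have hJ : ∀ y, (∃ e : (Fin m → ℝ) ≃L[ℝ] W, (e : (Fin m → ℝ) →L[ℝ] W) = T y) →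
      (∀ v, v ∈ b y ↔ ∃ t, v = π y (ρ t)) → ∃ j : W →L[ℂ] V, ∀ t, j (p y t) = π y (ρ t) := by
    intro y h hby
    let C : b y →ₗ[ℂ] W := (c : V →ₗ[ℂ] W).comp (b y).subtype
    have hC : Function.Bijective C := by
      constructor
      · intro v v' hv
        obtain ⟨t, ht⟩ := (hby _).1 v.2
        obtain ⟨t', ht'⟩ := (hby _).1 v'.2
        have h1 : c v.1 = c v'.1 := hv
        rw [ht, ht', ← hp y h, ← hp y h] at h1
        have h2 := (p y).injective h1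
        exact Subtype.ext (by rw [ht, ht', h2])
      · intro w
        refine ⟨⟨π y (ρ ((p y).symm w)), (hby _).2 ⟨_, rfl⟩⟩, ?_⟩
        change c (π y (ρ ((p y).symm w))) = w
        rw [← hp y h, (p y).apply_symm_apply]
    refine ⟨LinearMap.toContinuousLinearMap
      ((b y).subtype.comp ((LinearEquiv.ofBijective C hC).symm : W →ₗ[ℂ] b y)), fun t => ?_⟩
    change ((LinearEquiv.ofBijective C hC).symm (p y t) : V) = _
    have h1 : (LinearEquiv.ofBijective C hC).symm (p y t) =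
        ⟨π y (ρ t), (hby _).2 ⟨t, rfl⟩⟩ := by
      rw [LinearEquiv.symm_apply_eq]
      exact hp y h t
    rw [h1]
  let j : Y → (W →L[ℂ] V) := fun y =>
    if h : ∃ j : W →L[ℂ] V, ∀ t, j (p y t) = π y (ρ t) then h.choose else 0
  have hj : ∀ y, (∃ j : W →L[ℂ] V, ∀ t, j (p y t) = π y (ρ t)) → ∀ t, j y (p y t) = π y (ρ t) := by
    intro y h
    have h1 : j y = h.choose := dif_pos h
    rw [h1]
    exact h.choose_spec
  refine ⟨c, p, j, ?_⟩
  filter_upwards [hnear.eventually_nhds, hb.eventually_nhds, hπ] with y hy hyb hyπ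
  have hp' : ∀ t, ContMDiffAt 𝓘(ℂ, E') 𝓘(ℂ, W) ω (fun y => p y t) y := by
    intro t
    have h1 : ContMDiffAt 𝓘(ℂ, E') 𝓘(ℂ, W) ω (fun y => c (π y (ρ t))) y :=
      ContMDiffAt.comp (g := c) (f := fun y => π y (ρ t)) y c.contDiff.contDiffAt.contMDiffAt
        (hyπ (ρ t))
    refine h1.congr_of_eventuallyEq ?_
    filter_upwards [hy] with y' hy' using hp y' hy' t
  refine ⟨⟨hyb.self_of_nhds, hj y (hJ y hy.self_of_nhds hyb.self_of_nhds), fun w => ?_⟩, hp', ?_⟩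
  · have h1 := hj y (hJ y hy.self_of_nhds hyb.self_of_nhds) ((p y).symm w)
    rw [(p y).apply_symm_apply] at h1
    rw [h1, ← hp y hy.self_of_nhds, (p y).apply_symm_apply]
  · refine hol_of_periods hp' fun t => ?_
    refine (hyπ (ρ t)).congr_of_eventuallyEq ?_
    filter_upwards [hy, hyb] with y' hy' hyb' using hj y' (hJ y' hy' hyb') t

end Loc

end Vale.Agent.P281.H511.UD
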