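import Vale.Agent.P281.H303.UD.Spec
import Vale.Agent.P281.H511.UD.Pr

/-!
# P281, project T-UD, block UA (helper511): the cubic forms on `V`
-/

open scoped Manifold ContDiff Topology
open Set Filter Metric Module

noncomputable section

namespace Vale.Agent.P281.H511.UD

open Vale.Agent.P281 Vale.Agent.P281.H713 Vale.Agent.P281.H511.D
open Vale.Agent.P281.H64.TU (Tame)

variable {E : Type} [NormedAddCommGroup E] [NormedSpace ℂ E]
variable {X : Type} [TopologicalSpace X] [ChartedSpace E X]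
variable {V : Type} [NormedAddCommGroup V] [InnerProductSpace ℂ V] [FiniteDimensional ℂ V]
variable {Vb : Type} [NormedAddCommGroup Vb] [InnerProductSpace ℂ Vb] [FiniteDimensional ℂ Vb]

/-- Pointwise holomorphic families of linear maps are holomorphic. -/
theorem clm_hol_of_apply {W : Type} [NormedAddCommGroup W] [NormedSpace ℂ W]
    {A : X → V →L[ℂ] W} {x : X}
    (hA : ∀ v, ContMDiffAt 𝓘(ℂ, E) 𝓘(ℂ, W) ω (fun z => A z v) x) :
    ContMDiffAt 𝓘(ℂ, E) 𝓘(ℂ, V →L[ℂ] W) ω A x := by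
  let b := Module.finBasis ℂ V
  have h1 := lcomb_hol (E' := E) b (x := fun z i => A z (b i)) (y₀ := x) fun i => hA (b i)
  refine h1.congr_of_eventuallyEq (Eventually.of_forall fun z => ?_)
  ext v
  rw [lcomb_apply]
  conv_lhs => rw [← b.sum_repr v]
  rw [map_sum]
  exact Finset.sum_congr rfl fun i _ => map_smul _ _ _

theorem comp_hol {H : X → Cub Vb} {A : X → V →L[ℂ] Vb} {x : X}
    (hH : ContMDiffAt 𝓘(ℂ, E) 𝓘(ℂ, Cub Vb) ω H x)
    (hA : ContMDiffAt 𝓘(ℂ, E) 𝓘(ℂ, V →L[ℂ] Vb) ω A x) :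
    ContMDiffAt 𝓘(ℂ, E) 𝓘(ℂ, Cub V) ω
      (fun z => (H z).compContinuousLinearMap fun _ => A z) x := by
  have h1 : ContDiff ℂ ω (fun x : Cub Vb × (V →L[ℂ] Vb) =>
      x.1.compContinuousLinearMap fun _ => x.2) := by
    have h2 : ContDiff ℂ ω (fun x : Cub Vb × (V →L[ℂ] Vb) =>
        ContinuousMultilinearMap.compContinuousLinearMapContinuousMultilinear ℂ
          (fun _ : Fin 3 => V) (fun _ : Fin 3 => Vb) ℂ (fun _ => x.2)) := by
      refine (ContinuousMultilinearMap.contDiff _).comp ?_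
      exact contDiff_pi.2 fun _ => contDiff_snd
    exact h2.clm_apply contDiff_fst
  exact ContMDiffAt.comp (g := fun x : Cub Vb × (V →L[ℂ] Vb) =>
    x.1.compContinuousLinearMap fun _ => x.2) (f := fun z => (H z, A z)) x
    h1.contDiffAt.contMDiffAt (hH.prodMk_space hA)

theorem norm_comp_le {G : V ≃L[ℂ] V} {Gb : Vb ≃L[ℂ] Vb} {ℓ : V →L[ℂ] Vb}
    (h : ∀ v, ‖Gb (ℓ v)‖ ≤ ‖G v‖) (φ : Cub Vb) :
    ‖(φ.compContinuousLinearMap fun _ => ℓ).compContinuousLinearMap
        fun _ => (G.symm : V →L[ℂ] V)‖ ≤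
      ‖φ.compContinuousLinearMap fun _ => (Gb.symm : Vb →L[ℂ] Vb)‖ := by
  refine ContinuousMultilinearMap.opNorm_le_bound (norm_nonneg _) fun v => ?_
  have h1 : ((φ.compContinuousLinearMap fun _ => ℓ).compContinuousLinearMap
      fun _ => (G.symm : V →L[ℂ] V)) v =
      (φ.compContinuousLinearMap fun _ => (Gb.symm : Vb →L[ℂ] Vb))
        fun i => Gb (ℓ (G.symm (v i))) := by
    rw [ContinuousMultilinearMap.compContinuousLinearMap_apply,
      ContinuousMultilinearMap.compContinuousLinearMap_apply,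
      ContinuousMultilinearMap.compContinuousLinearMap_apply]
    congr 1
    funext i
    exact (Gb.symm_apply_apply _).symm
  rw [h1]
  refine (ContinuousMultilinearMap.le_opNorm _ _).trans ?_
  refine mul_le_mul_of_nonneg_left ?_ (norm_nonneg _)
  refine Finset.prod_le_prod (fun i _ => norm_nonneg _) fun i _ => ?_
  refine (h _).trans ?_
  rw [G.apply_symm_apply]

theorem algStmt : H303.UD.AlgStmt := by
  intro d n nb E E' _ _ _ _ X Y _ _ _ _ _ _ V Vb _ _ _ _ _ _ T f S Q QB ι U π ϖ j ℓ L u 𝒜 Lw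
    hf hM hD
  have hℓ : ∀ a x, f x ∈ U a →
      ContMDiffAt 𝓘(ℂ, E) 𝓘(ℂ, V →L[ℂ] Vb) ω (fun z => ℓ a (f z)) x := by
    intro a x hx
    refine clm_hol_of_apply fun v => ?_
    exact ContMDiffAt.comp (g := fun y => ℓ a y v) (f := f) x (hM.lhol a v _ hx) (hf x)
  refine { hM.toIsPeriodFamily with
    coord := hM.coord
    lift := ?_
    liftHol := ?_
    pole := ?_
    near := ?_
    change := ?_
    bound := ?_ }
  · intro a x hx
    obtain ⟨β, hβ⟩ := hM.lift a x hx
    obtain ⟨w, hw⟩ := hD.lift a x β hβ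
    exact ⟨β, _, w, hw, rfl⟩
  · rintro a x β _ ⟨w, hw, rfl⟩
    exact hM.liftHol a x β (hD.toL a x β w hw)
  · rintro a x β _ ⟨w, hw, rfl⟩ F e hF he
    obtain ⟨H, hH, hHw⟩ := hD.pole a x β w hw F e hF he
    refine ⟨fun z => (H z).compContinuousLinearMap fun _ => ℓ a (f z),
      comp_hol hH (hℓ a x (hM.mem a x β (hD.toL a x β w hw))), ?_⟩
    filter_upwards [hHw] with z hz hzD
    have h1 := hz hzD
    ext v
    rw [ContinuousMultilinearMap.smul_apply,
      ContinuousMultilinearMap.compContinuousLinearMap_apply,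
      ContinuousMultilinearMap.compContinuousLinearMap_apply, ← h1]
    rfl
  · rintro a x β _ ⟨w, hw, rfl⟩
    filter_upwards [hD.near a x β w hw] with z hz using ⟨w, hz, rfl⟩
  · rintro a b x hxa hxb β _ β' _ ⟨w, hw, rfl⟩ ⟨w', hw', rfl⟩
    obtain ⟨G, c, Gb, hG, -, -, hl, hz⟩ := hD.change a b x β β' w w' hw hw'
    refine ⟨G, c, hG, ?_⟩
    filter_upwards [hz] with z hz hfz
    refine ⟨(hz hfz).1, fun hzD => ?_⟩
    ext v
    rw [(hz hfz).2 hzD]
    rw [ContinuousMultilinearMap.compContinuousLinearMap_apply,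
      ContinuousMultilinearMap.compContinuousLinearMap_apply,
      ContinuousMultilinearMap.compContinuousLinearMap_apply,
      ContinuousMultilinearMap.compContinuousLinearMap_apply]
    congr 1
    funext i
    change Gb (ℓ a (f z) (v i)) = ℓ b (f z) (G (v i))
    rw [hfz, hl]
  · obtain ⟨M, hM'⟩ := hD.bound
    refine ⟨M, fun ρ K hρ hK => ?_⟩
    obtain ⟨B, hB⟩ := hM' ρ K hρ hK
    refine ⟨B, fun a q v₀ hq hT hU hqD => ?_⟩
    obtain ⟨h, β, w, hh, hw, hβ, hest⟩ := hB a q v₀ hq hT hU hqD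
    refine ⟨h, β, _, hh, ⟨w, hw, rfl⟩, hβ, fun G hG => ?_⟩
    obtain ⟨h1, h2⟩ := hest G hG
    refine ⟨h1, fun m hm => ?_⟩
    obtain ⟨Gb, hGb⟩ := hM.famb.polarized a _ hU
    refine le_trans ?_ (h2 Gb hGb m hm)
    refine mul_le_mul_of_nonneg_left ?_ (by positivity)
    refine norm_comp_le (fun v => ?_) (w (q v₀))
    rw [hM.rel a _ hU G hG Gb hGb]
    exact hM.norm a _ hU G hG v

end Vale.Agent.P281.H511.UD
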