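import Vale.Agent.P281.H511.UD.Val
import Vale.Agent.P281.H511.UD.Spec
import Vale.Agent.P281.H349.U.Form

/-!
# P281, project T-UD (helper511): the relative forms
-/

open scoped Manifold ContDiff Topology
open Set Filter Metric Module

namespace Vale.Agent.P281.H511.UD

open Vale.Agent.P281 Vale.Agent.P281.MF Vale.Agent.P281.ISO Vale.Agent.P281.ELL
open Vale.Agent.P281.H713 Vale.Agent.P281.H64.TU Vale.Agent.P281.H511.D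
open Vale.Agent.P281.H349.U (IsTerm)

set_option linter.unusedSectionVars false

section Forms

variable {E E' : Type} [NormedAddCommGroup E] [NormedSpace ℂ E] [FiniteDimensional ℂ E]
  [NormedAddCommGroup E'] [NormedSpace ℂ E'] [FiniteDimensional ℂ E']
variable {X Y : Type} [TopologicalSpace X] [ChartedSpace E X] [IsManifold 𝓘(ℂ, E) ω X]
  [TopologicalSpace Y] [ChartedSpace E' Y] [IsManifold 𝓘(ℂ, E') ω Y]
variable {V : Type} [NormedAddCommGroup V] [InnerProductSpace ℂ V] [FiniteDimensional ℂ V]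
variable {n d r : ℕ} {Q : (Fin n → ℝ) → (Fin n → ℝ) → ℝ}
variable {f : X → Y} {S : Set Y} {ι : Type} {U : ι → Set Y}
  {π : ι → Y → ((Fin n → ℝ) ≃L[ℝ] V)} {𝒜 : Set (Set X)}
  {L : ι → X → (X → V) → (X → Cub V) → Prop} {𝒯 : Tame (Fin d → ℂ) X}

variable {wt k D q : ℕ} {T : ((Fin d → ℂ) → V) → (Fin d → ℂ) → ℂ} {φ : ℂ × Cub V → ℂ}
  {π₀ : (Fin n → ℝ) ≃L[ℝ] V} {G₀ : V ≃L[ℂ] V}

/-- the value of the form does not depend on the slice -/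
theorem gvd_slice (hf : ∀ x, HolM E E' f x) (e₀ : E ≃L[ℂ] (E' × (Fin d → ℂ)))
    (hT : IsTerm wt k T) (Pr : (Fin n → ℝ) ≃L[ℝ] V) {x : X} {ζ : X → (Fin d → ℂ)}
    (hζ : HolV E ζ x)
    (hinj : ∀ ξ, dM E E' f x ξ = 0 → dV E ζ x ξ = 0 → ξ = 0) {R : E' × (Fin d → ℂ) → X}
    (hR1 : ContMDiffAt 𝓘(ℂ, E' × (Fin d → ℂ)) 𝓘(ℂ, E) ω R (chartAt E' (f x) (f x), ζ x))
    (hR2 : ∀ᶠ z in 𝓝 x, R (chartAt E' (f x) (f z), ζ z) = z)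
    {β : X → V} (hβ : HolV E β x) {s : (Fin d → ℂ) → X} {v : Fin d → ℂ}
    {P : E →L[ℂ] (Fin d → ℂ)} (hq : SlG E f s v x P) (y : ℂ × Cub V) :
    gvd Q π₀ G₀ T φ Pr (fun t => β (s t)) y v * JP e₀ (dM E E' f x) P ^ wt =
      gvd Q π₀ G₀ T φ Pr (fun t => β (R (chartAt E' (f x) (f x), t))) y (ζ x) *
        JP e₀ (dM E E' f x) (dV E ζ x) ^ wt := by
  obtain ⟨hqx, hq1, hq2, hq3⟩ := hq
  subst hqx
  set x := s v with hx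
  have hqt : Tendsto s (𝓝 v) (𝓝 x) := hq1.continuousAt
  set h : (Fin d → ℂ) → (Fin d → ℂ) := fun t => ζ (s t) with hh
  have hhc : ContDiffAt ℂ ω h v := (slice_fderiv hq1 hζ).1
  have hR0 : R (chartAt E' (f x) (f x), ζ x) = x := hR2.self_of_nhds
  set b₀ : (Fin d → ℂ) → V := fun t => β (R (chartAt E' (f x) (f x), t)) with hb₀
  have hb₀c : ContDiffAt ℂ ω b₀ (h v) := by
    have h1 : ContMDiffAt 𝓘(ℂ, Fin d → ℂ) 𝓘(ℂ, E' × (Fin d → ℂ)) ω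
        (fun t : Fin d → ℂ => (chartAt E' (f x) (f x), t)) (ζ x) :=
      contMDiffAt_iff_contDiffAt.2 (contDiffAt_const.prodMk contDiffAt_id)
    have h2 : ContMDiffAt 𝓘(ℂ, Fin d → ℂ) 𝓘(ℂ, E) ω
        (fun t : Fin d → ℂ => R (chartAt E' (f x) (f x), t)) (ζ x) :=
      ContMDiffAt.comp (ζ x) hR1 h1
    have h3 : HolV E β (R (chartAt E' (f x) (f x), ζ x)) := by rw [hR0]; exact hβ
    exact (slice_fderiv h2 h3).1
  have heq : (fun t => β (s t)) =ᶠ[𝓝 v] fun t => b₀ (h t) := by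
    filter_upwards [hqt.eventually hR2, hq2] with t h1 h2
    show β (s t) = β (R (chartAt E' (f x) (f x), ζ (s t)))
    rw [h2] at h1
    rw [h1]
  have h4 := JP_slice hf e₀ hq1 hq2 hζ hinj hq3
  rw [gvd_congr hT heq, gvd_comp hT hhc hb₀c, h4, mul_pow]
  ring

/-- the value of the form is well defined -/
theorem gvd_indep (hC : IsUD E E' d 𝒯 f S Q U π 𝒜 L) (hf : ∀ x, HolM E E' f x)
    (e₀ : E ≃L[ℂ] (E' × (Fin d → ℂ))) (hT : IsTerm wt k T) {a b : ι} {x : X}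
    (ha : f x ∈ U a) (hb : f x ∈ U b) (hx : ∀ D ∈ 𝒜, x ∉ D) {β β' : X → V} {w w' : X → Cub V}
    (hβ : L a x β w) (hβ' : L b x β' w') {s s' : (Fin d → ℂ) → X} {v v' : Fin d → ℂ}
    {P P' : E →L[ℂ] (Fin d → ℂ)} (hq : SlG E f s v x P) (hq' : SlG E f s' v' x P') :
    gvd Q π₀ G₀ T φ (π a (f x)) (fun t => β (s t)) (1, w x) v * JP e₀ (dM E E' f x) P ^ wt =
      gvd Q π₀ G₀ T φ (π b (f x)) (fun t => β' (s' t)) (1, w' x) v' *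
        JP e₀ (dM E E' f x) P' ^ wt := by
  obtain ⟨G, c, hG, hGc⟩ := hC.change a b x ha hb β w β' w' hβ hβ'
  obtain ⟨ζ, hζ, hinj⟩ := hC.coord x ((hC.cover _).2 ⟨a, ha⟩)
  obtain ⟨R, hR1, hR2, -⟩ := exists_slices hf e₀ hζ hinj
  have hβh : HolV E β x := hC.liftHol a x β w hβ
  rw [gvd_slice hf e₀ hT _ hζ hinj hR1 hR2 hβh hq]
  rw [← gvd_slice hf e₀ hT (π a (f x)) hζ hinj hR1 hR2 hβh hq']
  congr 1
  obtain ⟨hq0, hq1, hq2, -⟩ := hq'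
  have hbc : ContDiffAt ℂ ω (fun t => β (s' t)) v' := by
    have h1 : HolV E β (s' v') := by rw [hq0]; exact hβh
    exact (slice_fderiv hq1 h1).1
  have hw : w x = pull (w' x) (G : V →L[ℂ] V) := (hGc.self_of_nhds rfl).2 hx
  rw [hw, ← gvd_affine hT hG c hbc]
  refine gvd_congr hT ?_ _
  have hqt : Tendsto s' (𝓝 v') (𝓝 x) := by
    have := hq1.continuousAt.tendsto
    rwa [hq0] at this
  filter_upwards [hqt.eventually hGc, hq2] with t h1 h2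
  exact (h1 h2).1.symm

/-- the property which characterizes the form `Θ` -/
def IsVal (e₀ : E ≃L[ℂ] (E' × (Fin d → ℂ))) (Q : (Fin n → ℝ) → (Fin n → ℝ) → ℝ)
    (π₀ : (Fin n → ℝ) ≃L[ℝ] V) (G₀ : V ≃L[ℂ] V) (T : ((Fin d → ℂ) → V) → (Fin d → ℂ) → ℂ)
    (φ : ℂ × Cub V → ℂ) (wt : ℕ) (f : X → Y) (U : ι → Set Y)
    (π : ι → Y → ((Fin n → ℝ) ≃L[ℝ] V)) (𝒜 : Set (Set X))
    (L : ι → X → (X → V) → (X → Cub V) → Prop) (Θ : X → ℂ) : Prop :=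
  ∀ a x, f x ∈ U a → (∀ D ∈ 𝒜, x ∉ D) → ∀ β w, L a x β w → ∀ s v P, SlG E f s v x P →
    Θ x = gvd Q π₀ G₀ T φ (π a (f x)) (fun t => β (s t)) (1, w x) v *
      JP e₀ (dM E E' f x) P ^ wt

/-- the forms -/
theorem exists_form (hC : IsUD E E' d 𝒯 f S Q U π 𝒜 L) (hf : ∀ x, HolM E E' f x)
    (e₀ : E ≃L[ℂ] (E' × (Fin d → ℂ))) (hT : IsTerm wt k T) (φ : ℂ × Cub V → ℂ)
    (π₀ : (Fin n → ℝ) ≃L[ℝ] V) (G₀ : V ≃L[ℂ] V) :
    ∃ Θ : X → ℂ, IsVal e₀ Q π₀ G₀ T φ wt f U π 𝒜 L Θ := by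
  classical
  have hex : ∀ x, ∃ θ : ℂ, ∀ a, f x ∈ U a → (∀ D ∈ 𝒜, x ∉ D) → ∀ β w, L a x β w → ∀ s v P,
      SlG E f s v x P →
      θ = gvd Q π₀ G₀ T φ (π a (f x)) (fun t => β (s t)) (1, w x) v *
        JP e₀ (dM E E' f x) P ^ wt := by
    intro x
    by_cases hx : ∃ a, f x ∈ U a
    · obtain ⟨a, ha⟩ := hx
      obtain ⟨β, w, hβ⟩ := hC.lift a x ha
      obtain ⟨ζ, hζ, hinj⟩ := hC.coord x ((hC.cover _).2 ⟨a, ha⟩)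
      obtain ⟨R, hR1, hR2, hR3⟩ := exists_slices hf e₀ hζ hinj
      have hq := (slg_near hf hζ hR1 hR2 hR3).self_of_nhds
      exact ⟨_, fun b hb hx β' w' hβ' s' v' P' hq' =>
        gvd_indep hC hf e₀ hT ha hb hx hβ hβ' hq hq'⟩
    · exact ⟨0, fun a ha => absurd ⟨a, ha⟩ hx⟩
  choose Θ hΘ using hex
  exact ⟨Θ, fun a x => hΘ x a⟩

/-- holomorphy of the coefficients -/
theorem form_local (hC : IsUD E E' d 𝒯 f S Q U π 𝒜 L) (hn : 0 < n)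
    (hf : ∀ x, HolM E E' f x) (e₀ : E ≃L[ℂ] (E' × (Fin d → ℂ))) (hT : IsTerm wt k T)
    (hφ : IsHom q φ) (hk : 3 * q + (n * n + 1) ≤ k) (h₀ : IsPol Q π₀ G₀) {Θ : X → ℂ}
    (hΘ : IsVal e₀ Q π₀ G₀ T φ wt f U π 𝒜 L Θ) {x : X} {a : ι} (ha : f x ∈ U a)
    {β : X → V} {w : X → Cub V} (hβ : L a x β w) {ζ : X → (Fin d → ℂ)}
    (hζ : HolV E ζ x) (hinj : ∀ ξ, dM E E' f x ξ = 0 → dV E ζ x ξ = 0 → ξ = 0)
    {F : Finset (Set X)} (hF : ∀ D ∈ 𝒜, D ∈ F) {eD : Set X → X → ℂ}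
    (heD : ∀ D ∈ F, IsLocalEq E D (eD D) x) :
    ∃ (c : X → ℂ), HolV E c x ∧ ∀ᶠ z in 𝓝 x, (∀ D ∈ 𝒜, z ∉ D) →
      Θ z * ((∏ D ∈ F, eD D z) ^ 3) ^ q = c z * JP e₀ (dM E E' f z) (dV E ζ z) ^ wt := by
  obtain ⟨H, hH, hHe⟩ := hC.pole a x β w hβ F eD hF heD
  have ht : HolV E (fun z => (∏ D ∈ F, eD D z) ^ 3) x := by
    refine HolV.pow (HolV.prod fun D hD => ?_) 3
    obtain ⟨W, -, hxW, h1, -⟩ := heD D hD
    exact h1 x hxW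
  have hZh : HolV E (fun z => ((∏ D ∈ F, eD D z) ^ 3, H z)) x := ht.prodMk hH
  have hβh : HolV E β x := hC.liftHol a x β w hβ
  obtain ⟨R, hR1, hR2, hR3⟩ := exists_slices hf e₀ hζ hinj
  set ψ := chartAt E' (f x) with hψ
  have hys : f x ∈ ψ.source := mem_chart_source E' (f x)
  have hR0 : R (ψ (f x), ζ x) = x := hR2.self_of_nhds
  have hpair : HolV E (fun z => (ψ (f z), ζ z)) x :=
    (HolV.comp (h := (ψ : Y → E')) (HolV.chart hys) (hf x)).prodMk hζ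
  have hB : ContDiffAt ℂ ω (fun p => β (R p)) (ψ (f x), ζ x) := by
    have h1 : HolV E β (R (ψ (f x), ζ x)) := by rw [hR0]; exact hβh
    exact (slice_fderiv hR1 h1).1
  have hZ : ContDiffAt ℂ ω (fun p => ((∏ D ∈ F, eD D (R p)) ^ 3, H (R p)))
      (ψ (f x), ζ x) := by
    have h1 : HolV E (fun z => ((∏ D ∈ F, eD D z) ^ 3, H z)) (R (ψ (f x), ζ x)) := by
      rw [hR0]; exact hZh
    exact (slice_fderiv hR1 h1).1
  set U₁ : Set E' := ψ.target ∩ ψ.symm ⁻¹' (U a) with hU₁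
  have hU₁o : IsOpen U₁ :=
    ψ.continuousOn_symm.isOpen_inter_preimage ψ.open_target (hC.isOpen a)
  have hx₁ : ψ (f x) ∈ U₁ := by
    refine ⟨ψ.map_source hys, ?_⟩
    show ψ.symm (ψ (f x)) ∈ U a
    rw [ψ.left_inv hys]
    exact ha
  have hPd : ∀ w, DifferentiableOn ℂ (fun p => π a (ψ.symm p) w) U₁ := by
    intro w p hp
    have h1 : HolV E' (fun y => π a y w) (ψ.symm p) := hC.hol a w _ hp.2
    have h2 := h1.rep (ψ.map_target hp.1)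
    rw [ψ.right_inv hp.1] at h2
    exact (h2.differentiableAt (by simp)).differentiableWithinAt
  have hG := gvd_analytic (T := T) (Q := Q) hn hk hT hφ h₀ hU₁o
    (P := fun p => π a (ψ.symm p)) hPd (fun p hp => hC.polarized a _ hp.2)
    (B := fun y => β (R y)) (Z := fun p => ((∏ D ∈ F, eD D (R p)) ^ 3, H (R p)))
    (x₀ := (ψ (f x), ζ x)) hx₁ hB hZ
  refine ⟨fun z => gvd Q π₀ G₀ T φ (π a (ψ.symm (ψ (f z))))
    (fun t => β (R (ψ (f z), t))) ((∏ D ∈ F, eD D (R (ψ (f z), ζ z))) ^ 3,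
      H (R (ψ (f z), ζ z))) (ζ z), ?_, ?_⟩
  · exact HolV.comp_contDiff (v := fun z => (ψ (f z), ζ z)) hG.contDiffAt hpair
  · filter_upwards [slg_near hf hζ hR1 hR2 hR3, hC.near a x β w hβ,
      (hf x).continuousAt.eventually ((hC.isOpen a).mem_nhds ha),
      (hf x).continuousAt.eventually (ψ.open_source.mem_nhds hys), hR2, hHe]
      with z h1 h2 h4 h5 h6 h7 h8
    rw [ψ.left_inv h5, h6, hΘ a z h4 h8 β w h2 _ _ _ h1]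
    have h9 := gvd_smul (Q := Q) (π₀ := π₀) (G₀ := G₀) (T := T) (P := π a (f z)) hφ
      (b := fun t => β (R (ψ (f z), t))) (v := ζ z) ((∏ D ∈ F, eD D z) ^ 3)
      ((1, w z) : ℂ × Cub V)
    have h10 : ((∏ D ∈ F, eD D z) ^ 3) • ((1, w z) : ℂ × Cub V) =
        ((∏ D ∈ F, eD D z) ^ 3, H z) := by
      refine Prod.ext ?_ (h7 h8)
      show (∏ D ∈ F, eD D z) ^ 3 * 1 = _
      rw [mul_one]
    rw [h10] at h9
    rw [h9]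
    ring

/-- the maximum of the minors -/
theorem exists_max_minor (h : (Fin d → ℂ) → V) (v : Fin d → ℂ) :
    ∃ m₁ : Fin d → (V →L[ℂ] ℂ), (∀ i, ‖m₁ i‖ ≤ 1) ∧
      ∀ m : Fin d → (V →L[ℂ] ℂ), (∀ i, ‖m i‖ ≤ 1) → ‖minor m h v‖ ≤ ‖minor m₁ h v‖ := by
  have : ProperSpace (Fin d → (V →L[ℂ] ℂ)) :=
    FiniteDimensional.proper ℂ (Fin d → (V →L[ℂ] ℂ))
  have hcont : Continuous fun m : Fin d → (V →L[ℂ] ℂ) => ‖minor m h v‖ := by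
    refine Continuous.norm ?_
    unfold minor
    refine Continuous.matrix_det (continuous_matrix fun i j => ?_)
    exact (ContinuousLinearMap.apply ℂ ℂ (fderiv ℂ h v (Pi.single j 1))).continuous.comp
      (continuous_apply i)
  have hball : ∀ m : Fin d → (V →L[ℂ] ℂ), m ∈ closedBall (0 : Fin d → (V →L[ℂ] ℂ)) 1 ↔
      ∀ i, ‖m i‖ ≤ 1 := by
    intro m
    rw [mem_closedBall_zero_iff, pi_norm_le_iff_of_nonneg zero_le_one]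
  obtain ⟨m₁, hm₁, hmax⟩ := (isCompact_closedBall (0 : Fin d → (V →L[ℂ] ℂ)) 1).exists_isMaxOn
    ⟨0, mem_closedBall_self zero_le_one⟩ hcont.continuousOn
  exact ⟨m₁, (hball m₁).1 hm₁, fun m hm => hmax ((hball m).2 hm)⟩

/-- the uniform bound on tame slices -/
theorem form_bound (hC : IsUD E E' d 𝒯 f S Q U π 𝒜 L) (hn : 0 < n)
    (e₀ : E ≃L[ℂ] (E' × (Fin d → ℂ))) :
    ∃ M : ℕ, ∀ (wt k D q : ℕ) (T : ((Fin d → ℂ) → V) → (Fin d → ℂ) → ℂ) (φ : ℂ × Cub V → ℂ),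
      IsTermD wt k D T → IsHom q φ → 3 * q + 2 * (n * n + 1) ≤ k → M * q ≤ D →
      ∀ (π₀ : (Fin n → ℝ) ≃L[ℝ] V) (G₀ : V ≃L[ℂ] V),
      IsPol Q π₀ G₀ → ∀ Θ : X → ℂ, IsVal e₀ Q π₀ G₀ T φ wt f U π 𝒜 L Θ →
      ∀ ρ K : ℝ, 0 < ρ → 0 < K →
    ∃ C : ℝ, ∀ (v₀ : Fin d → ℂ) (s : (Fin d → ℂ) → X),
      (∀ v ∈ ball v₀ ρ, ContMDiffAt 𝓘(ℂ, Fin d → ℂ) 𝓘(ℂ, E) ω s v) → InjOn s (ball v₀ ρ) →
      (∀ v ∈ ball v₀ ρ, f (s v) = f (s v₀)) → f (s v₀) ∉ S →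
      (∀ v ∈ ball v₀ ρ, ∀ D ∈ 𝒜, s v ∉ D) → 𝒯 K s v₀ ρ →
      ∀ P : E →L[ℂ] (Fin d → ℂ),
      P.comp (mfderiv 𝓘(ℂ, Fin d → ℂ) 𝓘(ℂ, E) s v₀ : (Fin d → ℂ) →L[ℂ] E) =
        ContinuousLinearMap.id ℂ (Fin d → ℂ) →
      ‖Θ (s v₀)‖ ≤ C * ‖JP e₀ (dM E E' f (s v₀)) P ^ wt‖ := by
  obtain ⟨M, hM⟩ := hC.bound
  refine ⟨M + 1, fun wt k D q T φ hT hφ hk hD π₀ G₀ h₀ Θ hΘ ρ K hρ hK => ?_⟩
  obtain ⟨B, hB⟩ := hM ρ K hρ hK
  obtain ⟨Kφ, hKφ, hφK⟩ := hφ.grow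
  have hρ2 : 0 < ρ / 2 := half_pos hρ
  obtain ⟨KT, hKT0, hKT⟩ := gvd_bound (Q := Q) (π₀ := π₀) (G₀ := G₀) hn hρ2 (le_max_right B 0) hT
    hKφ hφK hk h₀
  obtain ⟨R', hR'0, hR'⟩ := minor_le (d := d) (V := V) zero_le_one (le_max_right B 0)
  set c₁ : ℝ := 8 * ‖(G₀ : V →L[ℂ] V)‖ ^ 3 with hc₁
  have hc₁0 : 0 ≤ c₁ := by positivity
  set R₁ : ℝ := max R' 1 with hR₁
  have hR₁0 : 0 ≤ R₁ := hR'0.trans (le_max_left _ _)
  set B₂ : ℝ := max 1 (R₁ ^ (M + 1) + c₁ * R₁ * |B|) with hB₂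
  refine ⟨KT * (R₁ ^ (D - (M + 1) * q) * B₂ ^ q), fun v₀ s h1 h2 h3 h4 h5 hTm P h6 => ?_⟩
  obtain ⟨a, ha⟩ := (hC.cover _).1 h4
  obtain ⟨h, β, w, hh1, hβ, hβh, hh3⟩ := hB a s v₀ ⟨h1, h2, h3⟩ hTm ha h5
  obtain ⟨G, hG⟩ : ∃ G, IsPol Q (π a (f (s v₀))) G := hC.polarized a _ ha
  obtain ⟨hb1, hb2⟩ := hh3 G hG
  have hv₀ : v₀ ∈ ball v₀ ρ := mem_ball_self hρ
  have hslc : SlG E f s v₀ (s v₀) P :=
    ⟨rfl, h1 v₀ hv₀, eventually_of_mem (ball_mem_nhds v₀ hρ) h3, h6⟩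
  rw [hΘ a _ ha (fun D hD => h5 v₀ hv₀ D hD) β w hβ s v₀ P hslc,
    gvd_congr hT.toIsTerm hβh, norm_mul]
  refine mul_le_mul_of_nonneg_right ?_ (norm_nonneg _)
  have hsub : ball v₀ (ρ / 2) ⊆ ball v₀ ρ := ball_subset_ball (by linarith)
  -- the minors
  obtain ⟨m₁, hm₁, hmax⟩ := exists_max_minor (fun u => G (h u)) v₀
  set J : ℝ := ‖minor m₁ (fun u => G (h u)) v₀‖ with hJ
  have hJ0 : 0 ≤ J := norm_nonneg _
  have hJR : J ≤ R' := hR' m₁ _ v₀ hm₁ ((hb1 v₀ (mem_ball_self hρ2)).trans (le_max_left _ _))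
  set W : ℝ := ‖pull (w (s v₀)) (G.symm : V →L[ℂ] V)‖ with hW
  have hW0 : 0 ≤ W := norm_nonneg _
  have hJW : J ^ M * W ≤ |B| := (hb2 m₁ hm₁).trans (le_abs_self B)
  have h1W : 0 < 1 + c₁ * W := by positivity
  set μ : ℝ := max J (1 + c₁ * W)⁻¹ with hμ
  have hμ0 : 0 < μ := lt_max_of_lt_right (inv_pos.2 h1W)
  have hinv1 : (1 + c₁ * W)⁻¹ ≤ 1 := inv_le_one_of_one_le₀ (by nlinarith)
  have hμR : μ ≤ R₁ := max_le (hJR.trans (le_max_left _ _)) (hinv1.trans (le_max_right _ _))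
  have hμW : μ ^ (M + 1) * (1 + c₁ * W) ≤ B₂ := by
    rcases le_total J (1 + c₁ * W)⁻¹ with h | h
    · have h7 : μ = (1 + c₁ * W)⁻¹ := max_eq_right h
      rw [h7, pow_succ, mul_assoc, inv_mul_cancel₀ h1W.ne', mul_one]
      exact (pow_le_one₀ (inv_nonneg.2 h1W.le) hinv1).trans (le_max_left _ _)
    · have h7 : μ = J := max_eq_left h
      have hJR₁ : J ≤ R₁ := hJR.trans (le_max_left _ _)
      rw [h7]
      refine le_trans ?_ (le_max_right _ _)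
      calc J ^ (M + 1) * (1 + c₁ * W) = J ^ (M + 1) + c₁ * J * (J ^ M * W) := by ring
        _ ≤ R₁ ^ (M + 1) + c₁ * R₁ * |B| := by gcongr
  have h8 := hKT _ G hG h v₀ (hh1.mono hsub) (fun v hv => (hb1 v hv).trans (le_max_left _ _))
    μ hμ0 (fun m hm => (hmax m hm).trans (le_max_left _ _)) ((1, w (s v₀)) : ℂ × Cub V)
  have h9 : ‖((1, w (s v₀)) : ℂ × Cub V).1‖ = 1 := norm_one
  rw [h9] at h8
  refine h8.trans (mul_le_mul_of_nonneg_left ?_ hKT0)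
  have h10 : μ ^ D = μ ^ (D - (M + 1) * q) * (μ ^ (M + 1)) ^ q := by
    rw [← pow_mul, ← pow_add]
    congr 1
    omega
  show μ ^ D * (1 + c₁ * W) ^ q ≤ _
  rw [h10, mul_assoc, ← mul_pow]
  have hB₂0 : 0 ≤ B₂ := zero_le_one.trans (le_max_left _ _)
  gcongr

theorem relForm (hC : IsUD E E' d 𝒯 f S Q U π 𝒜 L) (h𝒜 : 𝒜.Finite) (hn : 0 < n)
    (hf : ∀ x, HolM E E' f x) (e₀ : E ≃L[ℂ] (E' × (Fin d → ℂ))) :
    ∃ M : ℕ, ∀ (wt k D q : ℕ) (T : ((Fin d → ℂ) → V) → (Fin d → ℂ) → ℂ) (φ : ℂ × Cub V → ℂ),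
      0 < q → IsTermD wt k D T → IsHom q φ → 3 * q + 2 * (n * n + 1) ≤ k → M * q ≤ D →
      ∀ (π₀ : (Fin n → ℝ) ≃L[ℝ] V) (G₀ : V ≃L[ℂ] V),
      IsPol Q π₀ G₀ → ∀ Θ : X → ℂ, IsVal e₀ Q π₀ G₀ T φ wt f U π 𝒜 L Θ →
      RelFormT 𝒯 f S e₀ wt 𝒜 (kap h𝒜.toFinset q) Θ := by
  have hmem : ∀ D, D ∈ h𝒜.toFinset ↔ D ∈ 𝒜 := fun D => h𝒜.mem_toFinset
  obtain ⟨M, hM⟩ := form_bound hC hn e₀
  refine ⟨M, fun wt k D q T φ hq hT hφ hk hD π₀ G₀ h₀ Θ hΘ => ⟨hol_of_local hf e₀ ?_, ?_⟩⟩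
  · intro x hx F eD hF heD
    obtain ⟨a, ha⟩ := (hC.cover (f x)).1 hx
    obtain ⟨β, w, hβ⟩ := hC.lift a x ha
    obtain ⟨ζ, hζ, hinj⟩ := hC.coord x hx
    have hsub : ∀ D ∈ h𝒜.toFinset, IsLocalEq E D (eD D) x := fun D hD => heD D (hF D (by
      unfold kap
      rw [if_pos hD]
      omega))
    obtain ⟨c, hc, hev⟩ := form_local hC hn hf e₀ hT.toIsTerm hφ (by omega) h₀ hΘ ha hβ hζ hinj
      (F := h𝒜.toFinset) (fun D hD => (hmem D).2 hD) hsub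
    refine ⟨ζ, c, hζ, hc, ?_⟩
    filter_upwards [hev] with z h1 h2 _
    rw [kap_prod hq hF]
    exact h1 h2
  · intro ρ K hρ hK
    obtain ⟨C, hC'⟩ := hM wt k D q T φ hT hφ hk hD π₀ G₀ h₀ Θ hΘ ρ K hρ hK
    exact ⟨C, hC'⟩

end Forms

end Vale.Agent.P281.H511.UD
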