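import Vale.Agent.P281.H511.UD.Prep
import Vale.Agent.P281.H511.UD.Form
import Vale.Agent.P281.H511.D.Has
import Vale.Agent.P281.H349.U.Has

/-!
# P281, project T-UD (helper511): the forms (`HasUDStmt`)
-/

open scoped Manifold ContDiff Topology
open Set Filter Metric Module

namespace Vale.Agent.P281.H511.UD

open Vale.Agent.P281 Vale.Agent.P281.MF Vale.Agent.P281.ISO Vale.Agent.P281.ELL
open Vale.Agent.P281.H713 Vale.Agent.P281.H64.TU Vale.Agent.P281.H511.D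
open Vale.Agent.P281.H349.U (IsTerm Fm tu nu isTerm_tu KU jets jets_of_rank minor_symm full_map)

set_option linter.unusedSectionVars false

section Forms

variable {E E' : Type} [NormedAddCommGroup E] [NormedSpace ℂ E] [FiniteDimensional ℂ E]
  [NormedAddCommGroup E'] [NormedSpace ℂ E'] [FiniteDimensional ℂ E']
variable {X Y : Type} [TopologicalSpace X] [ChartedSpace E X] [IsManifold 𝓘(ℂ, E) ω X]
  [TopologicalSpace Y] [ChartedSpace E' Y] [IsManifold 𝓘(ℂ, E') ω Y]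
variable {V : Type} [NormedAddCommGroup V] [InnerProductSpace ℂ V] [FiniteDimensional ℂ V]
variable {n d r : ℕ} {Q : (Fin n → ℝ) → (Fin n → ℝ) → ℝ}
variable {f : X → Y} {S : Set Y} {ι : Type} {U : ι → Set Y}
  {π : ι → Y → ((Fin n → ℝ) ≃L[ℝ] V)} {𝒜 : Set (Set X)}
  {L : ι → X → (X → V) → (X → Cub V) → Prop} {𝒯 : Tame (Fin d → ℂ) X}

/-- off the divisor, `w` is holomorphic -/
theorem ud_hol_w (hC : IsUD E E' d 𝒯 f S Q U π 𝒜 L) (h𝒜 : 𝒜.Finite) (hcl : ∀ D ∈ 𝒜, IsClosed D)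
    {a : ι} {x : X} {β : X → V} {w : X → Cub V} (hβ : L a x β w) (hx : ∀ D ∈ 𝒜, x ∉ D) :
    HolV E w x := by
  have hmem : ∀ D, D ∈ h𝒜.toFinset ↔ D ∈ 𝒜 := fun D => h𝒜.mem_toFinset
  obtain ⟨H, hH, hHe⟩ := hC.pole a x β w hβ h𝒜.toFinset (fun _ _ => 1)
    (fun D hD => (hmem D).2 hD)
    fun D hD => localEq_one (hcl D ((hmem D).1 hD)) (hx D ((hmem D).1 hD))
  refine HolV.congr (show HolV E H x from hH) ?_
  have h1 : ∀ᶠ z in 𝓝 x, ∀ D ∈ 𝒜, z ∉ D :=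
    (h𝒜.eventually_all).2 fun D hD => (hcl D hD).isOpen_compl.mem_nhds (hx D hD)
  filter_upwards [hHe, h1] with z h2 h3
  have h4 := h2 h3
  rw [Finset.prod_const_one, one_pow, one_smul] at h4
  exact h4

theorem hasForms_ud (hC : IsUD E E' d 𝒯 f S Q U π 𝒜 L) (h𝒜 : 𝒜.Finite) (hd : 0 < d)
    (hf : ∀ x, HolM E E' f x) (e₀ : E ≃L[ℂ] (E' × (Fin d → ℂ))) {Δ : Set X → ℝ}
    (hΔ : ∀ D, 0 ≤ Δ D) (hprime : ∀ D ∈ 𝒜, IsPrimeDivisor E D) (h𝒜Δ : ∀ D ∈ 𝒜, 0 < Δ D)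
    {y : Y} (hrk : RankUD E (d := d) f U 𝒜 L r y) : HasFormsT 𝒯 f S e₀ Δ r y := by
  classical
  have hn' : (ω : WithTop ℕ∞) ≠ 0 := by simp
  have hcl : ∀ D ∈ 𝒜, IsClosed D := fun D hD => (hprime D hD).1
  obtain ⟨a₀, ha₀, q, v₀, hq, hfq, hq𝒜, hnd⟩ := hrk
  obtain ⟨G₀, h₀⟩ : ∃ G₀, IsPol Q (π a₀ y) G₀ := hC.polarized a₀ y ha₀
  set π₀ := π a₀ y with hπ₀
  have hfx₀ : f (q v₀) = y := hfq.self_of_nhds
  have hfa : f (q v₀) ∈ U a₀ := by rw [hfx₀]; exact ha₀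
  have hyS : y ∉ S := (hC.cover y).2 ⟨a₀, ha₀⟩
  obtain ⟨β, w, hβ⟩ := hC.lift a₀ (q v₀) hfa
  have hβh : HolV E β (q v₀) := hC.liftHol a₀ (q v₀) β w hβ
  set b : (Fin d → ℂ) → V := fun v => β (q v) with hb
  set γ : (Fin d → ℂ) → Cub V := fun v => w (q v) with hγ
  have hbc : ContDiffAt ℂ ω b v₀ := (slice_fderiv hq hβh).1
  have hγc : ContDiffAt ℂ ω γ v₀ := (slice_fderiv hq (ud_hol_w hC h𝒜 hcl hβ hq𝒜)).1
  have hqt : Tendsto q (𝓝 v₀) (𝓝 (q v₀)) := hq.continuousAt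
  obtain ⟨⟨mm, Λ, hm0, hsurj⟩, hfull⟩ := hnd β w hβ
  have hmm0 : minor (mm 0) b v₀ ≠ 0 := left_ne_zero_of_mul hm0
  have hn : 0 < n := pos_of_period π₀ (finrank_pos_of_minor hd hmm0)
  -- good points
  have hq' : ∀ᶠ v in 𝓝 v₀, ContMDiffAt 𝓘(ℂ, Fin d → ℂ) 𝓘(ℂ, E) ω q v :=
    (contMDiffAt_iff_contMDiffAt_nhds (by simp)).1 hq
  have hoff : ∀ᶠ z in 𝓝 (q v₀), ∀ D ∈ 𝒜, z ∉ D :=
    (h𝒜.eventually_all).2 fun D hD => (hcl D hD).isOpen_compl.mem_nhds (hq𝒜 D hD)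
  have hgood : ∀ᶠ v in 𝓝 v₀, (∃ P, SlG E f q v (q v) P) ∧ L a₀ (q v) β w ∧
      f (q v) = y ∧ ∀ D ∈ 𝒜, q v ∉ D := by
    filter_upwards [hq', eventually_eventually_nhds.2 hfq, hqt.eventually (HolV.eventually hβh),
      hqt.eventually (hC.near a₀ (q v₀) β w hβ),
      (minor_contDiffAt (mm 0) hbc).continuousAt.eventually_ne hmm0,
      hqt.eventually hoff] with v h1 h2 h3 h4 h5 h6
    obtain ⟨P, hP⟩ := slice_leftInv h1 h3 h5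
    have h8 : f (q v) = y := h2.self_of_nhds
    refine ⟨⟨P, rfl, h1, ?_, hP⟩, h4, h8, h6⟩
    filter_upwards [h2] with z hz
    rw [hz, h8]
  set e : Basis (Fin (finrank ℂ V)) ℂ V := finBasis ℂ V with he
  set h : (Fin d → ℂ) → V := fun v => G₀ (b v) with hh
  have hhc : ContDiffAt ℂ ω h v₀ := cd_map hbc (G₀ : V →L[ℂ] V)
  set t : Fin (r + 1) → Fm d V := fun j a => (mm j a).comp (G₀.symm : V →L[ℂ] V) with ht
  have hmt : ∀ j, (fun v => minor (t j) h v * Λ j (1, γ v)) =ᶠ[𝓝 v₀]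
      fun v => minor (mm j) b v * Λ j (1, γ v) := by
    intro j
    filter_upwards [minor_symm hbc G₀ (mm j)] with v hv
    rw [hv]
  have hdiff : ∀ j, DifferentiableAt ℂ (fun v => minor (mm j) b v * Λ j (1, γ v)) v₀ := fun j =>
    ((minor_contDiffAt (mm j) hbc).mul (cd_phi (ψ := fun x => Λ j x) (Λ j).contDiff
      hγc)).differentiableAt hn'
  have hj₀ : LinearIndependent ℂ (jets (fun j v => minor (t j) h v * Λ j (1, γ v)) v₀) := by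
    rw [jets_congr hmt]
    exact jets_of_rank hdiff hm0 hsurj
  have ht0 : minor (t 0) h v₀ * Λ 0 (1, γ v₀) ≠ 0 := by
    have h1 : minor (t 0) h v₀ * Λ 0 (1, γ v₀) = minor (mm 0) b v₀ * Λ 0 (1, γ v₀) :=
      (hmt 0).self_of_nhds
    rw [h1]
    exact hm0
  obtain ⟨v₁, hg₁, hhv₁, hγv₁, htj, ht1, hgen, hgenw, i₀, l, R₀, m, hm, hmne, hmax⟩ :=
    ud_prep hn h₀ hhc hγc hj₀ ht0 (full_map hfull G₀) e (eventually_eventually_nhds.2 hgood)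
  obtain ⟨M₀, hrel⟩ := relForm hC h𝒜 hn hf e₀
  obtain ⟨qq, D, Ψ, Φ, hqq, hMD, hΨ, hΦ, hlim⟩ :=
    ud_limit hn h₀ hhv₁ hγv₁ htj ht1 hgen hgenw hm hmne hmax M₀
  -- the weight
  have hnu0 : 0 < nu l := by
    have hg : 0 < finrank ℂ V := finrank_pos_of_minor hd hmm0
    exact Finset.sum_pos (fun i _ => by omega) ⟨⟨0, hg⟩, Finset.mem_univ _⟩
  obtain ⟨N₀, hN₀⟩ : ∃ N₀ : ℕ, ∀ k, N₀ ≤ k → 3 * qq + 2 * (n * n + 1) ≤ k ∧
      ∀ D' ∈ 𝒜, ((3 * qq : ℕ) : ℝ) ≤ ((k * nu l + D : ℕ) : ℝ) * Δ D' := by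
    have h1 : ∀ D' ∈ 𝒜, ∀ᶠ k : ℕ in atTop,
        ((3 * qq : ℕ) : ℝ) ≤ ((k * nu l + D : ℕ) : ℝ) * Δ D' := by
      intro D' hD'
      have ht' : Tendsto (fun k : ℕ => (k : ℝ) * Δ D') atTop atTop :=
        tendsto_natCast_atTop_atTop.atTop_mul_const (h𝒜Δ D' hD')
      filter_upwards [ht'.eventually_ge_atTop ((3 * qq : ℕ) : ℝ)] with k hk
      refine hk.trans (mul_le_mul_of_nonneg_right ?_ (h𝒜Δ D' hD').le)
      have h2 : k ≤ k * nu l + D := by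
        have := Nat.le_mul_of_pos_right k hnu0
        omega
      exact_mod_cast h2
    obtain ⟨N₀, hN₀⟩ := Filter.eventually_atTop.1 ((eventually_ge_atTop
      (3 * qq + 2 * (n * n + 1))).and (h𝒜.eventually_all.2 h1))
    exact ⟨N₀, hN₀⟩
  obtain ⟨k, hkN, hs0, hind⟩ := hlim N₀
  obtain ⟨hk2, hkΔ⟩ := hN₀ k hkN
  set wt : ℕ := k * nu l + D with hwt
  have hT : ∀ j, IsTermD wt k D (tu e i₀ l m k (Ψ j)) := fun j =>
    isTermD_tu hd e i₀ l m k (hΨ j)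
  choose Θ hΘ using fun j => exists_form hC hf e₀ (hT j).toIsTerm (Φ j) π₀ G₀
  have hrelj : ∀ j, RelFormT 𝒯 f S e₀ wt 𝒜 (kap h𝒜.toFinset qq) (Θ j) := fun j =>
    hrel wt k D qq _ (Φ j) hqq (hT j) (hΦ j) hk2 hMD π₀ G₀ h₀ (Θ j) (hΘ j)
  obtain ⟨⟨P₁, hP₁⟩, hL₁, hy₁, hoff₁⟩ := hg₁.self_of_nhds
  set x₁ := q v₁ with hx₁
  have hfx₁ : f x₁ ∈ U a₀ := by rw [hy₁]; exact ha₀
  have hxS : f x₁ ∉ S := by rw [hy₁]; exact hyS
  obtain ⟨ζ, hζ, hinj⟩ := hC.coord x₁ hxS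
  -- the values along the slice
  set s : Fin (r + 1) → (Fin d → ℂ) → ℂ := fun j v =>
    ∑' M : spq Q, sud e i₀ l m k (Ψ j) (Φ j) π₀ G₀ h γ M v with hs
  have hgs : ∀ j v, gvd Q π₀ G₀ (tu e i₀ l m k (Ψ j)) (Φ j) π₀ b (1, γ v) v = s j v := by
    intro j v
    unfold gvd gtm
    refine tsum_congr fun M => ?_
    have h3 : (fun u => LN π₀ G₀ π₀ (mx M) (b u)) = fun u => Cc π₀ G₀ M (h u) := by
      funext u
      exact LN_eq M (b u)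
    rw [h3]
    rfl
  have hval : ∀ᶠ v in 𝓝 v₁, ∃ J : ℂ, J ≠ 0 ∧ ∀ j, Θ j (q v) = s j v * J := by
    filter_upwards [hg₁] with v hv
    obtain ⟨⟨P, hP⟩, hL, hyv, hoffv⟩ := hv
    obtain ⟨ζ', hζ', hinj'⟩ := hC.coord (q v) (by rw [hyv]; exact hyS)
    refine ⟨JP e₀ (dM E E' f (q v)) P ^ wt, ?_, fun j => ?_⟩
    · have h8 := JP_slice hf e₀ hP.2.1 hP.2.2.1 hζ' hinj' hP.2.2.2
      have h9 : JP e₀ (dM E E' f (q v)) (dV E ζ' (q v)) ≠ 0 := H713.JP_ne_zero e₀ hinj'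
      refine pow_ne_zero _ fun h0 => h9 ?_
      rw [h8, h0, mul_zero]
    · have h1 := hΘ j a₀ (q v) (by rw [hyv]; exact ha₀) hoffv β w hL q v P hP
      rw [h1, hyv, ← hgs j v]
  -- local expressions
  have hlocal : ∀ j, ∃ c : X → ℂ, HolV E c x₁ ∧ ∀ᶠ z in 𝓝 x₁,
      Θ j z = c z * JP e₀ (dM E E' f z) (dV E ζ z) ^ wt := by
    intro j
    obtain ⟨c, hc, hce⟩ := form_local hC hn hf e₀ (hT j).toIsTerm (hΦ j) (by omega) h₀ (hΘ j)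
      hfx₁ hL₁ hζ hinj (F := h𝒜.toFinset) (fun D' hD' => h𝒜.mem_toFinset.2 hD')
      (eD := fun _ _ => 1) (fun D' hD' => localEq_one (hcl D' (h𝒜.mem_toFinset.1 hD'))
        (hoff₁ D' (h𝒜.mem_toFinset.1 hD')))
    refine ⟨c, hc, ?_⟩
    have h1 : ∀ᶠ z in 𝓝 x₁, ∀ D' ∈ 𝒜, z ∉ D' :=
      (h𝒜.eventually_all).2 fun D' hD' => (hcl D' hD').isOpen_compl.mem_nhds (hoff₁ D' hD')
    filter_upwards [hce, h1] with z h2 h3
    have h4 := h2 h3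
    rw [Finset.prod_const_one, one_pow, one_pow, mul_one] at h4
    exact h4
  choose c hc hce using hlocal
  have hΘ0 : Θ 0 x₁ ≠ 0 := by
    obtain ⟨J₁, hJ₁, hΘ₁⟩ := hval.self_of_nhds
    show Θ 0 (q v₁) ≠ 0
    rw [hΘ₁ 0]
    exact mul_ne_zero hs0 hJ₁
  have hc0 : c 0 x₁ ≠ 0 := by
    intro h0
    apply hΘ0
    rw [(hce 0).self_of_nhds, h0, zero_mul]
  have hev : ∀ᶠ z in 𝓝 x₁, Θ 0 z ≠ 0 ∧ ∀ j, Θ j z / Θ 0 z = c j z / c 0 z := by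
    filter_upwards [(Filter.eventually_all).2 hce, (hc 0).continuousAt.eventually_ne hc0,
      ker_eventually hf e₀ hζ hinj] with z h1 h2 h3
    have h5 := pow_ne_zero wt (H713.JP_ne_zero e₀ h3)
    refine ⟨by rw [h1 0]; exact mul_ne_zero h2 h5, fun j => ?_⟩
    rw [h1 j, h1 0]
    exact mul_div_mul_right _ _ h5
  have hratio : ∀ j, HolV E (fun z => Θ j z / Θ 0 z) x₁ := fun j =>
    ((hc j).div (hc 0) hc0).congr (hev.mono fun z hz => hz.2 j)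
  have hD0 : 0 < wt := by
    have h4 : 0 < k * nu l := Nat.mul_pos (by omega) hnu0
    omega
  refine ⟨wt, 𝒜, kap h𝒜.toFinset qq, Θ 0, fun j => Θ j.succ, hD0,
    h𝒜, hprime, hrelj 0, fun j => hrelj j.succ, ?_, x₁, hy₁, hev.mono fun z hz => hz.1,
    fun j => hratio j.succ, ?_⟩
  · intro D'
    unfold kap
    by_cases hD' : D' ∈ h𝒜.toFinset
    · rw [if_pos hD']
      exact hkΔ D' (h𝒜.mem_toFinset.1 hD')
    · rw [if_neg hD', Nat.cast_zero]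
      exact mul_nonneg (Nat.cast_nonneg _) (hΔ D')
  · intro a ha
    have h1 := hind a fun ξ => ?_
    · exact fun j => congrFun h1 j
    · have hqv : ContMDiffAt 𝓘(ℂ, Fin d → ℂ) 𝓘(ℂ, E) ω q v₁ := hP₁.2.1
      have h2 := ha ((mfderiv 𝓘(ℂ, Fin d → ℂ) 𝓘(ℂ, E) q v₁ : (Fin d → ℂ) →L[ℂ] E) ξ)
        (slice_ker hf hqv hP₁.2.2.1 ξ)
      rw [← h2]
      refine Finset.sum_congr rfl fun j _ => ?_
      congr 1
      have h3 : (fun w => s j.succ w / s 0 w) =ᶠ[𝓝 v₁]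
          fun w => Θ j.succ (q w) / Θ 0 (q w) := by
        filter_upwards [hval] with w hw
        obtain ⟨J, hJ, hJe⟩ := hw
        rw [hJe, hJe, mul_div_mul_right _ _ hJ]
      have h4 := (slice_fderiv hqv (hratio j.succ)).2
      have h5 := h3.fderiv_eq (𝕜 := ℂ)
      rw [h4] at h5
      exact congrArg (fun L : (Fin d → ℂ) →L[ℂ] ℂ => L ξ) h5

end Forms

/-- **the forms of T-UD** -/
theorem hasUD : HasUDStmt := by
  intro d r n E E' _ _ _ _ _ _ X Y _ _ _ _ _ _ V _ _ _ 𝒯 f S Q ι U π 𝒜 L e₀ Δ hd hf hC h𝒜 hprime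
    hΔ0 hΔ y _ hrk
  exact hasForms_ud hC h𝒜 hd (fun x => hf x) e₀ hΔ0 hprime hΔ hrk

end Vale.Agent.P281.H511.UD
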