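import Vale.Agent.P281.H511.UD.Has
import Vale.Agent.P281.H364.UD.D8

/-!
# P281, project T-UD (helper511): helper364's `RankUD` gives the forms
-/

open scoped Manifold ContDiff Topology
open Set Filter Metric Module

namespace Vale.Agent.P281.H511.UD

open Vale.Agent.P281 Vale.Agent.P281.MF Vale.Agent.P281.ISO Vale.Agent.P281.ELL
open Vale.Agent.P281.H713 Vale.Agent.P281.H64.TU Vale.Agent.P281.H511.D
open Vale.Agent.P281.H364.UD (RkUD gf)

set_option linter.unusedSectionVars false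

section Rk

variable {d r : ℕ} {V : Type} [NormedAddCommGroup V] [InnerProductSpace ℂ V]
  [FiniteDimensional ℂ V]

/-- the minors for the index `g` -/
noncomputable def bm (m₀ : Fin d → (V →L[ℂ] ℂ)) (g : (Fin d → (V →L[ℂ] ℂ)) ⊕ (Cub V →L[ℂ] ℂ)) :
    Fin d → (V →L[ℂ] ℂ) := Sum.elim (fun m => m) (fun _ => m₀) g

/-- the affine functional for the index `g` -/
noncomputable def bl (g : (Fin d → (V →L[ℂ] ℂ)) ⊕ (Cub V →L[ℂ] ℂ)) : (ℂ × Cub V) →L[ℂ] ℂ :=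
  Sum.elim (fun _ => ContinuousLinearMap.fst ℂ ℂ (Cub V))
    (fun l => l.comp (ContinuousLinearMap.snd ℂ ℂ (Cub V))) g

theorem rankUDAt_of {h : (Fin d → ℂ) → V} {W : (Fin d → ℂ) → Cub V} {v₀ : Fin d → ℂ}
    (hh : ContDiffAt ℂ ω h v₀) (H : RkUD r h W v₀) : RankUDAt r h W v₀ := by
  obtain ⟨m₀, g, h0, hs⟩ := H
  refine ⟨Fin.cons m₀ fun k => bm m₀ (g k),
    Fin.cons (ContinuousLinearMap.fst ℂ ℂ (Cub V)) fun k => bl (g k), ?_, fun η => ?_⟩
  · show minor m₀ h v₀ * (1 : ℂ) ≠ 0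
    rw [mul_one]
    exact h0
  · obtain ⟨ξ, hξ⟩ := hs η
    refine ⟨ξ, ?_⟩
    rw [← hξ]
    funext k
    have h3 : (fun u => (minor (bm m₀ (g k)) h u * bl (g k) (1, W u)) /
        (minor m₀ h u * (1 : ℂ))) =ᶠ[𝓝 v₀] gf m₀ (g k) h W := by
      filter_upwards [(minor_contDiffAt m₀ hh).continuousAt.eventually_ne h0] with u hu
      unfold gf
      rcases g k with m | l
      · show (minor m h u * (1 : ℂ)) / (minor m₀ h u * 1) = minor m h u / minor m₀ h u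
        rw [mul_one, mul_one]
      · show (minor m₀ h u * l (W u)) / (minor m₀ h u * 1) = l (W u)
        rw [mul_one, mul_div_cancel_left₀ _ hu]
    show fderiv ℂ (fun u => (minor (bm m₀ (g k)) h u * bl (g k) (1, W u)) /
        (minor m₀ h u * (1 : ℂ))) v₀ ξ = fderiv ℂ (gf m₀ (g k) h W) v₀ ξ
    rw [h3.fderiv_eq]

end Rk

section Forms

variable {E E' : Type} [NormedAddCommGroup E] [NormedSpace ℂ E] [FiniteDimensional ℂ E]
  [NormedAddCommGroup E'] [NormedSpace ℂ E'] [FiniteDimensional ℂ E']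
variable {X Y : Type} [TopologicalSpace X] [ChartedSpace E X] [IsManifold 𝓘(ℂ, E) ω X]
  [TopologicalSpace Y] [ChartedSpace E' Y] [IsManifold 𝓘(ℂ, E') ω Y]
variable {V : Type} [NormedAddCommGroup V] [InnerProductSpace ℂ V] [FiniteDimensional ℂ V]
variable {n d r : ℕ} {Q : (Fin n → ℝ) → (Fin n → ℝ) → ℝ}
variable {f : X → Y} {S : Set Y} {ι : Type} {U : ι → Set Y}
  {π : ι → Y → ((Fin n → ℝ) ≃L[ℝ] V)} {𝒜 : Set (Set X)}
  {L : ι → X → (X → V) → (X → Cub V) → Prop} {𝒯 : Tame (Fin d → ℂ) X}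

/-- the points of the fibre are on the slice -/
theorem slice_nhds (hf : ∀ x, HolM E E' f x) (e₀ : E ≃L[ℂ] (E' × (Fin d → ℂ)))
    {q : (Fin d → ℂ) → X} {v₀ : Fin d → ℂ} {P : E →L[ℂ] (Fin d → ℂ)}
    (hq : SlG E f q v₀ (q v₀) P) {ζ : X → (Fin d → ℂ)} (hζ : HolV E ζ (q v₀))
    (hinj : ∀ ξ, dM E E' f (q v₀) ξ = 0 → dV E ζ (q v₀) ξ = 0 → ξ = 0)
    {O : Set (Fin d → ℂ)} (hO : O ∈ 𝓝 v₀) :
    ∀ᶠ z in 𝓝 (q v₀), f z = f (q v₀) → ∃ v ∈ O, q v = z := by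
  obtain ⟨-, hq1, hq2, hq3⟩ := hq
  set x := q v₀ with hx
  obtain ⟨R, hR1, hR2, -⟩ := exists_slices hf e₀ hζ hinj
  have hqt : Tendsto q (𝓝 v₀) (𝓝 x) := hq1.continuousAt
  obtain ⟨hhc, hhd⟩ := slice_fderiv hq1 hζ
  set h : (Fin d → ℂ) → (Fin d → ℂ) := fun t => ζ (q t) with hh
  -- the derivative is invertible
  have hinj' : Function.Injective (fderiv ℂ h v₀) := by
    rw [injective_iff_map_eq_zero]
    intro ξ hξ
    rw [hhd] at hξ
    have h1 := hinj _ (slice_ker hf hq1 hq2 ξ) hξ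
    have h2 : P ((mfderiv 𝓘(ℂ, Fin d → ℂ) 𝓘(ℂ, E) q v₀ : (Fin d → ℂ) →L[ℂ] E) ξ) = ξ :=
      congrArg (fun T : (Fin d → ℂ) →L[ℂ] (Fin d → ℂ) => T ξ) hq3
    rw [← h2, h1, map_zero]
  have hsurj : (fderiv ℂ h v₀).range = ⊤ := by
    have h1 : Function.Surjective (fderiv ℂ h v₀ : (Fin d → ℂ) →ₗ[ℂ] (Fin d → ℂ)) :=
      LinearMap.injective_iff_surjective.1 hinj'
    exact LinearMap.range_eq_top.2 h1
  have hstr : HasStrictFDerivAt h (fderiv ℂ h v₀) v₀ :=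
    hhc.hasStrictFDerivAt (by simp)
  have hmap : map h (𝓝 v₀) = 𝓝 (h v₀) := hstr.map_nhds_eq_of_surj hsurj
  -- on the slice `R`
  have hev : ∀ᶠ v in 𝓝 v₀, R (chartAt E' (f x) (f x), h v) = q v := by
    filter_upwards [hqt.eventually hR2, hq2] with v h1 h2
    rw [h2] at h1
    exact h1
  have himg : h '' (O ∩ {v | R (chartAt E' (f x) (f x), h v) = q v}) ∈ 𝓝 (ζ x) := by
    have h1 : h '' (O ∩ {v | R (chartAt E' (f x) (f x), h v) = q v}) ∈ map h (𝓝 v₀) :=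
      image_mem_map (inter_mem hO hev)
    rw [hmap] at h1
    exact h1
  filter_upwards [hR2, hζ.continuousAt.eventually himg] with z h1 h2 hz
  obtain ⟨v, ⟨hv1, hv2⟩, hv3⟩ := h2
  refine ⟨v, hv1, ?_⟩
  have h3 : R (chartAt E' (f x) (f x), h v) = q v := hv2
  rw [hz] at h1
  rw [← h3, hv3, h1]

end Forms

end Vale.Agent.P281.H511.UD
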