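import Vale.Agent.P281.H511.UD.Val

/-!
# P281, project T-UD (helper511): the limit of the series
-/

open scoped Topology ContDiff
open Set Filter Module Metric

namespace Vale.Agent.P281.H511.UD

open Vale.Agent.P281 Vale.Agent.P281.H713 Vale.Agent.P281.H511.D
open Vale.Agent.P281.H349.U (IsTerm Fm tu nu isTerm_tu KU KU_map KU_bound fcomp norm_fcomp_le
  hp_comp trm_bound jets jets_mul jets_near pow_sum_large quot_le tube KU_cd' tu_cd KU_ne KU_cd)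

set_option linter.unusedSectionVars false

section Abs

variable {d r : ℕ}

/-- the abstract limit -/
theorem abs_limit {κ' : Type*} {s₁ : Finset κ'} {i₁ : κ'} (hi₁ : i₁ ∈ s₁)
    {v₁ : Fin d → ℂ} {ρ : ℝ} (hρ : 0 < ρ) {c : ℝ} (hc1 : 1 < c)
    {z : κ' → (Fin d → ℂ) → ℂ} (hz1 : ∀ M ∈ s₁, ‖z M v₁‖ ≤ 1) (hz11 : z i₁ v₁ = 1)
    (hzc : ∀ M ∈ s₁, ∀ v ∈ ball v₁ ρ, ‖z M v‖ ≤ c)
    (hzd : ∀ M, ∀ v ∈ ball v₁ ρ, ContDiffAt ℂ ω (z M) v)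
    {a : Fin (r + 1) → (Fin d → ℂ) → ℂ} (hac : ∀ j, ∀ v ∈ ball v₁ ρ, ContDiffAt ℂ ω (a j) v)
    (ha : LinearIndependent ℂ (jets a v₁)) (ha0 : a 0 v₁ ≠ 0)
    {κ : (Fin d → ℂ) → ℂ} (hκc : ∀ v ∈ ball v₁ ρ, ContDiffAt ℂ ω κ v)
    (hκ0 : ∀ v ∈ ball v₁ ρ, κ v ≠ 0) {K₃ : ℝ} (hK₃0 : 0 ≤ K₃) {err : ℕ → ℝ}
    (herr0 : ∀ j, 0 ≤ err j) (herr : Tendsto err atTop (𝓝 0)) {p : ℕ}
    {s Er : ℕ → Fin (r + 1) → (Fin d → ℂ) → ℂ}
    (hs : ∀ᶠ j in atTop, (∀ i, ∀ v ∈ ball v₁ ρ, ContDiffAt ℂ ω (s j i) v) ∧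
      (∀ i, ∀ v ∈ ball v₁ ρ, ContDiffAt ℂ ω (Er j i) v) ∧
      (∀ i, HasFDerivAt (Er j i) (0 : (Fin d → ℂ) →L[ℂ] ℂ) v₁ ∧ Er j i v₁ = 0) ∧
      ∀ i, ∀ v ∈ ball v₁ ρ, ‖s j i v / κ v ^ (p * j) -
        ((∑ M ∈ s₁, z M v ^ (p * j)) * a i v + Er j i v)‖ ≤ K₃ * err j * (c ^ (p * j))⁻¹)
    (N₀ : ℕ) : ∃ j ≥ N₀, s j 0 v₁ ≠ 0 ∧ ∀ cc : Fin r → ℂ,
      (∀ ξ, ∑ i, cc i * fderiv ℂ (fun w => s j i.succ w / s j 0 w) v₁ ξ = 0) → cc = 0 := by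
  classical
  have hn' : (ω : WithTop ℕ∞) ≠ 0 := by simp
  have hc0 : 0 < c := by linarith
  set n₁ : ℝ := (s₁.card : ℝ) with hn₁
  have hn₁0 : 0 ≤ n₁ := Nat.cast_nonneg _
  obtain ⟨ε₁, hε₁, hind⟩ := jets_near ha
  have hx0 : 0 < ‖a 0 v₁‖ := norm_pos_iff.2 ha0
  set ε : ℝ := min ε₁ ‖a 0 v₁‖ with hε
  have hε0 : 0 < ε := lt_min hε₁ hx0
  have hv₁ : v₁ ∈ ball v₁ ρ := mem_ball_self hρ
  -- the exponent
  obtain ⟨j, hjN, hj1, hj2, hj3⟩ : ∃ j : ℕ, N₀ ≤ j ∧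
      ((∀ i, ∀ v ∈ ball v₁ ρ, ContDiffAt ℂ ω (s j i) v) ∧
      (∀ i, ∀ v ∈ ball v₁ ρ, ContDiffAt ℂ ω (Er j i) v) ∧
      (∀ i, HasFDerivAt (Er j i) (0 : (Fin d → ℂ) →L[ℂ] ℂ) v₁ ∧ Er j i v₁ = 0) ∧
      ∀ i, ∀ v ∈ ball v₁ ρ, ‖s j i v / κ v ^ (p * j) -
        ((∑ M ∈ s₁, z M v ^ (p * j)) * a i v + Er j i v)‖ ≤ K₃ * err j * (c ^ (p * j))⁻¹) ∧
      K₃ * err j * (2 + (2 + 4 * n₁) * ρ⁻¹) < ε ∧
      1 / 2 ≤ ‖∑ M ∈ s₁, (z M v₁ ^ p) ^ j‖ := by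
    have h2 := (herr.const_mul K₃).mul_const (2 + (2 + 4 * n₁) * ρ⁻¹)
    rw [mul_zero, zero_mul] at h2
    obtain ⟨N, hN⟩ := Filter.eventually_atTop.1 (hs.and (h2.eventually (gt_mem_nhds hε0)))
    obtain ⟨j, h3, h4⟩ := pow_sum_large s₁ (fun M => z M v₁ ^ p)
      (fun M hM => by
        rw [norm_pow]
        exact pow_le_one₀ (norm_nonneg _) (hz1 M hM)) hi₁ (by
        show z i₁ v₁ ^ p = 1
        rw [hz11, one_pow]) (max N N₀)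
    exact ⟨j, (le_max_right _ _).trans h3, (hN j ((le_max_left _ _).trans h3)).1,
      (hN j ((le_max_left _ _).trans h3)).2, h4⟩
  obtain ⟨hsc, hErc, hE0, hRb'⟩ := hj1
  set k := p * j with hk
  set η : ℝ := K₃ * err j with hη
  have hη0 : 0 ≤ η := mul_nonneg hK₃0 (herr0 j)
  have hck : 1 ≤ c ^ k := one_le_pow₀ hc1.le
  have hck0 : 0 < c ^ k := by linarith
  set η' : ℝ := η * (c ^ k)⁻¹ with hη'
  have hη'0 : 0 ≤ η' := by positivity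
  have hη'η : η' ≤ η := mul_le_of_le_one_right hη0 (inv_le_one_of_one_le₀ hck)
  set S : (Fin d → ℂ) → ℂ := fun v => ∑ M ∈ s₁, z M v ^ k with hS
  have hS12 : 1 / 2 ≤ ‖S v₁‖ := by
    have h1 : S v₁ = ∑ M ∈ s₁, (z M v₁ ^ p) ^ j := by
      rw [hS]
      refine Finset.sum_congr rfl fun M _ => ?_
      rw [← pow_mul, hk]
    rw [h1]
    exact hj3
  have hS0 : S v₁ ≠ 0 := by
    intro h1
    rw [h1, norm_zero] at hS12
    norm_num at hS12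
  set Rr : Fin (r + 1) → (Fin d → ℂ) → ℂ := fun i v =>
    s j i v / κ v ^ k - (S v * a i v + Er j i v) with hRr
  have hκk : ∀ v ∈ ball v₁ ρ, ContDiffAt ℂ ω (fun v => (κ v ^ k)⁻¹) v := fun v hv =>
    ((hκc v hv).pow k).inv (pow_ne_zero _ (hκ0 v hv))
  have hSc : ∀ v ∈ ball v₁ ρ, ContDiffAt ℂ ω S v := fun v hv =>
    ContDiffAt.sum fun M _ => (hzd M v hv).pow k
  have hRrc : ∀ i, ∀ v ∈ ball v₁ ρ, ContDiffAt ℂ ω (Rr i) v := by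
    intro i v hv
    have h1 := (hsc i v hv).mul (hκk v hv)
    have h3 := h1.sub (((hSc v hv).mul (hac i v hv)).add (hErc i v hv))
    simpa only [hRr, div_eq_mul_inv] using h3
  have hRb : ∀ i, ∀ v ∈ ball v₁ ρ, ‖Rr i v‖ ≤ η' := fun i v hv => hRb' i v hv
  have hRd : ∀ i, ‖fderiv ℂ (Rr i) v₁‖ ≤ η' / ρ := fun i =>
    MF.norm_fderiv_le_of_ball hρ (fun v hv =>
      ((hRrc i v hv).differentiableAt hn').differentiableWithinAt) (hRb i)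
  have hSd : ‖fderiv ℂ S v₁‖ ≤ n₁ * c ^ k / ρ := by
    refine MF.norm_fderiv_le_of_ball hρ (fun v hv =>
      ((hSc v hv).differentiableAt hn').differentiableWithinAt) fun v hv => ?_
    calc ‖S v‖ ≤ ∑ _M ∈ s₁, c ^ k := by
          refine norm_sum_le_of_le _ fun M hM => ?_
          rw [norm_pow]
          exact pow_le_pow_left₀ (norm_nonneg _) (hzc M hM v hv) k
      _ = n₁ * c ^ k := by rw [Finset.sum_const, nsmul_eq_mul]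
  -- the normalized series
  have hSi : HasFDerivAt (fun v => (S v)⁻¹) (-(S v₁ ^ 2)⁻¹ • fderiv ℂ S v₁) v₁ := by
    have h1 := ((hSc v₁ hv₁).differentiableAt hn').hasFDerivAt
    have h2 := (hasDerivAt_inv hS0).comp_hasFDerivAt v₁ h1
    exact h2
  have hSi1 : ‖(S v₁)⁻¹‖ ≤ 2 := by
    rw [norm_inv]
    calc (‖S v₁‖)⁻¹ ≤ (1 / 2)⁻¹ := inv_anti₀ (by norm_num) hS12
      _ = 2 := by norm_num
  have hSi2 : ‖-(S v₁ ^ 2)⁻¹ • fderiv ℂ S v₁‖ ≤ 4 * (n₁ * c ^ k / ρ) := by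
    rw [norm_smul, norm_neg, norm_inv, norm_pow, ← inv_pow, ← norm_inv]
    refine mul_le_mul ?_ hSd (norm_nonneg _) (by norm_num)
    calc ‖(S v₁)⁻¹‖ ^ 2 ≤ 2 ^ 2 := pow_le_pow_left₀ (norm_nonneg _) hSi1 2
      _ = 4 := by norm_num
  set u : Fin (r + 1) → (Fin d → ℂ) → ℂ := fun i v =>
    a i v + Er j i v * (S v)⁻¹ + Rr i v * (S v)⁻¹ with hu
  set T : Fin (r + 1) → ((Fin d → ℂ) →L[ℂ] ℂ) := fun i =>
    Rr i v₁ • (-(S v₁ ^ 2)⁻¹ • fderiv ℂ S v₁) + (S v₁)⁻¹ • fderiv ℂ (Rr i) v₁ with hT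
  have hufd : ∀ i, HasFDerivAt (u i) (fderiv ℂ (a i) v₁ + T i) v₁ := by
    intro i
    have h1 := ((hac i v₁ hv₁).differentiableAt hn').hasFDerivAt
    have h2 := (hE0 i).1.mul hSi
    have h3 := ((hRrc i v₁ hv₁).differentiableAt hn').hasFDerivAt.mul hSi
    have h4 := (h1.add h2).add h3
    refine h4.congr_fderiv (ContinuousLinearMap.ext fun ξ => ?_)
    show fderiv ℂ (a i) v₁ ξ + (Er j i v₁ * ((-(S v₁ ^ 2)⁻¹ • fderiv ℂ S v₁) ξ) +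
        (S v₁)⁻¹ * 0) + (Rr i v₁ * ((-(S v₁ ^ 2)⁻¹ • fderiv ℂ S v₁) ξ) +
        (S v₁)⁻¹ * fderiv ℂ (Rr i) v₁ ξ) = fderiv ℂ (a i) v₁ ξ +
      (Rr i v₁ * ((-(S v₁ ^ 2)⁻¹ • fderiv ℂ S v₁) ξ) + (S v₁)⁻¹ * fderiv ℂ (Rr i) v₁ ξ)
    rw [(hE0 i).2]
    ring
  have hu0 : ∀ i, u i v₁ = a i v₁ + Rr i v₁ * (S v₁)⁻¹ := by
    intro i
    show a i v₁ + Er j i v₁ * (S v₁)⁻¹ + Rr i v₁ * (S v₁)⁻¹ = _
    rw [(hE0 i).2, zero_mul, add_zero]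
  have hRv : ∀ i, ‖Rr i v₁ * (S v₁)⁻¹‖ ≤ 2 * η := by
    intro i
    rw [norm_mul, mul_comm]
    exact mul_le_mul hSi1 ((hRb i v₁ hv₁).trans hη'η) (norm_nonneg _) (by norm_num)
  have hTb : ∀ i, ‖T i‖ ≤ (2 + 4 * n₁) * ρ⁻¹ * η := by
    intro i
    refine (norm_add_le _ _).trans ?_
    have h1 : ‖Rr i v₁ • (-(S v₁ ^ 2)⁻¹ • fderiv ℂ S v₁)‖ ≤ 4 * n₁ * ρ⁻¹ * η := by
      rw [norm_smul]
      calc ‖Rr i v₁‖ * ‖-(S v₁ ^ 2)⁻¹ • fderiv ℂ S v₁‖ ≤ η' * (4 * (n₁ * c ^ k / ρ)) :=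
            mul_le_mul (hRb i v₁ hv₁) hSi2 (norm_nonneg _) hη'0
        _ = 4 * n₁ * ρ⁻¹ * η * ((c ^ k)⁻¹ * c ^ k) := by
            rw [hη', div_eq_mul_inv]
            ring
        _ = 4 * n₁ * ρ⁻¹ * η := by rw [inv_mul_cancel₀ hck0.ne', mul_one]
    have h2 : ‖(S v₁)⁻¹ • fderiv ℂ (Rr i) v₁‖ ≤ 2 * ρ⁻¹ * η := by
      rw [norm_smul]
      have h3 : η' / ρ ≤ ρ⁻¹ * η := by
        rw [div_eq_mul_inv, mul_comm]
        exact mul_le_mul_of_nonneg_left hη'η (by positivity)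
      calc ‖(S v₁)⁻¹‖ * ‖fderiv ℂ (Rr i) v₁‖ ≤ 2 * (ρ⁻¹ * η) :=
            mul_le_mul hSi1 ((hRd i).trans h3) (norm_nonneg _) (by norm_num)
        _ = 2 * ρ⁻¹ * η := by ring
    calc _ ≤ 4 * n₁ * ρ⁻¹ * η + 2 * ρ⁻¹ * η := add_le_add h1 h2
      _ = (2 + 4 * n₁) * ρ⁻¹ * η := by ring
  have hηρ : 2 * η < ε ∧ (2 + 4 * n₁) * ρ⁻¹ * η < ε := by
    have h1 : 0 ≤ (2 + 4 * n₁) * ρ⁻¹ * η := by positivity
    have h2 : η * (2 + (2 + 4 * n₁) * ρ⁻¹) =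
        2 * η + (2 + 4 * n₁) * ρ⁻¹ * η := by
      ring
    rw [h2] at hj2
    constructor <;> linarith
  have hud : ∀ i, DifferentiableAt ℂ (u i) v₁ := fun i => (hufd i).differentiableAt
  have hXi : LinearIndependent ℂ fun i =>
      ((u i v₁, fderiv ℂ (u i) v₁) : ℂ × ((Fin d → ℂ) →L[ℂ] ℂ)) := by
    refine hind _ fun i => ?_
    have h1 : ((u i v₁, fderiv ℂ (u i) v₁) : ℂ × ((Fin d → ℂ) →L[ℂ] ℂ)) - jets a v₁ i =
        (Rr i v₁ * (S v₁)⁻¹, T i) := by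
      refine Prod.ext ?_ ?_
      · show u i v₁ - a i v₁ = Rr i v₁ * (S v₁)⁻¹
        rw [hu0]
        ring
      · show fderiv ℂ (u i) v₁ - fderiv ℂ (a i) v₁ = T i
        rw [(hufd i).fderiv, add_sub_cancel_left]
    rw [h1]
    refine max_lt ?_ ?_
    · exact ((hRv i).trans_lt hηρ.1).trans_le (min_le_left _ _)
    · exact ((hTb i).trans_lt hηρ.2).trans_le (min_le_left _ _)
  have hu00 : u 0 v₁ ≠ 0 := by
    intro h0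
    have h1 := hu0 0
    rw [h0] at h1
    have h2 : ‖a 0 v₁‖ = ‖Rr 0 v₁ * (S v₁)⁻¹‖ := by
      rw [eq_neg_of_add_eq_zero_left h1.symm, norm_neg]
    have h3 := (hRv 0).trans_lt hηρ.1
    have h4 := min_le_right ε₁ ‖a 0 v₁‖
    rw [← hε] at h4
    linarith
  have hsu : ∀ᶠ v in 𝓝 v₁, ∀ i, s j i v = κ v ^ k * S v * u i v := by
    filter_upwards [ball_mem_nhds v₁ hρ, (hSc v₁ hv₁).continuousAt.eventually_ne hS0]
      with v hv hSv i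
    have h1 : κ v ^ k ≠ 0 := pow_ne_zero _ (hκ0 v hv)
    have h2 : S v * u i v = s j i v / κ v ^ k := by
      show S v * (a i v + Er j i v * (S v)⁻¹ +
        (s j i v / κ v ^ k - (S v * a i v + Er j i v)) * (S v)⁻¹) = _
      field_simp
      ring
    rw [mul_assoc, h2, mul_div_cancel₀ _ h1]
  have hκ1 : κ v₁ ^ k ≠ 0 := pow_ne_zero _ (hκ0 v₁ hv₁)
  have hs0 : s j 0 v₁ ≠ 0 := by
    rw [hsu.self_of_nhds 0]
    exact mul_ne_zero (mul_ne_zero hκ1 hS0) hu00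
  refine ⟨j, hjN, hs0, fun cc hcc => ratio_indep hud hu00 hXi cc fun ξ => ?_⟩
  rw [← hcc ξ]
  refine Finset.sum_congr rfl fun i _ => ?_
  congr 1
  have h1 : (fun w => u i.succ w / u 0 w) =ᶠ[𝓝 v₁] fun w => s j i.succ w / s j 0 w := by
    filter_upwards [hsu, ball_mem_nhds v₁ hρ, (hSc v₁ hv₁).continuousAt.eventually_ne hS0]
      with w hw hw' hw''
    rw [hw, hw, mul_div_mul_left _ _ (mul_ne_zero (pow_ne_zero _ (hκ0 w hw')) hw'')]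
  rw [h1.fderiv_eq]

end Abs

section Limit

variable {d g n r : ℕ} {V : Type} [NormedAddCommGroup V] [InnerProductSpace ℂ V]
  [FiniteDimensional ℂ V] {Q : (Fin n → ℝ) → (Fin n → ℝ) → ℝ}
  {π₀ : (Fin n → ℝ) ≃L[ℝ] V} {G₀ : V ≃L[ℂ] V}
  {e : Basis (Fin g) ℂ V} {i₀ : Fin g → Fin d} {l : Fin g → List (Fin d)}
  {m : Fm d V} {k D q : ℕ} {Ψ : ((Fin d → ℂ) → V) → (Fin d → ℂ) → ℂ}

/-- the terms at the base point -/
noncomputable def sud (e : Basis (Fin g) ℂ V) (i₀ : Fin g → Fin d) (l : Fin g → List (Fin d))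
    (m : Fm d V) (k : ℕ) (Ψ : ((Fin d → ℂ) → V) → (Fin d → ℂ) → ℂ) (φ : ℂ × Cub V → ℂ)
    (π₀ : (Fin n → ℝ) ≃L[ℝ] V) (G₀ : V ≃L[ℂ] V) (h : (Fin d → ℂ) → V)
    (γ : (Fin d → ℂ) → Cub V) (M : spq Q) (v : Fin d → ℂ) : ℂ :=
  tu e i₀ l m k Ψ (fun u => Cc π₀ G₀ M (h u)) v * φ (1, pull (γ v) (LL π₀ π₀ (mx M)))

/-- bound of the terms which do not come from units -/
theorem tu_le (h₀ : IsPol Q π₀ G₀) {h : (Fin d → ℂ) → V} {v : Fin d → ℂ}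
    (hh : ContDiffAt ℂ ω h v) {R₀ c : ℝ} (hm : ‖m‖ ≤ R₀)
    (htube : ∀ m' : Fm d V, ‖m'‖ ≤ R₀ → ‖KU e i₀ l m' h v‖ ≤ c * ‖KU e i₀ l m h v‖)
    {R K : ℝ} (hR : ∀ m : Fin d → (V →L[ℂ] ℂ), (∀ a, ‖m a‖ ≤ 1) → ‖minor m h v‖ ≤ R)
    (hK : ∀ (h : (Fin d → ℂ) → V) (v : Fin d → ℂ),
      (∀ m : Fin d → (V →L[ℂ] ℂ), (∀ a, ‖m a‖ ≤ 1) → ‖minor m h v‖ ≤ R) → ‖Ψ h v‖ ≤ K)
    {k' j : ℕ} (hc : 0 < c) {M : spq Q}
    (hnu : (c * c * ‖(LL π₀ π₀ (mx M)).det‖⁻¹) ^ (2 * k' * j) ≤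
        ‖(LL π₀ π₀ (mx M)).det‖⁻¹ ^ (k' * j)) :
    ‖tu e i₀ l m (2 * k' * j) Ψ (fun u => Cc π₀ G₀ M (h u)) v‖ ≤
      K * ‖KU e i₀ l m h v‖ ^ (2 * k' * j) * (c ^ (2 * k' * j))⁻¹ *
        ‖(LL π₀ π₀ (mx M)).det‖⁻¹ ^ (k' * j) := by
  have hd : DifferentiableAt ℂ h v := hh.differentiableAt (by simp)
  have hK0 : 0 ≤ K := (norm_nonneg _).trans (hK h v hR)
  unfold tu
  rw [norm_mul, norm_pow, KU_map m hh, norm_mul, Cc_det h₀]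
  have h1 := htube (fcomp m (Cc π₀ G₀ M)) ((norm_fcomp_le (Cc_norm h₀ M)).trans hm)
  have h2 := hK (fun u => Cc π₀ G₀ M (h u)) v fun m hm => minor_contr hd hR (Cc_norm h₀ M) m hm
  set δ := ‖(LL π₀ π₀ (mx M)).det‖⁻¹ with hδ
  have hδ0 : 0 ≤ δ := by positivity
  have hck : 0 < c ^ (2 * k' * j) := by positivity
  have h3 : (c * δ) ^ (2 * k' * j) ≤ (c ^ (2 * k' * j))⁻¹ * δ ^ (k' * j) := by
    have h4 := hnu
    rw [mul_assoc c c δ, mul_pow c] at h4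
    rw [inv_mul_eq_div, le_div_iff₀ hck, mul_comm]
    exact h4
  calc (δ * ‖KU e i₀ l (fcomp m (Cc π₀ G₀ M)) h v‖) ^ (2 * k' * j) *
        ‖Ψ (fun u => Cc π₀ G₀ M (h u)) v‖
      ≤ (δ * (c * ‖KU e i₀ l m h v‖)) ^ (2 * k' * j) * K := by gcongr
    _ = K * ‖KU e i₀ l m h v‖ ^ (2 * k' * j) * (c * δ) ^ (2 * k' * j) := by
        rw [mul_pow, mul_pow, mul_pow]
        ring
    _ ≤ K * ‖KU e i₀ l m h v‖ ^ (2 * k' * j) * ((c ^ (2 * k' * j))⁻¹ * δ ^ (k' * j)) := by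
        gcongr
    _ = K * ‖KU e i₀ l m h v‖ ^ (2 * k' * j) * (c ^ (2 * k' * j))⁻¹ * δ ^ (k' * j) := by ring

/-- the tail of the series -/
theorem tail_ud (hn : 0 < n) (h₀ : IsPol Q π₀ G₀) {h : (Fin d → ℂ) → V} {v : Fin d → ℂ}
    {γ : (Fin d → ℂ) → Cub V} {φ : ℂ × Cub V → ℂ}
    (hh : ContDiffAt ℂ ω h v) {R₀ c : ℝ} (hm : ‖m‖ ≤ R₀)
    (htube : ∀ m' : Fm d V, ‖m'‖ ≤ R₀ → ‖KU e i₀ l m' h v‖ ≤ c * ‖KU e i₀ l m h v‖)
    {R K : ℝ} (hR : ∀ m : Fin d → (V →L[ℂ] ℂ), (∀ a, ‖m a‖ ≤ 1) → ‖minor m h v‖ ≤ R)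
    (hK : ∀ (h : (Fin d → ℂ) → V) (v : Fin d → ℂ),
      (∀ m : Fin d → (V →L[ℂ] ℂ), (∀ a, ‖m a‖ ≤ 1) → ‖minor m h v‖ ≤ R) → ‖Ψ h v‖ ≤ K)
    {Kφ : ℝ} (hKφ : 0 ≤ Kφ) (hφ : ∀ x, ‖φ x‖ ≤ Kφ * ‖x‖ ^ q)
    {k' j : ℕ} (hc : 0 < c) (hnu : ∀ M : spq Q, M ∉ unitF hn h₀ → ∀ j : ℕ,
      (c * c * ‖(LL π₀ π₀ (mx M)).det‖⁻¹) ^ (2 * k' * j) ≤
        ‖(LL π₀ π₀ (mx M)).det‖⁻¹ ^ (k' * j)) (hj : 3 * q + 2 * (n * n + 1) ≤ k' * j) :
    ‖∑' M : spq Q, sud e i₀ l m (2 * k' * j) Ψ φ π₀ G₀ h γ M v -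
      ∑ M ∈ unitF hn h₀, sud e i₀ l m (2 * k' * j) Ψ φ π₀ G₀ h γ M v‖ ≤
      K * ‖KU e i₀ l m h v‖ ^ (2 * k' * j) * (c ^ (2 * k' * j))⁻¹ *
        (Kφ * (1 + 8 * ‖(G₀ : V →L[ℂ] V)‖ ^ 3 * ‖pull (γ v) (G₀.symm : V →L[ℂ] V)‖) ^ q) *
        errT hn h₀ (k' * j - 3 * q) := by
  have hK0 : 0 ≤ K := (norm_nonneg _).trans (hK h v hR)
  refine tsum_sub_le hn h₀ (F := fun M : spq Q => sud e i₀ l m (2 * k' * j) Ψ φ π₀ G₀ h γ M v)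
    (by omega) fun M hM => ?_
  have h1 := tu_le (Ψ := Ψ) h₀ hh hm htube hR hK (j := j) hc (hnu M hM j)
  have h2 := phi_le (q := q) h₀ h₀ hKφ hφ M ((1, γ v) : ℂ × Cub V)
  rw [dl_self] at h2
  have h3 : ‖((1, γ v) : ℂ × Cub V).1‖ = 1 := norm_one
  rw [h3] at h2
  have hδ1 := one_le_det h₀ M
  have hδ0 : 0 < ‖(LL π₀ π₀ (mx M)).det‖ := by linarith
  show ‖sud e i₀ l m (2 * k' * j) Ψ φ π₀ G₀ h γ M v‖ ≤ _
  unfold sud
  rw [norm_mul]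
  set A := K * ‖KU e i₀ l m h v‖ ^ (2 * k' * j) * (c ^ (2 * k' * j))⁻¹ with hA
  have hA0 : 0 ≤ A := by positivity
  set A' := (1 + 8 * ‖(G₀ : V →L[ℂ] V)‖ ^ 3 * ‖pull (γ v) (G₀.symm : V →L[ℂ] V)‖) ^ q
  calc _ ≤ (A * ‖(LL π₀ π₀ (mx M)).det‖⁻¹ ^ (k' * j)) *
        (Kφ * A' * ‖(LL π₀ π₀ (mx M)).det‖ ^ (3 * q)) := by gcongr
    _ = A * (Kφ * A') * (‖(LL π₀ π₀ (mx M)).det‖⁻¹ ^ (k' * j) *
        ‖(LL π₀ π₀ (mx M)).det‖ ^ (3 * q)) := by ring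
    _ = _ := by rw [inv_pow_mul hδ0 (by omega)]

/-- the series is holomorphic at the base point -/
theorem sud_cd (hn : 0 < n) {φ : ℂ × Cub V → ℂ} (hk : 3 * q + (n * n + 1) ≤ k) (hΨ : IsHP D Ψ)
    (hφ : IsHom q φ) (h₀ : IsPol Q π₀ G₀) {h : (Fin d → ℂ) → V} {γ : (Fin d → ℂ) → Cub V}
    {v : Fin d → ℂ} (hh : ContDiffAt ℂ ω h v) (hγ : ContDiffAt ℂ ω γ v) :
    ContDiffAt ℂ ω (fun v => ∑' M : spq Q, sud e i₀ l m k Ψ φ π₀ G₀ h γ M v) v := by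
  have hb : ContDiffAt ℂ ω (fun x : ℂ × (Fin d → ℂ) => (G₀.symm : V →L[ℂ] V) (h x.2))
      ((0 : ℂ), v) :=
    ContDiffAt.comp (f := Prod.snd) (g := fun u => (G₀.symm : V →L[ℂ] V) (h u)) ((0 : ℂ), v)
      (cd_map hh _) contDiffAt_snd
  have hZ : ContDiffAt ℂ ω (fun x : ℂ × (Fin d → ℂ) => (((1 : ℂ), γ x.2) : ℂ × Cub V))
      ((0 : ℂ), v) :=
    contDiffAt_const.prodMk (ContDiffAt.comp (f := Prod.snd) (g := γ) ((0 : ℂ), v) hγ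
      contDiffAt_snd)
  have h1 := gvd_analytic (T := tu e i₀ l m k Ψ) (Q := Q) (E := ℂ) hn hk
    (isTerm_tu e i₀ l m k hΨ) hφ h₀
    (U := univ) isOpen_univ (P := fun _ => π₀) (fun x => differentiableOn_const _)
    (fun z _ => ⟨G₀, h₀⟩) (B := fun x => (G₀.symm : V →L[ℂ] V) (h x.2))
    (Z := fun x => (1, γ x.2)) (x₀ := ((0 : ℂ), v)) (mem_univ _) hb hZ
  have h2 : (fun v => ∑' M : spq Q, sud e i₀ l m k Ψ φ π₀ G₀ h γ M v) =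
      fun v => gvd Q π₀ G₀ (tu e i₀ l m k Ψ) φ π₀ (fun u => (G₀.symm : V →L[ℂ] V) (h u))
        (1, γ v) v := by
    funext v
    unfold gvd gtm sud
    rfl
  rw [h2]
  exact slice_cd h1.contDiffAt

/-- **the limit** -/
theorem ud_limit (hn : 0 < n) (h₀ : IsPol Q π₀ G₀) {h : (Fin d → ℂ) → V}
    {γ : (Fin d → ℂ) → Cub V} {v₁ : Fin d → ℂ}
    (hh : ContDiffAt ℂ ω h v₁) (hγ : ContDiffAt ℂ ω γ v₁) {t : Fin (r + 1) → Fm d V}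
    {Λ : Fin (r + 1) → ((ℂ × Cub V) →L[ℂ] ℂ)}
    (ht : LinearIndependent ℂ (jets (fun j v => minor (t j) h v * Λ j (1, γ v)) v₁))
    (ht0 : minor (t 0) h v₁ * Λ 0 (1, γ v₁) ≠ 0)
    (hgen : ∀ M ∈ unitF hn h₀, (∀ᶠ w in 𝓝 v₁, ∀ i, qrel (Cc π₀ G₀ M) h i w = 0) ∨
        ∃ i, qrel (Cc π₀ G₀ M) h i v₁ ≠ 0)
    (hgenw : ∀ M ∈ unitF hn h₀, (∀ᶠ w in 𝓝 v₁, pull (γ w) (LL π₀ π₀ (mx M)) = γ w) ∨
        pull (γ v₁) (LL π₀ π₀ (mx M)) ≠ γ v₁) {R₀ : ℝ} (hm : ‖m‖ ≤ R₀)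
    (hm0 : KU e i₀ l m h v₁ ≠ 0)
    (hmax : ∀ m' : Fm d V, ‖m'‖ ≤ R₀ → ‖KU e i₀ l m' h v₁‖ ≤ ‖KU e i₀ l m h v₁‖) (M₀ : ℕ) :
    ∃ (q D : ℕ) (Ψ : Fin (r + 1) → ((Fin d → ℂ) → V) → (Fin d → ℂ) → ℂ)
      (φ : Fin (r + 1) → ℂ × Cub V → ℂ), 0 < q ∧ M₀ * q ≤ D ∧
      (∀ j, IsHP D (Ψ j)) ∧ (∀ j, IsHom q (φ j)) ∧ ∀ N₀ : ℕ, ∃ k : ℕ, N₀ ≤ k ∧
      ∑' M : spq Q, sud e i₀ l m k (Ψ 0) (φ 0) π₀ G₀ h γ M v₁ ≠ 0 ∧
      ∀ c : Fin r → ℂ, (∀ ξ, ∑ j, c j * fderiv ℂ (fun w =>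
        (∑' M : spq Q, sud e i₀ l m k (Ψ j.succ) (φ j.succ) π₀ G₀ h γ M w) /
          ∑' M : spq Q, sud e i₀ l m k (Ψ 0) (φ 0) π₀ G₀ h γ M w) v₁ ξ = 0) → c = 0 := by
  classical
  have hn' : (ω : WithTop ℕ∞) ≠ 0 := by simp
  have ht00 : minor (t 0) h v₁ ≠ 0 := left_ne_zero_of_mul ht0
  obtain ⟨o, ho, hord⟩ := exists_order hn h₀
  obtain ⟨k', c₂, hk'0, hc2, hnu⟩ := nonunit_bound hn h₀
  obtain ⟨c, hc1, hcc⟩ : ∃ c : ℝ, 1 < c ∧ c * c = c₂ := by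
    refine ⟨Real.sqrt c₂, ?_, Real.mul_self_sqrt (by linarith)⟩
    rw [Real.lt_sqrt zero_le_one]
    simpa using hc2
  have hc0 : 0 < c := by linarith
  rw [← hcc] at hnu
  obtain ⟨D₀, Φ₀, hD0, hoD₀, hΦ₀, hΦ₀0, hΦ₀c, hfac₀⟩ := psi_exists hn h₀ hh ht00 hgen ho
  -- the units
  set PG : spq Q → Prop := fun M => ∀ᶠ w in 𝓝 v₁, ∀ i, qrel (Cc π₀ G₀ M) h i w = 0 with hPG
  set PW : spq Q → Prop := fun M => ∀ᶠ w in 𝓝 v₁, pull (γ w) (LL π₀ π₀ (mx M)) = γ w with hPW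
  set 𝒰₁ : Finset (spq Q) := (unitF hn h₀).filter (fun M => PG M ∧ PW M) with h𝒰₁
  set 𝒰₂ : Finset (spq Q) := (unitF hn h₀).filter (fun M => ¬ (PG M ∧ PW M)) with h𝒰₂
  set 𝒰₃ : Finset (spq Q) := (unitF hn h₀).filter (fun M => ¬ PW M) with h𝒰₃
  have hU1 : ∀ M ∈ 𝒰₁, ‖(LL π₀ π₀ (mx M)).det‖ = 1 := fun M hM =>
    (mem_unitF hn h₀).1 (Finset.mem_filter.1 hM).1
  have hβ : ∀ M : spq Q, ∃ β : ℂ, M ∈ 𝒰₁ → β ^ o = 1 ∧ ∀ᶠ w in 𝓝 v₁, ∀ m,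
      minor m (fun u => Cc π₀ G₀ M (h u)) w = β * minor m h w := by
    intro M
    by_cases hM : M ∈ 𝒰₁
    · obtain ⟨h1, h2, -⟩ := Finset.mem_filter.1 hM
      obtain ⟨β, h3, h4⟩ := unit_fix hn h₀ hh ht00 h1 ho (hord M h1) h2
      exact ⟨β, fun _ => ⟨h3, h4⟩⟩
    · exact ⟨1, fun h => absurd h hM⟩
  choose β hβ using hβ
  have h1U : (1 : spq Q) ∈ 𝒰₁ := by
    refine Finset.mem_filter.2 ⟨one_mem_unitF hn h₀, Eventually.of_forall fun w i => ?_,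
      Eventually.of_forall fun w => ?_⟩
    · unfold qrel
      rw [Cc_one]
      show minor i.1 h w * minor i.2 h w - minor i.2 h w * minor i.1 h w = 0
      ring
    · rw [mx_one, LL_one]
      exact pull_id _
  -- separation of the cubic forms
  have hsep : ∀ M : spq Q, ∃ l' : Cub V →L[ℂ] ℂ, M ∈ 𝒰₃ →
      l' (γ v₁ - pull (γ v₁) (LL π₀ π₀ (mx M))) ≠ 0 := by
    intro M
    by_cases hM : M ∈ 𝒰₃
    · obtain ⟨h1, h2⟩ := Finset.mem_filter.1 hM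
      have h3 := (hgenw M h1).resolve_left h2
      obtain ⟨l', h4⟩ := SeparatingDual.exists_ne_zero (R := ℂ)
        (sub_ne_zero.2 (Ne.symm h3))
      exact ⟨l', fun _ => h4⟩
    · exact ⟨0, fun h => absurd h hM⟩
  choose μ hμ using hsep
  set Bf : ℂ × Cub V → ℂ := fun x =>
    ∏ M ∈ 𝒰₃, lam (μ M) (pull (γ v₁) (LL π₀ π₀ (mx M))) x with hBf
  have hBh : IsHom (𝒰₃.card * 1) Bf := IsHom.prod 𝒰₃ fun M _ => IsHom.lin _
  set q : ℕ := (𝒰₃.card * 1 + 𝒰₃.card * 1) + 1 with hq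
  set φ : Fin (r + 1) → ℂ × Cub V → ℂ := fun j x => (Bf x * Bf x) * Λ j x with hφ
  have hφh : ∀ j, IsHom q (φ j) := fun j => (hBh.mul hBh).mul (IsHom.lin _)
  have hB0 : Bf (1, γ v₁) ≠ 0 := by
    refine Finset.prod_ne_zero_iff.2 fun M hM => ?_
    rw [lam_one]
    exact hμ M hM
  have hB3 : ∀ M ∈ 𝒰₃, Bf (1, pull (γ v₁) (LL π₀ π₀ (mx M))) = 0 := by
    intro M hM
    refine Finset.prod_eq_zero hM ?_
    rw [lam_one, sub_self, map_zero]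
  -- the polynomials in the minors
  set D : ℕ := D₀ + o * (M₀ * q) * 1 with hD
  set Φ : ((Fin d → ℂ) → V) → (Fin d → ℂ) → ℂ := fun H v =>
    Φ₀ H v * minor (t 0) H v ^ (o * (M₀ * q)) with hΦdef
  set Ψ : Fin (r + 1) → ((Fin d → ℂ) → V) → (Fin d → ℂ) → ℂ := fun j H v =>
    minor (t j) H v * Φ H v with hΨdef
  have hΨ : ∀ j, IsHP D (Ψ j) := by
    intro j
    refine ((hΦ₀ (t j)).mul ((IsHP.minor (t 0)).pow (o * (M₀ * q)))).congr rfl fun H v => ?_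
    show minor (t j) H v * Φ₀ H v * minor (t 0) H v ^ (o * (M₀ * q)) =
      minor (t j) H v * (Φ₀ H v * minor (t 0) H v ^ (o * (M₀ * q)))
    ring
  have hoD : o ∣ D := by
    rw [hD, mul_one]
    exact dvd_add hoD₀ (dvd_mul_right _ _)
  have hMD : M₀ * q ≤ D := by
    rw [hD, mul_one]
    have : M₀ * q ≤ o * (M₀ * q) := Nat.le_mul_of_pos_left _ ho
    omega
  have hΦ0 : Φ h v₁ ≠ 0 := mul_ne_zero hΦ₀0 (pow_ne_zero _ ht00)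
  have hΦc : ContDiffAt ℂ ω (fun v => Φ h v) v₁ :=
    hΦ₀c.mul ((minor_contDiffAt (t 0) hh).pow _)
  -- the main functions
  set b : (Fin d → ℂ) → ℂ := fun v => Bf (1, γ v) with hb
  set a : Fin (r + 1) → (Fin d → ℂ) → ℂ := fun j v => Ψ j h v * φ j (1, γ v) with ha
  have hcdφ : ∀ (ψ : ℂ × Cub V → ℂ), ContDiff ℂ ω ψ → ∀ (L : V →L[ℂ] V) {v : Fin d → ℂ},
      ContDiffAt ℂ ω γ v → ContDiffAt ℂ ω (fun v => ψ (1, pull (γ v) L)) v := by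
    intro ψ hψ L v hv
    exact hψ.contDiffAt.comp v (contDiffAt_const.prodMk
      ((pullL L).contDiff.contDiffAt.comp v hv))
  have hcdφ' : ∀ (ψ : ℂ × Cub V → ℂ), ContDiff ℂ ω ψ → ∀ {v : Fin d → ℂ},
      ContDiffAt ℂ ω γ v → ContDiffAt ℂ ω (fun v => ψ (1, γ v)) v := by
    intro ψ hψ v hv
    exact hψ.contDiffAt.comp v (contDiffAt_const.prodMk hv)
  have hbd : DifferentiableAt ℂ b v₁ := (hcdφ' Bf hBh.cd hγ).differentiableAt hn'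
  have hX₀i : LinearIndependent ℂ (jets a v₁) := by
    have h1 := jets_mul (Φ := fun v => Φ h v * (b v * b v)) ht (fun j => by
      exact ((minor_contDiffAt (t j) hh).differentiableAt hn').mul
        ((hcdφ' (fun x => Λ j x) (Λ j).contDiff hγ).differentiableAt hn'))
      ((hΦc.differentiableAt hn').mul (hbd.mul hbd)) (mul_ne_zero hΦ0 (mul_ne_zero hB0 hB0))
    have h2 : (fun (j : Fin (r + 1)) (w : Fin d → ℂ) =>
        minor (t j) h w * Λ j (1, γ w) * (Φ h w * (b w * b w))) = a := by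
      funext j w
      show minor (t j) h w * Λ j (1, γ w) * (Φ h w * (Bf (1, γ w) * Bf (1, γ w))) =
        minor (t j) h w * Φ h w * ((Bf (1, γ w) * Bf (1, γ w)) * Λ j (1, γ w))
      ring
    rw [h2] at h1
    exact h1
  have ha0 : a 0 v₁ ≠ 0 := by
    refine mul_ne_zero (mul_ne_zero ht00 hΦ0) (mul_ne_zero (mul_ne_zero hB0 hB0) ?_)
    exact right_ne_zero_of_mul ht0
  -- the neighbourhood
  set L : ℝ := ‖fderiv ℂ h v₁‖ + 1 with hL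
  set Cg : ℝ := ‖γ v₁‖ + 1 with hCg
  have hfdc : ContinuousAt (fderiv ℂ h) v₁ := (hh.fderiv_right (m := ω) (by simp)).continuousAt
  have hKc := KU_cd' (e := e) (i₀ := i₀) (l := l) hh m
  obtain ⟨ρ, hρ, hball⟩ := Metric.eventually_nhds_iff_ball.1
    ((hh.eventually (by simp)).and ((hKc.continuousAt.eventually_ne hm0).and
    ((tube (e := e) (i₀ := i₀) (l := l) hh hm0 hmax hc1).and
    ((hfdc.norm.eventually_lt_const (show ‖fderiv ℂ h v₁‖ < L by rw [hL]; linarith)).and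
    (((Finset.eventually_all 𝒰₁).2 fun M hM => (hβ M hM).2).and
    (((Finset.eventually_all 𝒰₁).2 fun M hM => (Finset.mem_filter.1 hM).2.2).and
    ((hγ.eventually (by simp)).and
    (hγ.continuousAt.norm.eventually_lt_const (show ‖γ v₁‖ < Cg by rw [hCg]; linarith)))))))))
  obtain ⟨R, hR0, hR⟩ := minor_le (d := d) (V := V) zero_le_one (show 0 ≤ L by positivity)
  choose K hK0 hK using fun j => (hΨ j).bdd R
  choose Kφ hKφ0 hKφ using fun j => (hφh j).grow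
  set Z : ℝ := (1 + 8 * ‖(G₀ : V →L[ℂ] V)‖ ^ 3 * (Cg * ‖(G₀.symm : V →L[ℂ] V)‖ ^ 3)) ^ q with hZ
  have hCg0 : 0 ≤ Cg := by positivity
  have hZ0 : 0 ≤ Z := by positivity
  set K₃ : ℝ := ∑ j, K j * (Kφ j * Z) with hK₃
  have hKn : ∀ j, 0 ≤ K j * (Kφ j * Z) := fun j => by
    have := hK0 j
    have := hKφ0 j
    positivity
  have hKK₃ : ∀ j, K j * (Kφ j * Z) ≤ K₃ := fun j =>
    Finset.single_le_sum (f := fun j => K j * (Kφ j * Z)) (fun i _ => hKn i) (Finset.mem_univ j)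
  have hK₃0 : 0 ≤ K₃ := Finset.sum_nonneg fun i _ => hKn i
  set κ : (Fin d → ℂ) → ℂ := fun v => KU e i₀ l m h v with hκ
  have hb1 : ∀ v ∈ ball v₁ ρ, ContDiffAt ℂ ω h v := fun v hv => (hball v hv).1
  have hb2 : ∀ v ∈ ball v₁ ρ, κ v ≠ 0 := fun v hv => (hball v hv).2.1
  have hbγ : ∀ v ∈ ball v₁ ρ, ContDiffAt ℂ ω γ v := fun v hv => (hball v hv).2.2.2.2.2.2.1
  have hκc : ∀ v ∈ ball v₁ ρ, ContDiffAt ℂ ω κ v := fun v hv =>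
    KU_cd' (e := e) (i₀ := i₀) (l := l) (hb1 v hv) m
  -- the quotients
  set z : spq Q → (Fin d → ℂ) → ℂ := fun M v =>
    KU e i₀ l m (fun u => Cc π₀ G₀ M (h u)) v / κ v with hz
  have hz1 : ∀ M ∈ 𝒰₁, ‖z M v₁‖ ≤ 1 := fun M hM =>
    quot_le h₀ hh hm hm0 (fun m' hm' => by rw [one_mul]; exact hmax m' hm') (hU1 M hM)
  have hzc : ∀ M ∈ 𝒰₁, ∀ v ∈ ball v₁ ρ, ‖z M v‖ ≤ c := fun M hM v hv =>
    quot_le h₀ (hball v hv).1 hm (hball v hv).2.1 (hball v hv).2.2.1 (hU1 M hM)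
  have hz11 : z 1 v₁ = 1 := by
    rw [hz]
    simp only [Cc_one]
    exact div_self hm0
  have hzd : ∀ M, ∀ v ∈ ball v₁ ρ, ContDiffAt ℂ ω (z M) v := by
    intro M v hv
    exact (KU_cd' (e := e) (i₀ := i₀) (l := l) (cd_map (hb1 v hv) (Cc π₀ G₀ M)) m).div
      (hκc v hv) (hb2 v hv)
  have hac : ∀ j, ∀ v ∈ ball v₁ ρ, ContDiffAt ℂ ω (a j) v :=
    fun j v hv => (hp_cd (hΨ j) (hb1 v hv)).mul (hcdφ' (φ j) (hφh j).cd (hbγ v hv))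
  -- the series
  set p : ℕ := 2 * k' * o with hp
  set s : ℕ → Fin (r + 1) → (Fin d → ℂ) → ℂ := fun j i v =>
    ∑' M : spq Q, sud e i₀ l m (p * j) (Ψ i) (φ i) π₀ G₀ h γ M v with hs
  set Er : ℕ → Fin (r + 1) → (Fin d → ℂ) → ℂ := fun j i v =>
    ∑ M ∈ 𝒰₂, sud e i₀ l m (p * j) (Ψ i) (φ i) π₀ G₀ h γ M v / κ v ^ (p * j) with hEr
  set err : ℕ → ℝ := fun j => errT hn h₀ (k' * (o * j) - 3 * q) with herrd
  have herr0 : ∀ j, 0 ≤ err j := fun j => tsum_nonneg fun M => by split_ifs <;> positivity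
  have ht1 : Tendsto (fun j => k' * (o * j)) atTop atTop :=
    (tendsto_id.const_mul_atTop' ho).const_mul_atTop' hk'0
  have herr : Tendsto err atTop (𝓝 0) :=
    (errT_tendsto hn h₀).comp ((tendsto_sub_atTop_nat (3 * q)).comp ht1)
  have hsudc : ∀ (j : ℕ) (i : Fin (r + 1)) (M : spq Q), ∀ v ∈ ball v₁ ρ,
      ContDiffAt ℂ ω (fun v => sud e i₀ l m (p * j) (Ψ i) (φ i) π₀ G₀ h γ M v) v := by
    intro j i M v hv
    exact (tu_cd (e := e) (i₀ := i₀) (l := l) (m := m) (k := p * j) (hΨ i)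
      (cd_map (hb1 v hv) (Cc π₀ G₀ M))).mul (hcdφ (φ i) (hφh i).cd _ (hbγ v hv))
  have hev : ∀ᶠ j : ℕ in atTop, (∀ i, ∀ v ∈ ball v₁ ρ, ContDiffAt ℂ ω (s j i) v) ∧
      (∀ i, ∀ v ∈ ball v₁ ρ, ContDiffAt ℂ ω (Er j i) v) ∧
      (∀ i, HasFDerivAt (Er j i) (0 : (Fin d → ℂ) →L[ℂ] ℂ) v₁ ∧ Er j i v₁ = 0) ∧
      ∀ i, ∀ v ∈ ball v₁ ρ, ‖s j i v / κ v ^ (p * j) -
        ((∑ M ∈ 𝒰₁, z M v ^ (p * j)) * a i v + Er j i v)‖ ≤
          K₃ * err j * (c ^ (p * j))⁻¹ := by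
    filter_upwards [ht1.eventually_ge_atTop (3 * q + 2 * (n * n + 1))] with j hj
    have hpj : p * j = 2 * k' * (o * j) := by rw [hp]; ring
    have hpj2 : 3 * q + 2 * (n * n + 1) ≤ p * j := by
      have h1 : p * j = 2 * (k' * (o * j)) := by rw [hp]; ring
      omega
    have hκk : ∀ v ∈ ball v₁ ρ, ContDiffAt ℂ ω (fun v => (κ v ^ (p * j))⁻¹) v := fun v hv =>
      ((hκc v hv).pow (p * j)).inv (pow_ne_zero _ (hb2 v hv))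
    refine ⟨fun i v hv => ?_, fun i v hv => ?_, fun i => ?_, fun i v hv => ?_⟩
    · exact sud_cd hn (by omega) (hΨ i) (hφh i) h₀ (hb1 v hv) (hbγ v hv)
    · refine ContDiffAt.sum fun M _ => ?_
      have h1 := (hsudc j i M v hv).mul (hκk v hv)
      simpa only [div_eq_mul_inv] using h1
    · -- the units which move the point
      have hv₁ : v₁ ∈ ball v₁ ρ := mem_ball_self hρ
      have h1 : ∀ M ∈ 𝒰₂, ∃ A B : (Fin d → ℂ) → ℂ, ContDiffAt ℂ ω A v₁ ∧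
          ContDiffAt ℂ ω B v₁ ∧ B v₁ = 0 ∧ ∀ v,
            sud e i₀ l m (p * j) (Ψ i) (φ i) π₀ G₀ h γ M v / κ v ^ (p * j) =
              A v * B v ^ 2 := by
        intro M hM
        obtain ⟨h2, h3⟩ := Finset.mem_filter.1 hM
        have hhM := cd_map hh (Cc π₀ G₀ M)
        have hKM : ContDiffAt ℂ ω
            (fun v => KU e i₀ l m (fun u => Cc π₀ G₀ M (h u)) v ^ (p * j)) v₁ :=
          (KU_cd' (e := e) (i₀ := i₀) (l := l) hhM m).pow (p * j)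
        by_cases hPGM : PG M
        · -- the cubic form moves
          have hM3 : M ∈ 𝒰₃ := Finset.mem_filter.2 ⟨h2, fun h4 => h3 ⟨hPGM, h4⟩⟩
          refine ⟨fun v => KU e i₀ l m (fun u => Cc π₀ G₀ M (h u)) v ^ (p * j) *
            Ψ i (fun u => Cc π₀ G₀ M (h u)) v * Λ i (1, pull (γ v) (LL π₀ π₀ (mx M))) *
            (κ v ^ (p * j))⁻¹, fun v => Bf (1, pull (γ v) (LL π₀ π₀ (mx M))), ?_, ?_, hB3 M hM3,
            fun v => ?_⟩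
          · exact ((hKM.mul (hp_cd (hΨ i) hhM)).mul
              (hcdφ (fun x => Λ i x) (Λ i).contDiff _ hγ)).mul (hκk v₁ hv₁)
          · exact hcdφ Bf hBh.cd _ hγ
          · unfold sud tu
            show KU e i₀ l m (fun u => Cc π₀ G₀ M (h u)) v ^ (p * j) *
              Ψ i (fun u => Cc π₀ G₀ M (h u)) v *
              ((Bf (1, pull (γ v) (LL π₀ π₀ (mx M))) * Bf (1, pull (γ v) (LL π₀ π₀ (mx M)))) *
                Λ i (1, pull (γ v) (LL π₀ π₀ (mx M)))) / κ v ^ (p * j) = _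
            rw [div_eq_mul_inv]
            ring
        · -- the Gauss map moves
          obtain ⟨A, B, hA, hB, hB0', hAB⟩ := hfac₀ M h2 hPGM
          refine ⟨fun v => KU e i₀ l m (fun u => Cc π₀ G₀ M (h u)) v ^ (p * j) *
            minor (t i) (fun u => Cc π₀ G₀ M (h u)) v *
            minor (t 0) (fun u => Cc π₀ G₀ M (h u)) v ^ (o * (M₀ * q)) *
            φ i (1, pull (γ v) (LL π₀ π₀ (mx M))) * (κ v ^ (p * j))⁻¹ * A v, B, ?_, hB, hB0',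
            fun v => ?_⟩
          · exact ((((hKM.mul (minor_contDiffAt (t i) hhM)).mul
              ((minor_contDiffAt (t 0) hhM).pow _)).mul
              (hcdφ (φ i) (hφh i).cd _ hγ)).mul (hκk v₁ hv₁)).mul hA
          · unfold sud tu
            show KU e i₀ l m (fun u => Cc π₀ G₀ M (h u)) v ^ (p * j) *
              (minor (t i) (fun u => Cc π₀ G₀ M (h u)) v * (Φ₀ (fun u => Cc π₀ G₀ M (h u)) v *
                minor (t 0) (fun u => Cc π₀ G₀ M (h u)) v ^ (o * (M₀ * q)))) *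
              φ i (1, pull (γ v) (LL π₀ π₀ (mx M))) / κ v ^ (p * j) = _
            rw [hAB v, div_eq_mul_inv]
            ring
      constructor
      · have h2 : HasFDerivAt (Er j i) (∑ M ∈ 𝒰₂, (0 : (Fin d → ℂ) →L[ℂ] ℂ)) v₁ := by
          refine HasFDerivAt.fun_sum fun M hM => ?_
          obtain ⟨A, B, hA, hB, hB0', hAB⟩ := h1 M hM
          have h3 := jet_sq (hA.differentiableAt hn') (hB.differentiableAt hn') hB0'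
          have h4 : (fun v => sud e i₀ l m (p * j) (Ψ i) (φ i) π₀ G₀ h γ M v /
              κ v ^ (p * j)) = fun v => A v * B v ^ 2 := funext hAB
          rw [h4]
          exact h3
        rwa [Finset.sum_const_zero] at h2
      · refine Finset.sum_eq_zero fun M hM => ?_
        obtain ⟨A, B, hA, hB, hB0', hAB⟩ := h1 M hM
        rw [hAB v₁, hB0']
        simp
    · -- the remainder
      obtain ⟨g1, g2, g3, g4, g5, g6, g7, g8⟩ := hball v hv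
      have h1 := tail_ud (e := e) (i₀ := i₀) (l := l) (m := m) (Ψ := Ψ i) (φ := φ i) (k' := k')
        (γ := γ) (j := o * j) (q := q) hn h₀ g1 hm g3
        (fun m hm => hR m h v hm g4.le) (hK i) (hKφ0 i) (hKφ i) hc0 hnu hj
      have hκ0 : κ v ^ (p * j) ≠ 0 := pow_ne_zero _ g2
      rw [← hpj] at h1
      have h2 : ∑ M ∈ unitF hn h₀, sud e i₀ l m (p * j) (Ψ i) (φ i) π₀ G₀ h γ M v =
          κ v ^ (p * j) * ((∑ M ∈ 𝒰₁, z M v ^ (p * j)) * a i v + Er j i v) := by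
        rw [← Finset.sum_filter_add_sum_filter_not (unitF hn h₀) (fun M => PG M ∧ PW M), mul_add]
        congr 1
        · simp only [Finset.sum_mul, Finset.mul_sum]
          refine Finset.sum_congr rfl fun M hM => ?_
          have h3 : Ψ i (fun u => Cc π₀ G₀ M (h u)) v = Ψ i h v := by
            obtain ⟨b', hb'⟩ := hoD
            rw [(hΨ i).scale h _ v v (β M) (g5 M hM), hb', pow_mul, (hβ M hM).1,
              one_pow, one_mul]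
          unfold sud tu
          rw [h3, hz, g6 M hM]
          show KU e i₀ l m (fun u => Cc π₀ G₀ M (h u)) v ^ (p * j) * Ψ i h v * φ i (1, γ v) =
            κ v ^ (p * j) * ((KU e i₀ l m (fun u => Cc π₀ G₀ M (h u)) v / κ v) ^ (p * j) *
              (Ψ i h v * φ i (1, γ v)))
          rw [div_pow]
          field_simp
        · rw [hEr]
          simp only [Finset.mul_sum]
          refine Finset.sum_congr rfl fun M _ => ?_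
          field_simp
      rw [h2] at h1
      have h3 : s j i v / κ v ^ (p * j) - ((∑ M ∈ 𝒰₁, z M v ^ (p * j)) * a i v + Er j i v) =
          (s j i v - κ v ^ (p * j) * ((∑ M ∈ 𝒰₁, z M v ^ (p * j)) * a i v + Er j i v)) /
            κ v ^ (p * j) := by
        field_simp
      rw [h3, norm_div, div_le_iff₀ (norm_pos_iff.2 hκ0)]
      refine h1.trans ?_
      rw [norm_pow]
      have h5 : 0 ≤ ‖κ v‖ ^ (p * j) := by positivity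
      have h6 : (1 + 8 * ‖(G₀ : V →L[ℂ] V)‖ ^ 3 *
          ‖pull (γ v) (G₀.symm : V →L[ℂ] V)‖) ^ q ≤ Z := by
        rw [hZ]
        have h7 : ‖pull (γ v) (G₀.symm : V →L[ℂ] V)‖ ≤
            Cg * ‖(G₀.symm : V →L[ℂ] V)‖ ^ 3 := by
          refine (norm_pull_le _ _).trans ?_
          have := g8.le
          gcongr
        gcongr
      have h8 := hKK₃ i
      have h9 := hK0 i
      have h10 := hKφ0 i
      have h11 := herr0 j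
      have h12 : 0 < c ^ (p * j) := by positivity
      calc K i * ‖KU e i₀ l m h v‖ ^ (p * j) * (c ^ (p * j))⁻¹ *
            (Kφ i * (1 + 8 * ‖(G₀ : V →L[ℂ] V)‖ ^ 3 *
              ‖pull (γ v) (G₀.symm : V →L[ℂ] V)‖) ^ q) * err j ≤
            K i * ‖KU e i₀ l m h v‖ ^ (p * j) * (c ^ (p * j))⁻¹ * (Kφ i * Z) * err j := by
            gcongr
        _ = (K i * (Kφ i * Z)) * err j * (c ^ (p * j))⁻¹ * ‖κ v‖ ^ (p * j) := by ring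
        _ ≤ K₃ * err j * (c ^ (p * j))⁻¹ * ‖κ v‖ ^ (p * j) := by gcongr
  refine ⟨q, D, Ψ, φ, by omega, hMD, hΨ, hφh, fun N₀ => ?_⟩
  obtain ⟨j, hj, h1, h2⟩ := abs_limit (s₁ := 𝒰₁) h1U hρ hc1 hz1 hz11 hzc hzd hac hX₀i ha0 hκc hb2
    hK₃0 herr0 herr (p := p) (s := s) (Er := Er) hev N₀
  have hp0 : 0 < p := Nat.mul_pos (Nat.mul_pos two_pos hk'0) ho
  exact ⟨p * j, hj.trans (Nat.le_mul_of_pos_left _ hp0), h1, h2⟩

end Limit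

end Vale.Agent.P281.H511.UD
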