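import Vale.Agent.P281.H511.UD.Lim

/-!
# P281, project T-UD (helper511): the choice of the point
-/

open scoped Topology ContDiff
open Set Filter Module Metric

namespace Vale.Agent.P281.H511.UD

open Vale.Agent.P281 Vale.Agent.P281.H713 Vale.Agent.P281.H511.D
open Vale.Agent.P281.H349.U (IsTerm Fm tu nu isTerm_tu KU KU_map KU_bound fcomp norm_fcomp_le
  hp_comp trm_bound jets jets_mul jets_near pow_sum_large quot_le tube KU_cd' tu_cd KU_ne KU_cd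
  nc_prep)

set_option linter.unusedSectionVars false

section Prep

variable {d g n r : ℕ} {V : Type} [NormedAddCommGroup V] [InnerProductSpace ℂ V]
  [FiniteDimensional ℂ V] {Q : (Fin n → ℝ) → (Fin n → ℝ) → ℝ}
  {π₀ : (Fin n → ℝ) ≃L[ℝ] V} {G₀ : V ≃L[ℂ] V}

/-- the image is not contained in a hyperplane, nearby -/
theorem full_near {h : (Fin d → ℂ) → V} {v₀ : Fin d → ℂ} (hh : ContDiffAt ℂ ω h v₀)
    (hfull : ∀ l : V →L[ℂ] ℂ, (∀ᶠ v in 𝓝 v₀, l (h v) = l (h v₀)) → l = 0) :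
    ∀ᶠ v₁ in 𝓝 v₀, ∀ l : V →L[ℂ] ℂ, (∀ᶠ v in 𝓝 v₁, l (h v) = l (h v₁)) → l = 0 := by
  obtain ⟨δ, hδ, hball⟩ := Metric.eventually_nhds_iff_ball.1 (hh.eventually (by simp))
  filter_upwards [ball_mem_nhds v₀ hδ] with v₁ hv₁ l hl
  refine hfull l ?_
  have han : AnalyticOnNhd ℂ (fun v => l (h v)) (ball v₀ δ) := fun v hv =>
    (l.contDiff.contDiffAt.comp v (hball v hv)).analyticAt
  have hanc : AnalyticOnNhd ℂ (fun _ => l (h v₁)) (ball v₀ δ) := fun v _ => analyticAt_const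
  have h1 := han.eqOn_of_preconnected_of_eventuallyEq hanc
    (convex_ball v₀ δ).isPreconnected hv₁ hl
  filter_upwards [ball_mem_nhds v₀ hδ] with v hv
  have h2 : l (h v) = l (h v₁) := h1 hv
  have h3 : l (h v₀) = l (h v₁) := h1 (mem_ball_self hδ)
  rw [h2, h3]

/-- independent jets stay independent -/
theorem jets_eventually {a : Fin (r + 1) → (Fin d → ℂ) → ℂ} {v₀ : Fin d → ℂ}
    (ha : ∀ j, ContDiffAt ℂ ω (a j) v₀) (hind : LinearIndependent ℂ (jets a v₀)) :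
    ∀ᶠ v in 𝓝 v₀, LinearIndependent ℂ (jets a v) := by
  have hjc : ContinuousAt (fun v => jets a v) v₀ := by
    refine continuousAt_pi.2 fun j => ?_
    exact (ha j).continuousAt.prodMk ((ha j).fderiv_right (m := ω) (by simp)).continuousAt
  exact hjc.eventually hind.eventually

theorem jets_congr {a a' : Fin (r + 1) → (Fin d → ℂ) → ℂ} {v₀ : Fin d → ℂ}
    (h : ∀ j, a j =ᶠ[𝓝 v₀] a' j) : jets a v₀ = jets a' v₀ := by
  funext j
  unfold jets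
  rw [(h j).self_of_nhds, (h j).fderiv_eq]

theorem cd_phi {ψ : ℂ × Cub V → ℂ} (hψ : ContDiff ℂ ω ψ) {γ : (Fin d → ℂ) → Cub V}
    {v : Fin d → ℂ} (hγ : ContDiffAt ℂ ω γ v) : ContDiffAt ℂ ω (fun v => ψ (1, γ v)) v :=
  hψ.contDiffAt.comp v (contDiffAt_const.prodMk hγ)

/-- the choice of the point -/
theorem ud_prep (hn : 0 < n) (h₀ : IsPol Q π₀ G₀) {h : (Fin d → ℂ) → V}
    {γ : (Fin d → ℂ) → Cub V} {v₀ : Fin d → ℂ}
    (hh : ContDiffAt ℂ ω h v₀) (hγ : ContDiffAt ℂ ω γ v₀) {t : Fin (r + 1) → Fm d V}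
    {Λ : Fin (r + 1) → ((ℂ × Cub V) →L[ℂ] ℂ)}
    (ht : LinearIndependent ℂ (jets (fun j v => minor (t j) h v * Λ j (1, γ v)) v₀))
    (ht0 : minor (t 0) h v₀ * Λ 0 (1, γ v₀) ≠ 0)
    (hfull : ∀ l : V →L[ℂ] ℂ, (∀ᶠ v in 𝓝 v₀, l (h v) = l (h v₀)) → l = 0)
    (e : Basis (Fin g) ℂ V) {good : (Fin d → ℂ) → Prop} (hgood : ∀ᶠ v in 𝓝 v₀, good v) :
    ∃ v₁, good v₁ ∧ ContDiffAt ℂ ω h v₁ ∧ ContDiffAt ℂ ω γ v₁ ∧
      LinearIndependent ℂ (jets (fun j v => minor (t j) h v * Λ j (1, γ v)) v₁) ∧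
      minor (t 0) h v₁ * Λ 0 (1, γ v₁) ≠ 0 ∧
      (∀ M ∈ unitF hn h₀, (∀ᶠ w in 𝓝 v₁, ∀ i, qrel (Cc π₀ G₀ M) h i w = 0) ∨
        ∃ i, qrel (Cc π₀ G₀ M) h i v₁ ≠ 0) ∧
      (∀ M ∈ unitF hn h₀, (∀ᶠ w in 𝓝 v₁, pull (γ w) (LL π₀ π₀ (mx M)) = γ w) ∨
        pull (γ v₁) (LL π₀ π₀ (mx M)) ≠ γ v₁) ∧
      ∃ (i₀ : Fin g → Fin d) (l : Fin g → List (Fin d)) (R₀ : ℝ) (m : Fm d V),
        ‖m‖ ≤ R₀ ∧ KU e i₀ l m h v₁ ≠ 0 ∧
        ∀ m' : Fm d V, ‖m'‖ ≤ R₀ → ‖KU e i₀ l m' h v₁‖ ≤ ‖KU e i₀ l m h v₁‖ := by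
  classical
  have hn' : (ω : WithTop ℕ∞) ≠ 0 := by simp
  have hac : ∀ j, ContDiffAt ℂ ω (fun v => minor (t j) h v * Λ j (1, γ v)) v₀ := fun j =>
    (minor_contDiffAt (t j) hh).mul (cd_phi (ψ := fun x => Λ j x) (Λ j).contDiff hγ)
  obtain ⟨O, hO, hOo, hOv⟩ := _root_.eventually_nhds_iff.1 (hgood.and ((hh.eventually (by simp)).and
    ((hγ.eventually (by simp)).and ((jets_eventually hac ht).and
    (((hac 0).continuousAt.eventually_ne ht0).and (full_near hh hfull))))))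
  obtain ⟨v', hv', hgen⟩ := exists_generic (unitF hn h₀) (ι' := Cub V →L[ℂ] ℂ)
    (F := fun M l' v => l' (pull (γ v) (LL π₀ π₀ (mx M)) - γ v)) hOo ⟨v₀, hOv⟩ (fun M l' => by
      have h1 : ContinuousOn γ O := fun v hv =>
        (hO v hv).2.2.1.continuousAt.continuousWithinAt
      exact l'.continuous.comp_continuousOn
        (((pullL (LL π₀ π₀ (mx M))).continuous.comp_continuousOn h1).sub h1))
  obtain ⟨-, hh', hγ', hj', h0', hf'⟩ := hO v' hv'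
  have hgw : ∀ᶠ v in 𝓝 v', ∀ M ∈ unitF hn h₀,
      (∀ᶠ w in 𝓝 v, pull (γ w) (LL π₀ π₀ (mx M)) = γ w) ∨
        pull (γ v) (LL π₀ π₀ (mx M)) ≠ γ v := by
    refine (Finset.eventually_all _).2 fun M hM => ?_
    rcases hgen M hM with h1 | ⟨l', h1⟩
    · have h2 : ∀ᶠ w in 𝓝 v', pull (γ w) (LL π₀ π₀ (mx M)) = γ w := by
        filter_upwards [h1] with w hw
        by_contra h3
        obtain ⟨l'', h4⟩ := SeparatingDual.exists_ne_zero (R := ℂ) (sub_ne_zero.2 h3)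
        exact h4 (hw l'')
      exact (eventually_eventually_nhds.2 h2).mono fun v hv => Or.inl hv
    · have h2 : ContinuousAt (fun v => l' (pull (γ v) (LL π₀ π₀ (mx M)) - γ v)) v' :=
        l'.continuous.continuousAt.comp
          (((pullL (LL π₀ π₀ (mx M))).continuous.continuousAt.comp hγ'.continuousAt).sub
            hγ'.continuousAt)
      refine (h2.eventually_ne h1).mono fun v hv => Or.inr fun h3 => hv ?_
      show l' (pull (γ v) (LL π₀ π₀ (mx M)) - γ v) = 0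
      rw [h3, sub_self, map_zero]
  have ht00 : minor (t 0) h v' ≠ 0 := left_ne_zero_of_mul h0'
  have hli : LinearIndependent ℂ (jets (r := 0) (fun _ => minor (t 0) h) v') := by
    rw [Fintype.linearIndependent_iff]
    intro c hc i
    have h1 := congrArg Prod.fst hc
    simp only [Fin.sum_univ_succ, Finset.univ_eq_empty, Finset.sum_empty, add_zero, jets,
      Prod.smul_fst, Prod.fst_zero, smul_eq_mul] at h1
    refine Fin.cases ?_ (fun j => j.elim0) i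
    exact (mul_eq_zero.1 h1).resolve_right ht00
  have hg' : ∀ᶠ v in 𝓝 v', v ∈ O := hOo.mem_nhds hv'
  obtain ⟨v₁, ⟨hg1, hg2⟩, hh1, -, -, hgen1, hrest⟩ := nc_prep (r := 0) hn h₀ hh'
    (t := fun _ => t 0) ht00 hli hf' e (hg'.and hgw)
  obtain ⟨k1, k2, k3, k4, k5, k6⟩ := hO v₁ hg1
  exact ⟨v₁, k1, hh1, k3, k4, k5, hgen1, hg2, hrest⟩

end Prep

end Vale.Agent.P281.H511.UD
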