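import Vale.Agent.P281.H511.UD.Pr
import Vale.Agent.P281.H64.TD.SpecA

/-!
# P281, project T-UD (helper511): integral bases, compatible for all charts
-/

open scoped Manifold ContDiff Topology
open Set Filter Metric Module

noncomputable section

namespace Vale.Agent.P281.H511.UD

open Vale.Agent.P281 Vale.Agent.P281.H713 Vale.Agent.P281.H511.D
open Vale.Agent.P281.H64.TD (zr)

section Rho

variable {n m : ℕ}

theorem zr_add (k l : Fin n → ℤ) : zr (k + l) = zr k + zr l := by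
  funext i
  simp [zr]

theorem zr_smul (c : ℤ) (k : Fin n → ℤ) : zr (c • k) = (c : ℝ) • zr k := by
  funext i
  simp [zr]

theorem zr_sum {ι : Type} (s : Finset ι) (f : ι → Fin n → ℤ) :
    zr (∑ i ∈ s, f i) = ∑ i ∈ s, zr (f i) := by
  funext j
  simp [zr, Finset.sum_apply]

theorem zr_inj : Function.Injective (zr : (Fin n → ℤ) → Fin n → ℝ) := by
  intro k l h
  funext i
  have h1 : ((k i : ℤ) : ℝ) = (l i : ℝ) := congrFun h i
  exact_mod_cast h1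

/-- Integral vectors which are independent over `ℤ` are independent over `ℝ`. -/
theorem indep_real {v : Fin m → Fin n → ℤ} (hv : LinearIndependent ℤ v) {t : Fin m → ℝ}
    (ht : ∑ i, t i • zr (v i) = 0) : t = 0 := by
  -- independence over the rational numbers
  let q : Fin m → Fin n → ℚ := fun i j => (v i j : ℚ)
  have hq : LinearIndependent ℚ q := by
    rw [← LinearIndependent.iff_fractionRing ℤ ℚ]
    rw [Fintype.linearIndependent_iff] at hv ⊢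
    intro g hg
    apply hv g
    funext j
    have h1 := congrFun hg j
    rw [Finset.sum_apply, Pi.zero_apply] at h1 ⊢
    have h2 : ((∑ c, (g c • v c) j : ℤ) : ℚ) = ∑ c, (g c • q c) j := by
      push_cast
      refine Finset.sum_congr rfl fun c _ => ?_
      simp [q]
    rw [h1] at h2
    exact_mod_cast h2
  rw [Fintype.linearIndependent_iff] at hq
  funext i
  rw [Pi.zero_apply, ← Module.forall_dual_apply_eq_zero_iff ℚ (t i)]
  intro φ
  refine hq (fun i => φ (t i)) ?_ i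
  funext j
  have h1 := congrFun ht j
  simp only [Finset.sum_apply, Pi.smul_apply, Pi.zero_apply, smul_eq_mul, zr] at h1
  simp only [Finset.sum_apply, Pi.smul_apply, Pi.zero_apply, smul_eq_mul, q]
  have h2 := congrArg φ h1
  rw [map_sum, map_zero] at h2
  rw [← h2]
  refine Finset.sum_congr rfl fun i _ => ?_
  have h3 : t i * (v i j : ℝ) = (v i j : ℚ) • t i := by
    rw [Rat.smul_def]
    push_cast
    ring
  rw [h3, map_smul, smul_eq_mul, mul_comm]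

/-- A basis of a lattice, as a real linear map. -/
structure IsRho (Λ : AddSubgroup (Fin n → ℤ)) (ρ : (Fin m → ℝ) →L[ℝ] (Fin n → ℝ)) : Prop where
  inj : Function.Injective ρ
  int : ∀ k : Fin m → ℤ, ∃ l ∈ Λ, ρ (zr k) = zr l
  onto : ∀ l ∈ Λ, ∃ k : Fin m → ℤ, ρ (zr k) = zr l

theorem IsRho.range {Λ : AddSubgroup (Fin n → ℤ)} {ρ : (Fin m → ℝ) →L[ℝ] (Fin n → ℝ)}
    (h : IsRho Λ ρ) (x : Fin n → ℝ) :
    x ∈ Submodule.span ℝ (zr '' (Λ : Set (Fin n → ℤ))) ↔ ∃ t, ρ t = x := by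
  constructor
  · intro hx
    have h1 : Submodule.span ℝ (zr '' (Λ : Set (Fin n → ℤ))) ≤
        LinearMap.range (ρ : (Fin m → ℝ) →ₗ[ℝ] (Fin n → ℝ)) := by
      rw [Submodule.span_le]
      rintro _ ⟨l, hl, rfl⟩
      obtain ⟨k, hk⟩ := h.onto l hl
      exact ⟨zr k, hk⟩
    exact h1 hx
  · rintro ⟨t, rfl⟩
    have h1 : t = ∑ i, t i • zr (Pi.single i (1 : ℤ)) := by
      funext j
      simp only [Finset.sum_apply, Pi.smul_apply, zr, smul_eq_mul]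
      rw [Finset.sum_eq_single j]
      · simp
      · intro b _ hb
        rw [Pi.single_eq_of_ne (Ne.symm hb)]
        simp
      · intro h
        exact absurd (Finset.mem_univ j) h
    rw [h1, map_sum]
    refine Submodule.sum_mem _ fun i _ => ?_
    rw [map_smul]
    refine Submodule.smul_mem _ _ ?_
    obtain ⟨l, hl, hl'⟩ := h.int (Pi.single i 1)
    rw [hl']
    exact Submodule.subset_span ⟨l, hl, rfl⟩

/-- Lattices have bases. -/
theorem exists_rho (Λ : AddSubgroup (Fin n → ℤ)) :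
    ∃ (m : ℕ) (ρ : (Fin m → ℝ) →L[ℝ] (Fin n → ℝ)), IsRho Λ ρ := by
  obtain ⟨m, b⟩ := Submodule.basisOfPid (Pi.basisFun ℤ (Fin n)) (AddSubgroup.toIntSubmodule Λ)
  let v : Fin m → Fin n → ℤ := fun i => (b i : Fin n → ℤ)
  have hv : LinearIndependent ℤ v :=
    b.linearIndependent.map' (AddSubgroup.toIntSubmodule Λ).subtype (Submodule.ker_subtype _)
  let R : (Fin m → ℝ) →ₗ[ℝ] (Fin n → ℝ) := Fintype.linearCombination ℝ fun i => zr (v i)
  have hR : ∀ t, R t = ∑ i, t i • zr (v i) := fun t => Fintype.linearCombination_apply _ _ _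
  have hzr : ∀ k : Fin m → ℤ, R (zr k) = zr (∑ i, k i • v i) := by
    intro k
    rw [hR, zr_sum]
    refine Finset.sum_congr rfl fun i _ => ?_
    rw [zr_smul]
    rfl
  refine ⟨m, LinearMap.toContinuousLinearMap R, ⟨?_, ?_, ?_⟩⟩
  · intro t t' htt
    have h1 : R (t - t') = 0 := by
      rw [map_sub]
      exact sub_eq_zero.2 htt
    rw [hR] at h1
    exact sub_eq_zero.1 (indep_real hv h1)
  · intro k
    refine ⟨∑ i, k i • v i, ?_, hzr k⟩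
    exact (AddSubgroup.toIntSubmodule Λ).sum_mem fun i _ =>
      (AddSubgroup.toIntSubmodule Λ).smul_mem _ (b i).2
  · intro l hl
    let l' : AddSubgroup.toIntSubmodule Λ := ⟨l, hl⟩
    refine ⟨fun i => b.repr l' i, ?_⟩
    change R (zr _) = _
    rw [hzr]
    congr 1
    have h1 := b.sum_repr l'
    have h2 : ((∑ i, (b.repr l') i • b i : AddSubgroup.toIntSubmodule Λ) : Fin n → ℤ) = l :=
      congrArg Subtype.val h1
    rw [← h2, Submodule.coe_sum]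
    rfl

end Rho

section Chain

variable {n : ℕ} {Q : (Fin n → ℝ) → (Fin n → ℝ) → ℝ}

/-- `M` maps the lattice `Λ` onto `Λ'`, and preserves `Q`. -/
structure IsLatMap (Q : (Fin n → ℝ) → (Fin n → ℝ) → ℝ) (Λ Λ' : AddSubgroup (Fin n → ℤ))
    (M : (Fin n → ℝ) →L[ℝ] (Fin n → ℝ)) : Prop where
  inj : Function.Injective M
  form : ∀ x x', Q (M x) (M x') = Q x x'
  fwd : ∀ k ∈ Λ, ∃ k' ∈ Λ', M (zr k) = zr k'
  bwd : ∀ k' ∈ Λ', ∃ k ∈ Λ, M (zr k) = zr k'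

theorem IsLatMap.refl (Λ : AddSubgroup (Fin n → ℤ)) :
    IsLatMap Q Λ Λ (ContinuousLinearMap.id ℝ _) where
  inj := Function.injective_id
  form _ _ := rfl
  fwd k hk := ⟨k, hk, rfl⟩
  bwd k hk := ⟨k, hk, rfl⟩

theorem IsLatMap.comp {Λ Λ' Λ'' : AddSubgroup (Fin n → ℤ)} {M M' : (Fin n → ℝ) →L[ℝ] (Fin n → ℝ)}
    (h : IsLatMap Q Λ Λ' M) (h' : IsLatMap Q Λ' Λ'' M') : IsLatMap Q Λ Λ'' (M'.comp M) where
  inj := h'.inj.comp h.inj
  form x x' := by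
    rw [ContinuousLinearMap.comp_apply, ContinuousLinearMap.comp_apply, h'.form, h.form]
  fwd k hk := by
    obtain ⟨k', hk', h1⟩ := h.fwd k hk
    obtain ⟨k'', hk'', h2⟩ := h'.fwd k' hk'
    exact ⟨k'', hk'', by rw [ContinuousLinearMap.comp_apply, h1, h2]⟩
  bwd k hk := by
    obtain ⟨k', hk', h1⟩ := h'.bwd k hk
    obtain ⟨k'', hk'', h2⟩ := h.bwd k' hk'
    exact ⟨k'', hk'', by rw [ContinuousLinearMap.comp_apply, h2, h1]⟩

theorem IsRho.comp {m : ℕ} {Λ Λ' : AddSubgroup (Fin n → ℤ)} {M : (Fin n → ℝ) →L[ℝ] (Fin n → ℝ)}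
    {ρ : (Fin m → ℝ) →L[ℝ] (Fin n → ℝ)} (h : IsRho Λ ρ) (hM : IsLatMap Q Λ Λ' M) :
    IsRho Λ' (M.comp ρ) where
  inj := hM.inj.comp h.inj
  int k := by
    obtain ⟨l, hl, h1⟩ := h.int k
    obtain ⟨l', hl', h2⟩ := hM.fwd l hl
    exact ⟨l', hl', by rw [ContinuousLinearMap.comp_apply, h1, h2]⟩
  onto l hl := by
    obtain ⟨l', hl', h1⟩ := hM.bwd l hl
    obtain ⟨k, hk⟩ := h.onto l' hl'
    exact ⟨k, by rw [ContinuousLinearMap.comp_apply, hk, h1]⟩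

variable {Y : Type} [TopologicalSpace Y]

/-- On a connected base, all the lattices are isomorphic. -/
theorem exists_latMap {ι : Type} {U : ι → Set Y} {S : Set Y} (hS : IsPreconnected Sᶜ)
    (hc : ∀ y, y ∉ S ↔ ∃ a, y ∈ U a) (hU : ∀ a, IsOpen (U a))
    {Λ : ι → AddSubgroup (Fin n → ℤ)}
    (hΛ : ∀ a b, (U a ∩ U b).Nonempty → ∃ M, IsLatMap Q (Λ a) (Λ b) M) (a₀ : ι)
    (h₀ : (U a₀).Nonempty) (a : ι) (ha : (U a).Nonempty) : ∃ M, IsLatMap Q (Λ a₀) (Λ a) M := by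
  classical
  let O : Set Y := ⋃ a ∈ {a | ∃ M, IsLatMap Q (Λ a₀) (Λ a) M}, U a
  let O' : Set Y := ⋃ a ∈ {a | ¬ ∃ M, IsLatMap Q (Λ a₀) (Λ a) M}, U a
  have hO : IsOpen O := isOpen_biUnion fun a _ => hU a
  have hO' : IsOpen O' := isOpen_biUnion fun a _ => hU a
  by_contra hne
  have hcov : Sᶜ ⊆ O ∪ O' := by
    intro y hy
    obtain ⟨b, hb⟩ := (hc y).1 hy
    by_cases h : ∃ M, IsLatMap Q (Λ a₀) (Λ b) M
    · exact Or.inl (mem_biUnion h hb)
    · exact Or.inr (mem_biUnion (x := b) (s := {a | ¬ ∃ M, IsLatMap Q (Λ a₀) (Λ a) M}) h hb)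
  obtain ⟨y₀, hy₀⟩ := h₀
  obtain ⟨y₁, hy₁⟩ := ha
  have h1 : (Sᶜ ∩ O).Nonempty := ⟨y₀, (hc y₀).2 ⟨a₀, hy₀⟩,
    mem_biUnion (x := a₀) (s := {a | ∃ M, IsLatMap Q (Λ a₀) (Λ a) M}) ⟨_, IsLatMap.refl _⟩ hy₀⟩
  have h2 : (Sᶜ ∩ O').Nonempty := ⟨y₁, (hc y₁).2 ⟨a, hy₁⟩,
    mem_biUnion (x := a) (s := {a | ¬ ∃ M, IsLatMap Q (Λ a₀) (Λ a) M}) hne hy₁⟩
  obtain ⟨y, -, hyO, hyO'⟩ := hS O O' hO hO' hcov h1 h2
  obtain ⟨b, ⟨M, hM⟩, hyb⟩ := mem_iUnion₂.1 hyO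
  obtain ⟨b', hb', hyb'⟩ := mem_iUnion₂.1 hyO'
  obtain ⟨M', hM'⟩ := hΛ b b' ⟨y, hyb, hyb'⟩
  exact hb' ⟨_, hM.comp hM'⟩

/-- Bases of the lattices with the same form. -/
theorem exists_rhoFam {ι : Type} {U : ι → Set Y} {S : Set Y} (hS : IsPreconnected Sᶜ)
    (hc : ∀ y, y ∉ S ↔ ∃ a, y ∈ U a) (hU : ∀ a, IsOpen (U a))
    {Λ : ι → AddSubgroup (Fin n → ℤ)}
    (hΛ : ∀ a b, (U a ∩ U b).Nonempty → ∃ M, IsLatMap Q (Λ a) (Λ b) M) :
    ∃ (m : ℕ) (ρ : ι → ((Fin m → ℝ) →L[ℝ] (Fin n → ℝ))) (QB : (Fin m → ℝ) → (Fin m → ℝ) → ℝ),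
      ∀ a, (U a).Nonempty → IsRho (Λ a) (ρ a) ∧ ∀ t t', Q (ρ a t) (ρ a t') = QB t t' := by
  classical
  by_cases h : ∃ a₀, (U a₀).Nonempty
  · obtain ⟨a₀, h₀⟩ := h
    obtain ⟨m, ρ₀, hρ₀⟩ := exists_rho (Λ a₀)
    choose! M hM using fun a => exists_latMap hS hc hU hΛ a₀ h₀ a
    refine ⟨m, fun a => (M a).comp ρ₀, fun t t' => Q (ρ₀ t) (ρ₀ t'), fun a ha => ?_⟩
    exact ⟨hρ₀.comp (hM a ha), fun t t' => (hM a ha).form _ _⟩
  · exact ⟨0, fun _ => 0, fun _ _ => 0, fun a ha => absurd ⟨a, ha⟩ h⟩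

end Chain

end Vale.Agent.P281.H511.UD
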