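import Vale.Agent.P281.H511.D.Lim
import Vale.Agent.P281.H349.U.Nc2

/-!
# P281, project T-UD (helper511): series with terms `T (h) * P (w)`
-/

open scoped Topology ContDiff
open Set Filter Module Metric

namespace Vale.Agent.P281.H511.UD

open Vale.Agent.P281 Vale.Agent.P281.H713 Vale.Agent.P281.H511.D
open Vale.Agent.P281.H349.U (IsTerm Fm tu nu isTerm_tu KU KU_map KU_bound fcomp norm_fcomp_le
  hp_comp trm_bound)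

set_option linter.unusedSectionVars false

section Term

variable {d g : ℕ} {V : Type} [NormedAddCommGroup V] [InnerProductSpace ℂ V]
  [FiniteDimensional ℂ V]

/-- terms bounded by the power `D` of the minors -/
structure IsTermD (wt k D : ℕ) (T : ((Fin d → ℂ) → V) → (Fin d → ℂ) → ℂ) : Prop
    extends IsTerm wt k T where
  boundD : ∀ r R : ℝ, 0 < r → 0 ≤ R → ∃ K : ℝ, 0 ≤ K ∧ ∀ C : V →L[ℂ] V, ‖C‖ ≤ 1 →
    ∀ (h : (Fin d → ℂ) → V) (v₀ : Fin d → ℂ), DifferentiableOn ℂ h (ball v₀ r) →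
      (∀ v ∈ ball v₀ r, ‖fderiv ℂ h v‖ ≤ R) → ∀ μ : ℝ, 0 < μ →
      (∀ m : Fin d → (V →L[ℂ] ℂ), (∀ a, ‖m a‖ ≤ 1) → ‖minor m h v₀‖ ≤ μ) →
      ‖T (fun u => C (h u)) v₀‖ ≤ K * μ ^ D * ‖C.det‖ ^ k

/-- homogeneity of polynomials in the minors -/
theorem hp_le (hd : 0 < d) {D : ℕ} {Ψ : ((Fin d → ℂ) → V) → (Fin d → ℂ) → ℂ} (hΨ : IsHP D Ψ) :
    ∃ K : ℝ, 0 ≤ K ∧ ∀ (h : (Fin d → ℂ) → V) (v : Fin d → ℂ), DifferentiableAt ℂ h v →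
      ∀ μ : ℝ, 0 < μ → (∀ m : Fin d → (V →L[ℂ] ℂ), (∀ a, ‖m a‖ ≤ 1) → ‖minor m h v‖ ≤ μ) →
      ‖Ψ h v‖ ≤ K * μ ^ D := by
  obtain ⟨K, hK0, hK⟩ := hΨ.bdd 1
  refine ⟨K, hK0, fun h v hh μ hμ hm => ?_⟩
  -- a linear map with determinant `1 / μ`
  set c : ℂ := ((μ⁻¹ : ℝ) : ℂ) with hc
  have hcn : ‖c‖ = μ⁻¹ := by
    rw [hc, Complex.norm_real, Real.norm_of_nonneg (inv_nonneg.2 hμ.le)]
  have hc0 : c ≠ 0 := by
    intro h0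
    rw [h0, norm_zero] at hcn
    exact (inv_pos.2 hμ).ne hcn
  set i₀ : Fin d := ⟨0, hd⟩ with hi₀
  set Am : Matrix (Fin d) (Fin d) ℂ := Matrix.diagonal fun i => if i = i₀ then c else 1 with hAm
  set A : (Fin d → ℂ) →L[ℂ] (Fin d → ℂ) := LinearMap.toContinuousLinearMap (Matrix.toLin' Am)
    with hA
  have hAdet : A.det = c := by
    have h1 : A.det = LinearMap.det (Matrix.toLin' Am) := rfl
    rw [h1, LinearMap.det_toLin', hAm, Matrix.det_diagonal,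
      Finset.prod_ite_eq' Finset.univ i₀ fun _ => c, if_pos (Finset.mem_univ _)]
  set φ : (Fin d → ℂ) → (Fin d → ℂ) := fun u => A u + v with hφ
  have hφd : HasFDerivAt φ A 0 := A.hasFDerivAt.add_const v
  have hφ0 : φ 0 = v := by rw [hφ]; simp
  have hh' : DifferentiableAt ℂ h (φ 0) := by rw [hφ0]; exact hh
  have hminor : ∀ m, minor m (fun u => h (φ u)) 0 = c * minor m h v := by
    intro m
    rw [minor_comp m hh' hφd.differentiableAt, hφd.fderiv, hAdet, hφ0]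
  have h1 : Ψ (fun u => h (φ u)) 0 = c ^ D * Ψ h v := hΨ.scale h _ v 0 c hminor
  have h2 : ‖Ψ (fun u => h (φ u)) 0‖ ≤ K := hK _ _ fun m hm1 => by
    rw [hminor, norm_mul, hcn]
    have h3 := hm m hm1
    rw [inv_mul_le_iff₀ hμ, mul_one]
    exact h3
  rw [h1, norm_mul, norm_pow, hcn, inv_pow, inv_mul_le_iff₀ (by positivity)] at h2
  rw [mul_comm K]
  exact h2

theorem isTermD_tu (hd : 0 < d) (e : Basis (Fin g) ℂ V) (i₀ : Fin g → Fin d)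
    (l : Fin g → List (Fin d)) (m : Fm d V) (k : ℕ) {D : ℕ}
    {Ψ : ((Fin d → ℂ) → V) → (Fin d → ℂ) → ℂ} (hΨ : IsHP D Ψ) :
    IsTermD (k * nu l + D) k D (tu e i₀ l m k Ψ) where
  toIsTerm := isTerm_tu e i₀ l m k hΨ
  boundD r R hr hR := by
    obtain ⟨K₁, hK₁0, hK₁⟩ := KU_bound (R₀ := ‖m‖) hr hR e i₀ l
    obtain ⟨K₂, hK₂0, hK₂⟩ := hp_le hd hΨ
    refine ⟨K₁ ^ k * K₂, by positivity, fun C hC h v₀ hh hb μ hμ hm => ?_⟩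
    have : CompleteSpace V := FiniteDimensional.complete ℂ V
    have hv₀ : v₀ ∈ ball v₀ r := mem_ball_self hr
    have han : ContDiffAt ℂ ω h v₀ :=
      (MF.analyticAt_of_differentiableOn isOpen_ball hh hv₀).contDiffAt
    have hdv : DifferentiableAt ℂ h v₀ := han.differentiableAt (by simp)
    unfold tu
    rw [KU_map m han C, norm_mul, norm_pow, norm_mul]
    have h1 := hK₁ (fcomp m C) (norm_fcomp_le hC) h v₀ hh hb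
    have h2 := hK₂ (fun u => C (h u)) v₀ (C.differentiableAt.comp v₀ hdv) μ hμ fun m' hm' =>
      minor_contr hdv hm hC m' hm'
    calc (‖C.det‖ * ‖KU e i₀ l (fcomp m C) h v₀‖) ^ k * ‖Ψ (fun u => C (h u)) v₀‖
        ≤ (‖C.det‖ * K₁) ^ k * (K₂ * μ ^ D) := by gcongr
      _ = K₁ ^ k * K₂ * μ ^ D * ‖C.det‖ ^ k := by ring

end Term

section Val

variable {d n : ℕ} {V : Type} [NormedAddCommGroup V] [InnerProductSpace ℂ V]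
  [FiniteDimensional ℂ V] {Q : (Fin n → ℝ) → (Fin n → ℝ) → ℝ}
  {wt k D q : ℕ} {T : ((Fin d → ℂ) → V) → (Fin d → ℂ) → ℂ} {φ : ℂ × Cub V → ℂ}
  {π₀ : (Fin n → ℝ) ≃L[ℝ] V} {G₀ : V ≃L[ℂ] V}

/-- the terms of the series -/
noncomputable def gtm (π₀ : (Fin n → ℝ) ≃L[ℝ] V) (G₀ : V ≃L[ℂ] V)
    (T : ((Fin d → ℂ) → V) → (Fin d → ℂ) → ℂ) (φ : ℂ × Cub V → ℂ) (P : (Fin n → ℝ) ≃L[ℝ] V)
    (b : (Fin d → ℂ) → V) (x : ℂ × Cub V) (v : Fin d → ℂ) (M : Matrix (Fin n) (Fin n) ℤ) : ℂ :=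
  T (fun u => LN π₀ G₀ P M (b u)) v * φ (x.1, pull x.2 (LL π₀ P M))

/-- the series -/
noncomputable def gvd (Q : (Fin n → ℝ) → (Fin n → ℝ) → ℝ) (π₀ : (Fin n → ℝ) ≃L[ℝ] V)
    (G₀ : V ≃L[ℂ] V) (T : ((Fin d → ℂ) → V) → (Fin d → ℂ) → ℂ) (φ : ℂ × Cub V → ℂ)
    (P : (Fin n → ℝ) ≃L[ℝ] V) (b : (Fin d → ℂ) → V) (x : ℂ × Cub V) (v : Fin d → ℂ) : ℂ :=
  ∑' M : spq Q, gtm π₀ G₀ T φ P b x v (mx M)

theorem gvd_congr (hT : IsTerm wt k T) {P : (Fin n → ℝ) ≃L[ℝ] V} {b b' : (Fin d → ℂ) → V}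
    {v : Fin d → ℂ} (h : b =ᶠ[𝓝 v] b') (x : ℂ × Cub V) :
    gvd Q π₀ G₀ T φ P b x v = gvd Q π₀ G₀ T φ P b' x v := by
  unfold gvd gtm
  refine tsum_congr fun M => ?_
  congr 1
  refine hT.congr ?_
  filter_upwards [h] with u hu
  rw [hu]

theorem gvd_comp (hT : IsTerm wt k T) {P : (Fin n → ℝ) ≃L[ℝ] V} {b : (Fin d → ℂ) → V}
    {η : (Fin d → ℂ) → (Fin d → ℂ)} {v : Fin d → ℂ} (hη : ContDiffAt ℂ ω η v)
    (hb : ContDiffAt ℂ ω b (η v)) (x : ℂ × Cub V) :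
    gvd Q π₀ G₀ T φ P (fun u => b (η u)) x v =
      (fderiv ℂ η v).det ^ wt * gvd Q π₀ G₀ T φ P b x (η v) := by
  unfold gvd gtm
  rw [← tsum_mul_left]
  refine tsum_congr fun M => ?_
  have h1 := hT.comp (h := fun u => LN π₀ G₀ P (mx M) (b u)) hη
    ((ContinuousLinearMap.contDiff _).contDiffAt.comp _ hb)
  rw [h1, mul_assoc]

theorem gvd_smul (hφ : IsHom q φ) {P : (Fin n → ℝ) ≃L[ℝ] V} {b : (Fin d → ℂ) → V}
    {v : Fin d → ℂ} (s : ℂ) (x : ℂ × Cub V) :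
    gvd Q π₀ G₀ T φ P b (s • x) v = s ^ q * gvd Q π₀ G₀ T φ P b x v := by
  unfold gvd
  rw [← tsum_mul_left]
  refine tsum_congr fun M => ?_
  unfold gtm
  have h1 : ((s • x).1, pull (s • x).2 (LL π₀ P (mx M))) =
      s • ((x.1, pull x.2 (LL π₀ P (mx M))) : ℂ × Cub V) := Prod.ext rfl (pull_smul s x.2 _)
  rw [h1, hφ.hom]
  ring

theorem gvd_affine (hT : IsTerm wt k T) {P P' : (Fin n → ℝ) ≃L[ℝ] V} {G : V ≃L[ℂ] V}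
    (hG : IsPeriodChange Q P P' G) (c : V) {b : (Fin d → ℂ) → V} {v : Fin d → ℂ}
    (hb : ContDiffAt ℂ ω b v) (t : ℂ) (w : Cub V) :
    gvd Q π₀ G₀ T φ P' (fun s => G (b s) + c) (t, w) v =
      gvd Q π₀ G₀ T φ P b (t, pull w (G : V →L[ℂ] V)) v := by
  obtain ⟨M', hM'⟩ := IsPeriodChange.exists_mx hG
  unfold gvd
  rw [← (Equiv.mulLeft M').tsum_eq]
  refine tsum_congr fun M => ?_
  show T (fun u => LN π₀ G₀ P' (mx (M' * M)) (G (b u) + c)) v *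
    φ (t, pull w (LL π₀ P' (mx (M' * M)))) = T (fun u => LN π₀ G₀ P (mx M) (b u)) v *
    φ (t, pull (pull w (G : V →L[ℂ] V)) (LL π₀ P (mx M)))
  have h2 : TT π₀ P' (mx (M' * M)) =
      ((G : V →L[ℂ] V).restrictScalars ℝ).comp (TT π₀ P (mx M)) := by
    ext v
    show P' (mact (mx (M' * M)) (π₀.symm v)) = G (P (mact (mx M) (π₀.symm v)))
    rw [mx_mul, mact_mul, hM']
  have h3 : LL π₀ P' (mx (M' * M)) = (G : V →L[ℂ] V).comp (LL π₀ P (mx M)) := by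
    rw [LL, h2, clin_comp_left, LL]
  have h4 : ∀ w, LN π₀ G₀ P' (mx (M' * M)) (G w) = LN π₀ G₀ P (mx M) w := by
    intro w
    unfold LN
    rw [h3, ContinuousLinearMap.inverse_equiv_comp]
    simp
  have h5 : (fun u => LN π₀ G₀ P' (mx (M' * M)) (G (b u) + c)) =
      fun u => LN π₀ G₀ P (mx M) (b u) + LN π₀ G₀ P' (mx (M' * M)) c := by
    funext u
    rw [map_add, h4]
  rw [h5, pull_pull, ← h3]
  congr 1
  exact hT.shift ((ContinuousLinearMap.contDiff _).contDiffAt.comp _ hb) _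

/-- bound of the factor `φ` -/
theorem phi_le (h₀ : IsPol Q π₀ G₀) {P : (Fin n → ℝ) ≃L[ℝ] V} {G : V ≃L[ℂ] V}
    (h : IsPol Q P G) {K : ℝ} (hK : 0 ≤ K) (hφ : ∀ x, ‖φ x‖ ≤ K * ‖x‖ ^ q) (M : spq Q)
    (x : ℂ × Cub V) :
    ‖φ (x.1, pull x.2 (LL π₀ P (mx M)))‖ ≤
      K * (‖x.1‖ + 8 * ‖(G₀ : V →L[ℂ] V)‖ ^ 3 * ‖pull x.2 (G.symm : V →L[ℂ] V)‖) ^ q *
        dl π₀ P G₀ G (mx M) ^ (3 * q) := by
  set δ := dl π₀ P G₀ G (mx M) with hδ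
  have hδ1 : 1 ≤ δ := one_le_dl h₀ h M
  have hδ0 : 0 < δ := by linarith
  have h2 : ‖((x.1, pull x.2 (LL π₀ P (mx M))) : ℂ × Cub V)‖ ≤
      (‖x.1‖ + 8 * ‖(G₀ : V →L[ℂ] V)‖ ^ 3 * ‖pull x.2 (G.symm : V →L[ℂ] V)‖) * δ ^ 3 := by
    have h3 := norm_pullL_le h₀ h M x.2
    have h4 : 1 ≤ δ ^ 3 := one_le_pow₀ hδ1
    refine max_le ?_ ?_
    · show ‖x.1‖ ≤ _
      calc ‖x.1‖ ≤ ‖x.1‖ * δ ^ 3 := le_mul_of_one_le_right (norm_nonneg _) h4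
        _ ≤ _ := by
          gcongr
          have : 0 ≤ 8 * ‖(G₀ : V →L[ℂ] V)‖ ^ 3 * ‖pull x.2 (G.symm : V →L[ℂ] V)‖ := by
            positivity
          linarith
    · show ‖pull x.2 (LL π₀ P (mx M))‖ ≤ _
      refine h3.trans ?_
      gcongr
      have : 0 ≤ ‖x.1‖ := norm_nonneg _
      linarith
  refine (hφ _).trans ?_
  calc K * ‖((x.1, pull x.2 (LL π₀ P (mx M))) : ℂ × Cub V)‖ ^ q ≤
        K * ((‖x.1‖ + 8 * ‖(G₀ : V →L[ℂ] V)‖ ^ 3 * ‖pull x.2 (G.symm : V →L[ℂ] V)‖) *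
          δ ^ 3) ^ q := by gcongr
    _ = _ := by rw [mul_pow, ← pow_mul]; ring

theorem inv_pow_mul {δ : ℝ} (hδ : 0 < δ) {k q : ℕ} (hk : 3 * q ≤ k) :
    δ⁻¹ ^ k * δ ^ (3 * q) = δ⁻¹ ^ (k - 3 * q) := by
  have h6 : δ⁻¹ ^ k = δ⁻¹ ^ (3 * q) * δ⁻¹ ^ (k - 3 * q) := by
    rw [← pow_add]
    congr 1
    omega
  have h7 : δ⁻¹ ^ (3 * q) * δ ^ (3 * q) = 1 := by
    rw [← mul_pow, inv_mul_cancel₀ hδ.ne', one_pow]
  rw [h6, mul_right_comm, h7, one_mul]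

/-- bound of a term -/
theorem gtm_bound {r R : ℝ} (hr : 0 < r) (hR : 0 ≤ R) (hT : IsTermD wt k D T) {Kφ : ℝ}
    (hKφ : 0 ≤ Kφ) (hφ : ∀ x, ‖φ x‖ ≤ Kφ * ‖x‖ ^ q) (hk : 3 * q ≤ k) (h₀ : IsPol Q π₀ G₀) :
    ∃ K : ℝ, 0 ≤ K ∧ ∀ (P : (Fin n → ℝ) ≃L[ℝ] V) (G : V ≃L[ℂ] V), IsPol Q P G →
      ∀ (b : (Fin d → ℂ) → V) (v₀ : Fin d → ℂ),
      DifferentiableOn ℂ b (ball v₀ r) →
      (∀ v ∈ ball v₀ r, ‖fderiv ℂ (fun u => G (b u)) v‖ ≤ R) → ∀ μ : ℝ, 0 < μ →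
      (∀ m : Fin d → (V →L[ℂ] ℂ), (∀ a, ‖m a‖ ≤ 1) → ‖minor m (fun u => G (b u)) v₀‖ ≤ μ) →
      ∀ (x : ℂ × Cub V) (M : spq Q),
      ‖gtm π₀ G₀ T φ P b x v₀ (mx M)‖ ≤ K * μ ^ D *
        (‖x.1‖ + 8 * ‖(G₀ : V →L[ℂ] V)‖ ^ 3 * ‖pull x.2 (G.symm : V →L[ℂ] V)‖) ^ q *
        (dl π₀ P G₀ G (mx M))⁻¹ ^ (k - 3 * q) := by
  obtain ⟨K, hK0, hK⟩ := hT.boundD r R hr hR
  refine ⟨K * Kφ, by positivity, fun P G hG b v₀ hb hm μ hμ hmμ x M => ?_⟩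
  obtain ⟨C, hC1, hC2, hC3⟩ := LN_facts h₀ hG M
  have h1 : (fun u => LN π₀ G₀ P (mx M) (b u)) = fun u => C (G (b u)) := by
    funext u
    rw [hC3]
    rfl
  have h2 : ‖T (fun u => LN π₀ G₀ P (mx M) (b u)) v₀‖ ≤
      K * μ ^ D * (dl π₀ P G₀ G (mx M))⁻¹ ^ k := by
    rw [h1, ← hC2]
    exact hK C hC1 (fun u => G (b u)) v₀
      ((G : V →L[ℂ] V).differentiable.comp_differentiableOn hb) hm μ hμ hmμ
  have h3 := phi_le h₀ hG hKφ hφ M x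
  have hδ : 0 < dl π₀ P G₀ G (mx M) := by linarith [one_le_dl h₀ hG M]
  unfold gtm
  rw [norm_mul]
  set A := (‖x.1‖ + 8 * ‖(G₀ : V →L[ℂ] V)‖ ^ 3 * ‖pull x.2 (G.symm : V →L[ℂ] V)‖) ^ q
  calc _ ≤ (K * μ ^ D * (dl π₀ P G₀ G (mx M))⁻¹ ^ k) *
        (Kφ * A * dl π₀ P G₀ G (mx M) ^ (3 * q)) := by gcongr
    _ = K * Kφ * μ ^ D * A * ((dl π₀ P G₀ G (mx M))⁻¹ ^ k * dl π₀ P G₀ G (mx M) ^ (3 * q)) := by
        ring
    _ = _ := by rw [inv_pow_mul hδ hk]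

/-- bound of a term, without the minors -/
theorem gtm_bound0 {r R : ℝ} (hr : 0 < r) (hR : 0 ≤ R) (hT : IsTerm wt k T) {Kφ : ℝ}
    (hKφ : 0 ≤ Kφ) (hφ : ∀ x, ‖φ x‖ ≤ Kφ * ‖x‖ ^ q) (hk : 3 * q ≤ k) (h₀ : IsPol Q π₀ G₀) :
    ∃ K : ℝ, 0 ≤ K ∧ ∀ (P : (Fin n → ℝ) ≃L[ℝ] V) (G : V ≃L[ℂ] V), IsPol Q P G →
      ∀ (b : (Fin d → ℂ) → V) (v₀ : Fin d → ℂ),
      DifferentiableOn ℂ b (ball v₀ r) →
      (∀ v ∈ ball v₀ r, ‖fderiv ℂ (fun u => G (b u)) v‖ ≤ R) → ∀ (x : ℂ × Cub V) (M : spq Q),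
      ‖gtm π₀ G₀ T φ P b x v₀ (mx M)‖ ≤ K *
        (‖x.1‖ + 8 * ‖(G₀ : V →L[ℂ] V)‖ ^ 3 * ‖pull x.2 (G.symm : V →L[ℂ] V)‖) ^ q *
        (dl π₀ P G₀ G (mx M))⁻¹ ^ (k - 3 * q) := by
  obtain ⟨K, hK0, hK⟩ := trm_bound (Q := Q) hr hR hT h₀
  refine ⟨K * Kφ, by positivity, fun P G hG b v₀ hb hm x M => ?_⟩
  have h2 := hK P G hG b v₀ hb hm M
  have h3 := phi_le h₀ hG hKφ hφ M x
  have hδ : 0 < dl π₀ P G₀ G (mx M) := by linarith [one_le_dl h₀ hG M]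
  unfold gtm
  rw [norm_mul]
  set A := (‖x.1‖ + 8 * ‖(G₀ : V →L[ℂ] V)‖ ^ 3 * ‖pull x.2 (G.symm : V →L[ℂ] V)‖) ^ q
  calc _ ≤ (K * (dl π₀ P G₀ G (mx M))⁻¹ ^ k) *
        (Kφ * A * dl π₀ P G₀ G (mx M) ^ (3 * q)) := by gcongr
    _ = K * Kφ * A * ((dl π₀ P G₀ G (mx M))⁻¹ ^ k * dl π₀ P G₀ G (mx M) ^ (3 * q)) := by
        ring
    _ = _ := by rw [inv_pow_mul hδ hk]

theorem gvd_bound (hn : 0 < n) {r R : ℝ} (hr : 0 < r) (hR : 0 ≤ R) (hT : IsTermD wt k D T)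
    {Kφ : ℝ} (hKφ : 0 ≤ Kφ) (hφ : ∀ x, ‖φ x‖ ≤ Kφ * ‖x‖ ^ q)
    (hk : 3 * q + 2 * (n * n + 1) ≤ k) (h₀ : IsPol Q π₀ G₀) :
    ∃ K : ℝ, 0 ≤ K ∧ ∀ (P : (Fin n → ℝ) ≃L[ℝ] V) (G : V ≃L[ℂ] V), IsPol Q P G →
      ∀ (b : (Fin d → ℂ) → V) (v₀ : Fin d → ℂ),
      DifferentiableOn ℂ b (ball v₀ r) →
      (∀ v ∈ ball v₀ r, ‖fderiv ℂ (fun u => G (b u)) v‖ ≤ R) → ∀ μ : ℝ, 0 < μ →
      (∀ m : Fin d → (V →L[ℂ] ℂ), (∀ a, ‖m a‖ ≤ 1) → ‖minor m (fun u => G (b u)) v₀‖ ≤ μ) →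
      ∀ x : ℂ × Cub V, ‖gvd Q π₀ G₀ T φ P b x v₀‖ ≤ K * (μ ^ D *
        (‖x.1‖ + 8 * ‖(G₀ : V →L[ℂ] V)‖ ^ 3 * ‖pull x.2 (G.symm : V →L[ℂ] V)‖) ^ q) := by
  obtain ⟨K, hK0, hK⟩ := gtm_bound (Q := Q) hr hR hT hKφ hφ (by omega) h₀
  refine ⟨K * |CP Q π₀ G₀|, by positivity, fun P G hG b v₀ hb hm μ hμ hmμ x => ?_⟩
  set A := (‖x.1‖ + 8 * ‖(G₀ : V →L[ℂ] V)‖ ^ 3 * ‖pull x.2 (G.symm : V →L[ℂ] V)‖) ^ q with hA
  have hA0 : 0 ≤ A := by positivity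
  have h1 := dl_sum hn (Nat.lt_succ_self (n * n)) h₀ hG
  have h2 : ∀ M : spq Q, ‖gtm π₀ G₀ T φ P b x v₀ (mx M)‖ ≤
      K * μ ^ D * A * (dl π₀ P G₀ G (mx M))⁻¹ ^ (2 * (n * n + 1)) := fun M =>
    (hK P G hG b v₀ hb hm μ hμ hmμ x M).trans (mul_le_mul_of_nonneg_left
      (dl_pow_le h₀ hG (by omega) M) (by positivity))
  have h3 := h1.1.mul_left (K * μ ^ D * A)
  have h4 : Summable (fun M : spq Q => ‖gtm π₀ G₀ T φ P b x v₀ (mx M)‖) :=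
    Summable.of_nonneg_of_le (fun M => norm_nonneg _) h2 h3
  refine (norm_tsum_le_tsum_norm h4).trans ?_
  calc ∑' M : spq Q, ‖gtm π₀ G₀ T φ P b x v₀ (mx M)‖
      ≤ ∑' M : spq Q, K * μ ^ D * A * (dl π₀ P G₀ G (mx M))⁻¹ ^ (2 * (n * n + 1)) :=
        h4.tsum_le_tsum h2 h3
    _ = K * μ ^ D * A * ∑' M : spq Q, (dl π₀ P G₀ G (mx M))⁻¹ ^ (2 * (n * n + 1)) :=
        tsum_mul_left
    _ ≤ K * μ ^ D * A * |CP Q π₀ G₀| :=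
        mul_le_mul_of_nonneg_left (h1.2.trans (le_abs_self _)) (by positivity)
    _ = _ := by ring

variable {E : Type} [NormedAddCommGroup E] [NormedSpace ℂ E] [FiniteDimensional ℂ E]

/-- The series is holomorphic. -/
theorem gvd_analytic (hn : 0 < n) (hk : 3 * q + (n * n + 1) ≤ k) (hT : IsTerm wt k T)
    (hφ : IsHom q φ) (h₀ : IsPol Q π₀ G₀) {U : Set E} (hU : IsOpen U)
    {P : E → ((Fin n → ℝ) ≃L[ℝ] V)}
    (hP : ∀ x, DifferentiableOn ℂ (fun z => P z x) U) (hpol : ∀ z ∈ U, ∃ G, IsPol Q (P z) G)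
    {B : E × (Fin d → ℂ) → V} {Z : E × (Fin d → ℂ) → ℂ × Cub V} {x₀ : E × (Fin d → ℂ)}
    (hx₀ : x₀.1 ∈ U) (hB : ContDiffAt ℂ ω B x₀) (hZ : ContDiffAt ℂ ω Z x₀) :
    AnalyticAt ℂ (fun x : E × (Fin d → ℂ) =>
      gvd Q π₀ G₀ T φ (P x.1) (fun u => B (x.1, u)) (Z x) x.2) x₀ := by
  have hn' : (ω : WithTop ℕ∞) ≠ 0 := by simp
  obtain ⟨Kφ, hKφ, hφK⟩ := hφ.grow
  have hcP : ContinuousAt (fun z => (P z : (Fin n → ℝ) →L[ℝ] V)) x₀.1 :=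
    contAt_of_pointwise hU hP hx₀
  obtain ⟨C, hC0, hC⟩ := loc_bound h₀ hcP
  -- a ball on which `B` is analytic with bounded derivative
  have hfdc : ContinuousAt (fderiv ℂ B) x₀ :=
    (hB.fderiv_right (m := ω) (by simp)).continuousAt
  have hev : ∀ᶠ x in 𝓝 x₀, (ContDiffAt ℂ ω B x ∧ ‖fderiv ℂ B x‖ < ‖fderiv ℂ B x₀‖ + 1) ∧
      ContDiffAt ℂ ω Z x ∧ ‖Z x‖ < ‖Z x₀‖ + 1 :=
    ((hB.eventually (by simp)).and (hfdc.norm.eventually_lt_const (by linarith))).and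
      ((hZ.eventually (by simp)).and (hZ.continuousAt.norm.eventually_lt_const (by linarith)))
  obtain ⟨δ, hδ, hball⟩ := Metric.eventually_nhds_iff_ball.1 hev
  set ρ := δ / 2 with hρ
  have hρ0 : 0 < ρ := by positivity
  set L : ℝ := ‖fderiv ℂ B x₀‖ + 1 with hL
  have hL0 : 0 ≤ L := by positivity
  have hR0 : 0 ≤ C * L := by positivity
  obtain ⟨K, hK0, hK⟩ := gtm_bound0 (Q := Q) (π₀ := π₀) (G₀ := G₀) hρ0 hR0 hT hKφ hφK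
    (by omega) h₀
  set g₀ : ℝ := C0 π₀ G₀ * C with hg₀
  have hC00 : 0 ≤ C0 π₀ G₀ := by unfold C0; positivity
  -- constants for the cubic forms
  set Cp : ℝ := ‖(P x₀.1 : (Fin n → ℝ) →L[ℝ] V)‖ + 1 with hCp
  set Cs : ℝ := Cp * (‖(π₀.symm : V →L[ℝ] (Fin n → ℝ))‖ * (‖(G₀.symm : V →L[ℂ] V)‖ *
        (2 * C))) with hCs
  set Cw : ℝ := ‖Z x₀‖ + 1 with hCw
  set Bw : ℝ := Cw + 8 * ‖(G₀ : V →L[ℂ] V)‖ ^ 3 * (Cw * Cs ^ 3) with hBw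
  have hCp0 : 0 ≤ Cp := by positivity
  have hCs0 : 0 ≤ Cs := by positivity
  have hCw0 : 0 ≤ Cw := by positivity
  have hBw0 : 0 ≤ Bw := by positivity
  have hpev : ∀ᶠ z in 𝓝 x₀.1, ‖(P z : (Fin n → ℝ) →L[ℝ] V)‖ < Cp :=
    hcP.norm.eventually (gt_mem_nhds (by linarith))
  -- the neighbourhood
  have hnear : ∀ᶠ x : E × (Fin d → ℂ) in 𝓝 x₀, x ∈ ball x₀ ρ ∧ x.1 ∈ U ∧
      (∀ G : V ≃L[ℂ] V, IsPol Q (P x.1) G →
      ‖(G : V →L[ℂ] V)‖ ≤ C ∧ ‖(G : V →L[ℂ] V).det‖ ≤ C ∧ dl π₀ (P x.1) G₀ G 1 ≤ C) ∧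
      ‖(P x.1 : (Fin n → ℝ) →L[ℝ] V)‖ < Cp := by
    filter_upwards [ball_mem_nhds x₀ hρ0, continuousAt_fst.eventually (hU.mem_nhds hx₀),
      continuousAt_fst.eventually hC, continuousAt_fst.eventually hpev] with x h1 h2 h3 h4
      using ⟨h1, h2, h3, h4⟩
  obtain ⟨U', hU'1, hU'2, hU'3⟩ := _root_.eventually_nhds_iff.1 hnear
  have hpair : ∀ x ∈ U', ∀ u ∈ ball x.2 ρ, (x.1, u) ∈ ball x₀ δ := by
    intro x hx u hu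
    have h1 := mem_ball.1 (hU'1 x hx).1
    have h2 := mem_ball.1 hu
    rw [mem_ball]
    have h3 : dist (x.1, u) x ≤ dist u x.2 := by
      rw [Prod.dist_eq]
      simp
    have h4 := dist_triangle (x.1, u) x x₀
    linarith
  have hself : ∀ x ∈ U', x ∈ ball x₀ δ := fun x hx => hpair x hx x.2 (mem_ball_self hρ0)
  have hslice : ∀ x ∈ U', ∀ u ∈ ball x.2 ρ, HasFDerivAt (fun u => B (x.1, u))
      ((fderiv ℂ B (x.1, u)).comp (ContinuousLinearMap.inr ℂ E (Fin d → ℂ))) u := by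
    intro x hx u hu
    have h2 : HasFDerivAt (fun u : Fin d → ℂ => (x.1, u))
        (ContinuousLinearMap.inr ℂ E (Fin d → ℂ)) u := hasFDerivAt_prodMk_right _ _
    have h4 : HasFDerivAt B (fderiv ℂ B (x.1, u)) (x.1, u) :=
      ((hball _ (hpair x hx u hu)).1.1.differentiableAt (by simp)).hasFDerivAt
    exact h4.comp u h2
  refine analyticAt_tsum (U := U')
    (u := fun M : spq Q => K * Bw ^ q * (g₀ * ‖mact (mx M)‖⁻¹) ^ (k - 3 * q))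
    (hU'2.mem_nhds hU'3) (fun M x hx => ?_) ?_ (fun M x hx => ?_)
  · obtain ⟨G, hG⟩ := hpol x.1 (hU'1 x hx).2.1
    have hxU := (hU'1 x hx).2.1
    have h1 : ContDiffAt ℂ ω (fun z => LN π₀ G₀ (P z) (mx M)) x.1 :=
      LN_contDiffAt hU hP hxU (dl_ne h₀ hG M)
    have h2 : ContDiffAt ℂ ω B x := (hball _ (hself x hx)).1.1
    have h3 : ContDiffAt ℂ ω (fun y : E × (Fin d → ℂ) =>
        LN π₀ G₀ (P y.1) (mx M) (B y)) x :=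
      (h1.comp x contDiffAt_fst).clm_apply h2
    have h4 : ContDiffAt ℂ ω (fun z => LL π₀ (P z) (mx M)) x.1 :=
      (LL_diff hU hP (mx M)).contDiffAt (hU.mem_nhds hxU)
    have h5 : ContDiffAt ℂ ω Z x := (hball _ (hself x hx)).2.1
    have h6 : ContDiffAt ℂ ω (fun y : E × (Fin d → ℂ) =>
        pull (Z y).2 (LL π₀ (P y.1) (mx M))) x := by
      have h7 : ContDiffAt ℂ ω (fun y : E × (Fin d → ℂ) => ((Z y).2, LL π₀ (P y.1) (mx M))) x :=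
        h5.snd.prodMk (h4.comp x contDiffAt_fst)
      exact contDiff_pull.contDiffAt.comp x h7
    have h8 : ContDiffAt ℂ ω (fun y : E × (Fin d → ℂ) =>
        φ ((Z y).1, pull (Z y).2 (LL π₀ (P y.1) (mx M)))) x :=
      hφ.cd.contDiffAt.comp x (h5.fst.prodMk h6)
    exact (((hT.joint _ x h3).mul h8).differentiableAt hn').differentiableWithinAt
  · have h1 : (fun M : spq Q => K * Bw ^ q * (g₀ * ‖mact (mx M)‖⁻¹) ^ (k - 3 * q)) =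
        fun M : spq Q => (K * Bw ^ q * g₀ ^ (k - 3 * q)) * ‖mact (mx M)‖⁻¹ ^ (k - 3 * q) := by
      funext M
      rw [mul_pow, mul_assoc, mul_assoc, mul_assoc]
    rw [h1]
    exact (summable_mx hn (by omega)).mul_left _
  · obtain ⟨G, hG⟩ := hpol x.1 (hU'1 x hx).2.1
    obtain ⟨hG1, hG2, hG3⟩ := (hU'1 x hx).2.2.1 G hG
    have h1 := hK (P x.1) G hG (fun u => B (x.1, u)) x.2
      (fun u hu => (hslice x hx u hu).differentiableAt.differentiableWithinAt)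
      (fun u hu => by
        have h5 : HasFDerivAt (fun u => G (B (x.1, u))) ((G : V →L[ℂ] V).comp
            ((fderiv ℂ B (x.1, u)).comp (ContinuousLinearMap.inr ℂ E (Fin d → ℂ)))) u :=
          (G : V →L[ℂ] V).hasFDerivAt.comp u (hslice x hx u hu)
        rw [h5.fderiv]
        refine (ContinuousLinearMap.opNorm_comp_le _ _).trans
          (mul_le_mul hG1 ?_ (norm_nonneg _) hC0)
        refine (ContinuousLinearMap.opNorm_comp_le _ _).trans ?_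
        have h2 : ‖ContinuousLinearMap.inr ℂ E (Fin d → ℂ)‖ ≤ 1 :=
          ContinuousLinearMap.norm_inr_le_one ℂ E (Fin d → ℂ)
        have h3 := (hball _ (hpair x hx u hu)).1.2.le
        calc _ ≤ L * 1 := mul_le_mul h3 h2 (norm_nonneg _) hL0
          _ = L := mul_one _) (Z x) M
    have hZx : ‖Z x‖ ≤ Cw := (hball _ (hself x hx)).2.2.le
    have hpz := (hU'1 x hx).2.2.2.le
    have h6 : ‖(G.symm : V →L[ℂ] V)‖ ≤ Cs := by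
      refine (symm_le h₀ hG).trans ?_
      have hd1 := one_le_dl h₀ hG 1
      rw [mx_one] at hd1
      have hd0 : 0 ≤ dl π₀ (P x.1) G₀ G 1 := by linarith
      rw [hCs]
      refine mul_le_mul hpz ?_ (by positivity) hCp0
      gcongr
    have h8 : ‖(Z x).1‖ + 8 * ‖(G₀ : V →L[ℂ] V)‖ ^ 3 * ‖pull (Z x).2 (G.symm : V →L[ℂ] V)‖ ≤
        Bw := by
      have h9 : ‖(Z x).1‖ ≤ Cw := (norm_fst_le (Z x)).trans hZx
      have h10 : ‖pull (Z x).2 (G.symm : V →L[ℂ] V)‖ ≤ Cw * Cs ^ 3 := by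
        refine (norm_pull_le _ _).trans ?_
        gcongr
        exact (norm_snd_le (Z x)).trans hZx
      rw [hBw]
      gcongr
    have h2 := mact_le h₀ hG 1 M
    rw [inv_one, one_mul, mx_one] at h2
    have h3 := one_le_dl h₀ hG M
    have h4 := mact_mx_pos hn M
    have h7 : 0 ≤ (dl π₀ (P x.1) G₀ G (mx M))⁻¹ := inv_nonneg.2 (norm_nonneg _)
    have h5 : (dl π₀ (P x.1) G₀ G (mx M))⁻¹ ≤ g₀ * ‖mact (mx M)‖⁻¹ := by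
      rw [← div_eq_mul_inv, inv_eq_one_div, div_le_div_iff₀ (by linarith) h4, one_mul]
      refine h2.trans ?_
      rw [hg₀, mul_assoc]
      gcongr
    refine h1.trans ?_
    gcongr

end Val

end Vale.Agent.P281.H511.UD
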